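import Vale.Agent.P113.Defs

/-!
The bump functions of P113 and their periodizations.
-/

namespace Vale.Agent.P113

open MeasureTheory
open scoped ContDiff

noncomputable section

lemma rho_eq (s : ℝ) : rho s = expNegInvGlue (1 - s ^ 2) := by
  unfold rho expNegInvGlue
  by_cases h : |s| < 1
  · have h2 : s ^ 2 < 1 := by rw [← sq_abs]; nlinarith [abs_nonneg s]
    rw [if_pos h, if_neg (by linarith)]
    congr 1
    rw [neg_div, one_div]
  · have h2 : 1 ≤ s ^ 2 := by rw [← sq_abs]; nlinarith [abs_nonneg s, not_lt.mp h]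
    rw [if_neg h, if_pos (by linarith)]

lemma rho_contDiff : ContDiff ℝ ∞ rho := by
  have : rho = fun s : ℝ => expNegInvGlue (1 - s ^ 2) := funext rho_eq
  rw [this]
  exact expNegInvGlue.contDiff.comp (contDiff_const.sub (contDiff_id.pow 2))

lemma rho_continuous : Continuous rho := rho_contDiff.continuous

lemma rho_nonneg (s : ℝ) : 0 ≤ rho s := by rw [rho_eq]; exact expNegInvGlue.nonneg _

lemma rho_eq_zero {s : ℝ} (h : 1 ≤ |s|) : rho s = 0 := by
  unfold rho; rw [if_neg (not_lt.mpr h)]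

lemma rho_pos {s : ℝ} (h : |s| < 1) : 0 < rho s := by
  unfold rho; rw [if_pos h]; exact Real.exp_pos _

lemma rho_hasCompactSupport : HasCompactSupport rho := by
  refine HasCompactSupport.intro (isCompact_Icc (a := (-1 : ℝ)) (b := 1)) ?_
  intro s hs
  apply rho_eq_zero
  by_contra h
  have := abs_lt.mp (not_le.mp h)
  exact hs ⟨this.1.le, this.2.le⟩

lemma rho_integrable : Integrable rho :=
  rho_continuous.integrable_of_hasCompactSupport rho_hasCompactSupport

lemma kappa_pos : 0 < kappa := by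
  unfold kappa
  rw [integral_pos_iff_support_of_nonneg rho_nonneg rho_integrable]
  have hsub : Set.Ioo (-1 : ℝ) 1 ⊆ Function.support rho := fun s hs =>
    (rho_pos (abs_lt.mpr ⟨hs.1, hs.2⟩)).ne'
  refine lt_of_lt_of_le ?_ (measure_mono hsub)
  simp [Real.volume_Ioo]

lemma kappa_ne_zero : kappa ≠ 0 := kappa_pos.ne'

lemma sigmaFn_eq (s : ℝ) : sigmaFn s = sigmaFn (-1) + ∫ r in (-1 : ℝ)..s, rho r := by
  unfold sigmaFn
  rw [← intervalIntegral.integral_Iic_sub_Iic rho_integrable.integrableOn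
    rho_integrable.integrableOn]
  ring

lemma sigmaFn_eq_zero {s : ℝ} (h : s ≤ -1) : sigmaFn s = 0 := by
  unfold sigmaFn
  apply setIntegral_eq_zero_of_forall_eq_zero
  intro r hr
  apply rho_eq_zero
  rw [abs_of_nonpos (by linarith [Set.mem_Iic.mp hr])]
  linarith [Set.mem_Iic.mp hr]

lemma sigmaFn_eq_kappa {s : ℝ} (h : 1 ≤ s) : sigmaFn s = kappa := by
  unfold sigmaFn kappa
  apply setIntegral_eq_integral_of_forall_compl_eq_zero
  intro r hr
  have hr' : s < r := not_le.mp hr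
  apply rho_eq_zero
  rw [abs_of_nonneg (by linarith)]; linarith

lemma sigmaFn_hasDerivAt (s : ℝ) : HasDerivAt sigmaFn (rho s) s := by
  have h : sigmaFn = fun s => sigmaFn (-1) + ∫ r in (-1 : ℝ)..s, rho r := funext sigmaFn_eq
  rw [h]
  exact (intervalIntegral.integral_hasDerivAt_right (rho_continuous.intervalIntegrable _ _)
    (rho_continuous.stronglyMeasurableAtFilter _ _) rho_continuous.continuousAt).const_add _

lemma sigmaFn_monotone : Monotone sigmaFn :=
  monotone_of_hasDerivAt_nonneg sigmaFn_hasDerivAt rho_nonneg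

lemma sigmaFn_mem (s : ℝ) : 0 ≤ sigmaFn s ∧ sigmaFn s ≤ kappa := by
  constructor
  · rw [← sigmaFn_eq_zero (min_le_right s (-1))]
    exact sigmaFn_monotone (min_le_left _ _)
  · rw [← sigmaFn_eq_kappa (le_max_right s 1)]
    exact sigmaFn_monotone (le_max_left _ _)

lemma sigmaFn_contDiff : ContDiff ℝ ∞ sigmaFn := by
  rw [contDiff_infty_iff_deriv]
  refine ⟨fun s => (sigmaFn_hasDerivAt s).differentiableAt, ?_⟩
  have : deriv sigmaFn = rho := funext fun s => (sigmaFn_hasDerivAt s).deriv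
  rw [this]; exact rho_contDiff

lemma iteratedDeriv_rho_contDiff (j : ℕ) : ContDiff ℝ ∞ (iteratedDeriv j rho) := by
  rw [iteratedDeriv_eq_iterate]
  induction j with
  | zero => simpa using rho_contDiff
  | succ j ih =>
    rw [Function.iterate_succ', Function.comp_apply]
    exact (contDiff_infty_iff_deriv.mp ih).2

lemma piFn_contDiff (l : ℝ) : ContDiff ℝ ∞ (piFn l) :=
  sigmaFn_contDiff.sub (sigmaFn_contDiff.comp (contDiff_id.sub contDiff_const))

lemma piFn_eq_kappa {l s : ℝ} (h1 : 1 ≤ s) (h2 : s ≤ l - 1) : piFn l s = kappa := by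
  unfold piFn; rw [sigmaFn_eq_kappa h1, sigmaFn_eq_zero (by linarith)]; ring

lemma piFn_eq_zero {l s : ℝ} (hl : 0 ≤ l) (h : s ≤ -1 ∨ l + 1 ≤ s) : piFn l s = 0 := by
  unfold piFn
  rcases h with h | h
  · rw [sigmaFn_eq_zero h, sigmaFn_eq_zero (by linarith)]; ring
  · rw [sigmaFn_eq_kappa (by linarith), sigmaFn_eq_kappa (by linarith)]; ring

lemma piFn_hasDerivAt (l s : ℝ) : HasDerivAt (piFn l) (rho s - rho (s - l)) s := by
  exact (sigmaFn_hasDerivAt s).sub ((sigmaFn_hasDerivAt (s - l)).comp_sub_const s l)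

lemma bumpFn_contDiff (g : Bump) : ContDiff ℝ ∞ (bumpFn g) := by
  rcases g with ⟨j, k, a, b⟩ | ⟨k, a, b, l⟩
  · exact (contDiff_id.pow k).mul ((iteratedDeriv_rho_contDiff j).comp
      ((contDiff_const.mul contDiff_id).sub contDiff_const))
  · exact (contDiff_id.pow k).mul ((piFn_contDiff _).comp
      ((contDiff_const.mul contDiff_id).sub contDiff_const))

/-! ### Functions with compact support and their periodizations -/

/-- `g` vanishes outside `[-R, R]`. -/
def SupportedIn (R : ℝ) (g : ℝ → ℝ) : Prop := ∀ s, R < |s| → g s = 0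

/-- `g` vanishes outside some bounded interval. -/
def BoundedSupport (g : ℝ → ℝ) : Prop := ∃ R, SupportedIn R g

lemma BoundedSupport.periodize_eq_sum {g : ℝ → ℝ} {R : ℝ} (hg : SupportedIn R g) (y₀ : ℝ)
    {y : ℝ} (hy : |y - y₀| < 1) :
    periodize g y =
      ∑ m ∈ Finset.Icc (-⌈|y₀| + 1 + |R|⌉) ⌈|y₀| + 1 + |R|⌉, g (y + m) := by
  unfold periodize
  apply tsum_eq_sum
  intro m hm
  apply hg
  have hm' : ⌈|y₀| + 1 + |R|⌉ < |m| := by
    by_contra h
    exact hm (Finset.mem_Icc.mpr (abs_le.mp (not_lt.mp h)))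
  have h1 : |y₀| + 1 + |R| < |(m : ℝ)| :=
    lt_of_le_of_lt (Int.le_ceil _) (by rw [← Int.cast_abs]; exact_mod_cast hm')
  have h2 : |(m : ℝ)| ≤ |y + m| + |y| := by
    calc |(m : ℝ)| = |(y + m) - y| := by rw [add_sub_cancel_left]
      _ ≤ |y + m| + |y| := abs_sub _ _
  have h3 : |y| ≤ |y - y₀| + |y₀| := by
    calc |y| = |(y - y₀) + y₀| := by rw [sub_add_cancel]
      _ ≤ _ := abs_add_le _ _
  linarith [le_abs_self R]

lemma BoundedSupport.periodize_contDiff {g : ℝ → ℝ} (hb : BoundedSupport g)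
    (hg : ContDiff ℝ ∞ g) : ContDiff ℝ ∞ (periodize g) := by
  obtain ⟨R, hR⟩ := hb
  rw [contDiff_iff_contDiffAt]
  intro y₀
  set N := ⌈|y₀| + 1 + |R|⌉
  have h : ContDiffAt ℝ ∞ (fun y : ℝ => ∑ m ∈ Finset.Icc (-N) N, g (y + m)) y₀ :=
    ContDiffAt.sum fun m _ => (hg.comp (contDiff_id.add contDiff_const)).contDiffAt
  refine h.congr_of_eventuallyEq ?_
  filter_upwards [Metric.ball_mem_nhds y₀ one_pos] with y hy
  exact periodize_eq_sum hR y₀ (by rwa [Metric.mem_ball, Real.dist_eq] at hy)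

lemma BoundedSupport.periodize_hasDerivAt {g g' : ℝ → ℝ} (hb : BoundedSupport g)
    (hd : ∀ s, HasDerivAt g (g' s) s) (y₀ : ℝ) :
    HasDerivAt (periodize g) (periodize g' y₀) y₀ := by
  obtain ⟨R, hR⟩ := hb
  have hR' : SupportedIn R g' := by
    intro s hs
    have hev : g =ᶠ[nhds s] fun _ => 0 := by
      filter_upwards [(isOpen_lt continuous_const continuous_abs).mem_nhds hs] with r hr
      exact hR r hr
    exact (hd s).unique ((hasDerivAt_const s (0 : ℝ)).congr_of_eventuallyEq hev)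
  rw [periodize_eq_sum hR' y₀ (y := y₀) (by simp)]
  set N := ⌈|y₀| + 1 + |R|⌉
  have h : HasDerivAt (fun y : ℝ => ∑ m ∈ Finset.Icc (-N) N, g (y + m))
      (∑ m ∈ Finset.Icc (-N) N, g' (y₀ + m)) y₀ :=
    HasDerivAt.fun_sum fun m _ => (hd _).comp_add_const y₀ (m : ℝ)
  refine h.congr_of_eventuallyEq ?_
  filter_upwards [Metric.ball_mem_nhds y₀ one_pos] with y hy
  exact periodize_eq_sum hR y₀ (by rwa [Metric.mem_ball, Real.dist_eq] at hy)

lemma periodize_add_int (g : ℝ → ℝ) (y : ℝ) (k : ℤ) : periodize g (y + k) = periodize g y := by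
  unfold periodize
  rw [← (Equiv.addLeft k).tsum_eq fun m : ℤ => g (y + m)]
  apply tsum_congr
  intro m
  simp [add_assoc]

lemma SupportedIn.deriv_fun {g : ℝ → ℝ} {R : ℝ} (hR : SupportedIn R g) :
    SupportedIn R (deriv g) := by
  intro s hs
  have hev : g =ᶠ[nhds s] fun _ => 0 := by
    filter_upwards [(isOpen_lt continuous_const continuous_abs).mem_nhds hs] with r hr
    exact hR r hr
  rw [hev.deriv_eq]; simp

lemma BoundedSupport.deriv_fun {g : ℝ → ℝ} (hb : BoundedSupport g) :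
    BoundedSupport (deriv g) := by
  obtain ⟨R, hR⟩ := hb
  exact ⟨R, hR.deriv_fun⟩

lemma BoundedSupport.summable {g : ℝ → ℝ} (hb : BoundedSupport g) (y : ℝ) :
    Summable fun m : ℤ => g (y + m) := by
  obtain ⟨R, hR⟩ := hb
  refine summable_of_ne_finset_zero
    (s := Finset.Icc (-⌈|y| + 1 + |R|⌉) ⌈|y| + 1 + |R|⌉) fun m hm => hR _ ?_
  have hm' : ⌈|y| + 1 + |R|⌉ < |m| := by
    by_contra h
    exact hm (Finset.mem_Icc.mpr (abs_le.mp (not_lt.mp h)))
  have h1 : |y| + 1 + |R| < |(m : ℝ)| :=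
    lt_of_le_of_lt (Int.le_ceil _) (by rw [← Int.cast_abs]; exact_mod_cast hm')
  have h2 : |(m : ℝ)| ≤ |y + m| + |y| := by
    calc |(m : ℝ)| = |(y + m) - y| := by rw [add_sub_cancel_left]
      _ ≤ |y + m| + |y| := abs_sub _ _
  linarith [le_abs_self R]

lemma periodize_eq_self {g : ℝ → ℝ} {lo hi : ℝ} (hlo : 0 ≤ lo) (hhi : hi ≤ 1)
    (hg : ∀ s, s ≤ lo ∨ hi ≤ s → g s = 0) {y : ℝ} (h0 : 0 ≤ y) (h1 : y ≤ 1) :
    periodize g y = g y := by
  unfold periodize
  rw [tsum_eq_single 0]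
  · simp
  · intro m hm
    apply hg
    rcases lt_or_gt_of_ne hm with h | h
    · left
      have : (m : ℝ) ≤ -1 := by exact_mod_cast (show m ≤ -1 by omega)
      linarith
    · right
      have : (1 : ℝ) ≤ m := by exact_mod_cast (show (1 : ℤ) ≤ m by omega)
      linarith

lemma iteratedDeriv_rho_supportedIn (j : ℕ) : SupportedIn 1 (iteratedDeriv j rho) := by
  induction j with
  | zero => intro s hs; rw [iteratedDeriv_zero]; exact rho_eq_zero hs.le
  | succ j ih =>
    intro s hs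
    rw [iteratedDeriv_succ]
    have hev : iteratedDeriv j rho =ᶠ[nhds s] fun _ => 0 := by
      filter_upwards [(isOpen_lt continuous_const continuous_abs).mem_nhds hs] with r hr
      exact ih r hr
    rw [hev.deriv_eq]; simp

lemma rho'_eq_zero {s : ℝ} (h : 1 ≤ |s|) : deriv rho s = 0 := by
  rcases lt_or_eq_of_le h with h | h
  · simpa [iteratedDeriv_one] using iteratedDeriv_rho_supportedIn 1 s h
  · have hmin : IsLocalMin rho s :=
      Filter.Eventually.of_forall fun r => by rw [rho_eq_zero h.le]; exact rho_nonneg r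
    exact hmin.deriv_eq_zero

lemma bumpFn_boundedSupport {g : Bump} (hv : bumpValid g) : BoundedSupport (bumpFn g) := by
  rcases g with ⟨j, k, a, b⟩ | ⟨k, a, b, l⟩
  · have ha : (ratVal a : ℝ) ≠ 0 := by exact_mod_cast hv
    refine ⟨(|(ratVal b : ℝ)| + 1) / |(ratVal a : ℝ)|, fun s hs => ?_⟩
    rw [div_lt_iff₀ (abs_pos.mpr ha), mul_comm, ← abs_mul] at hs
    simp only [bumpFn]
    rw [iteratedDeriv_rho_supportedIn j _ (by
      linarith [abs_sub_abs_le_abs_sub ((ratVal a : ℝ) * s) (ratVal b : ℝ)]), mul_zero]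
  · have ha : (ratVal a : ℝ) ≠ 0 := by exact_mod_cast hv.1
    have hl : (0 : ℝ) ≤ (ratVal l : ℝ) := by exact_mod_cast hv.2.le
    refine ⟨(|(ratVal b : ℝ)| + (ratVal l : ℝ) + 1) / |(ratVal a : ℝ)|, fun s hs => ?_⟩
    rw [div_lt_iff₀ (abs_pos.mpr ha), mul_comm, ← abs_mul] at hs
    simp only [bumpFn]
    rw [piFn_eq_zero hl ?_, mul_zero]
    have := abs_sub_abs_le_abs_sub ((ratVal a : ℝ) * s) (ratVal b : ℝ)
    rcases le_or_gt 0 ((ratVal a : ℝ) * s - (ratVal b : ℝ)) with h | h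
    · right; rw [abs_of_nonneg h] at this; linarith
    · left; rw [abs_of_neg h] at this; linarith

end

end Vale.Agent.P113
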