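import Vale.Agent.P113.Sim

/-!
The force compiler: five gated shears per step, a lifting shear at halting controls and a
translation loading the input during the first period.
-/

namespace Vale.Agent.P113

noncomputable section

/-- A piece `(B₁, B₂, α, β, γ)`: the profile `χ_{B₁}(a) χ_{B₂}(b) (α + β a + γ b)`. -/
abbrev Piece : Type := Box × Box × RatCode × RatCode × RatCode

namespace Sys

def base (σ : Sys) : ℕ := 2 * σ.digits + 2

def xScale (σ : Sys) : ℕ := 2 * σ.ctrls + 4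

def xBox (σ : Sys) (c : ℕ) (p : List ℕ) : Box := embBox σ.base σ.xScale c p

def yBox (σ : Sys) (p : List ℕ) : Box := embBox σ.base 4 0 p

def slot (σ : Sys) (i : ℕ) : Box := (4 * σ.rules.length + 8, 2 * i + 2)

def rule (σ : Sys) (i : ℕ) : Rw := σ.rules.getD i (0, [], [], 0, [], [])

/-- Lift of `z` to `3/4` at halting controls. -/
def phase0 (σ : Sys) : List Piece :=
  σ.lifts.map fun c => (σ.xBox c [], σ.yBox [], (3, 0, 4), (0, 0, 1), (0, 0, 1))

/-- `z += (Us + x)/S`. -/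
def piece1 (σ : Sys) (i : ℕ) : Piece :=
  (σ.xBox (σ.rule i).src (σ.rule i).popL, σ.yBox (σ.rule i).popR,
    ((σ.slot i).2, 0, (σ.slot i).1), (1, 0, (σ.slot i).1), (0, 0, 1))

/-- `x += G y - (S z - Us)`. -/
def piece2 (σ : Sys) (i : ℕ) : Piece :=
  (σ.yBox (σ.rule i).popR, σ.slot i,
    ((σ.yBox (σ.rule i).pushR).2 + (σ.slot i).2 * (σ.yBox (σ.rule i).pushR).1,
      (σ.yBox (σ.rule i).popR).2, (σ.yBox (σ.rule i).pushR).1),
    ((σ.yBox (σ.rule i).popR).1, 0, (σ.yBox (σ.rule i).pushR).1), (0, (σ.slot i).1, 1))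

/-- `y += x - G⁻¹ x`. -/
def piece3 (σ : Sys) (i : ℕ) : Piece :=
  (σ.yBox (σ.rule i).pushR, σ.slot i,
    ((σ.yBox (σ.rule i).pushR).2, (σ.yBox (σ.rule i).popR).2, (σ.yBox (σ.rule i).popR).1),
    ((σ.yBox (σ.rule i).popR).1, (σ.yBox (σ.rule i).pushR).1, (σ.yBox (σ.rule i).popR).1),
    (0, 0, 1))

/-- `x += F (S z - Us) - y`. -/
def piece4 (σ : Sys) (i : ℕ) : Piece :=
  (σ.yBox (σ.rule i).pushR, σ.slot i,
    ((σ.xBox (σ.rule i).tgt (σ.rule i).pushL).2,
      (σ.xBox (σ.rule i).src (σ.rule i).popL).1 * (σ.slot i).2 +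
        (σ.xBox (σ.rule i).src (σ.rule i).popL).2,
      (σ.xBox (σ.rule i).tgt (σ.rule i).pushL).1),
    (0, 1, 1),
    ((σ.xBox (σ.rule i).src (σ.rule i).popL).1 * (σ.slot i).1, 0,
      (σ.xBox (σ.rule i).tgt (σ.rule i).pushL).1))

/-- `z -= (Us + F⁻¹ x)/S`. -/
def piece5 (σ : Sys) (i : ℕ) : Piece :=
  (σ.xBox (σ.rule i).tgt (σ.rule i).pushL, σ.yBox (σ.rule i).pushR,
    ((σ.xBox (σ.rule i).tgt (σ.rule i).pushL).2,
      (σ.slot i).2 * (σ.xBox (σ.rule i).src (σ.rule i).popL).1 +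
        (σ.xBox (σ.rule i).src (σ.rule i).popL).2,
      (σ.xBox (σ.rule i).src (σ.rule i).popL).1 * (σ.slot i).1),
    (0, (σ.xBox (σ.rule i).tgt (σ.rule i).pushL).1,
      (σ.xBox (σ.rule i).src (σ.rule i).popL).1 * (σ.slot i).1),
    (0, 0, 1))

def phase1 (σ : Sys) : List Piece := (List.range σ.rules.length).map σ.piece1
def phase2 (σ : Sys) : List Piece := (List.range σ.rules.length).map σ.piece2
def phase3 (σ : Sys) : List Piece := (List.range σ.rules.length).map σ.piece3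
def phase4 (σ : Sys) : List Piece := (List.range σ.rules.length).map σ.piece4
def phase5 (σ : Sys) : List Piece := (List.range σ.rules.length).map σ.piece5

end Sys

/-- The time bump of phase `j`, or its derivative. -/
def phaseBump (d j : ℕ) : Bump := .inl (d, 0, (24, 0, 1), (2 * j + 1, 0, 1))

/-- The time bump of the transient phase, or its derivative. -/
def loadBump (d : ℕ) : Bump := .inl (d, 0, (4, 0, 1), (3, 0, 1))

/-- The second derivative of `boxBump k B` (for `k ≤ 1`) as weighted bumps. -/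
def boxBump2 (k : ℕ) (B : Box) : List (RatCode × Bump) :=
  if k = 0 then
    [((64 * B.1 * B.1, 0, 1), .inl (1, 0, (8 * B.1, 0, 1), (8 * B.2, 1, 1))),
      ((0, 64 * B.1 * B.1, 1), .inl (1, 0, (8 * B.1, 0, 1), (8 * B.2 + 10, 1, 1)))]
  else
    [((16 * B.1, 0, 1), .inl (0, 0, (8 * B.1, 0, 1), (8 * B.2, 1, 1))),
      ((0, 16 * B.1, 1), .inl (0, 0, (8 * B.1, 0, 1), (8 * B.2 + 10, 1, 1))),
      ((64 * B.1 * B.1, 0, 1), .inl (1, 1, (8 * B.1, 0, 1), (8 * B.2, 1, 1))),
      ((0, 64 * B.1 * B.1, 1), .inl (1, 1, (8 * B.1, 0, 1), (8 * B.2 + 10, 1, 1)))]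

/-- Factors in the two coordinates other than `a`. -/
def spaceLists (a : ℕ) (l₁ l₂ : List Bump) : List Bump × List Bump × List Bump :=
  if a = 0 then ([], l₁, l₂) else if a = 1 then (l₁, [], l₂) else (l₁, l₂, [])

/-- The summands `c aᵏ¹ bᵏ²` of a piece. -/
def Piece.summands (P : Piece) : List (RatCode × ℕ × ℕ) :=
  [(P.2.2.1, 0, 0), (P.2.2.2.1, 1, 0), (P.2.2.2.2, 0, 1)]

/-- Terms of the time derivative of a piece in phase `j` along axis `a`. -/
def accelTerm (a j : ℕ) (P : Piece) (s : RatCode × ℕ × ℕ) : Term :=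
  ((576 * s.1.1, 576 * s.1.2.1, s.1.2.2), 0, (-3 : ℤ), [], [(true, phaseBump 1 j)],
    spaceLists a [boxBump s.2.1 P.1] [boxBump s.2.2 P.2.1])

/-- `-24` times the product of two rational codes, the second with denominator one. -/
def viscCoeff (c e : RatCode) : RatCode :=
  (24 * (c.1 * e.2.1 + c.2.1 * e.1), 24 * (c.1 * e.1 + c.2.1 * e.2.1), c.2.2)

def viscTerms₁ (a j : ℕ) (P : Piece) (s : RatCode × ℕ × ℕ) : List Term :=
  (boxBump2 s.2.1 P.1).map fun e => (viscCoeff s.1 e.1, 1, (-3 : ℤ), [],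
    [(true, phaseBump 0 j)], spaceLists a [e.2] [boxBump s.2.2 P.2.1])

def viscTerms₂ (a j : ℕ) (P : Piece) (s : RatCode × ℕ × ℕ) : List Term :=
  (boxBump2 s.2.2 P.2.1).map fun e => (viscCoeff s.1 e.1, 1, (-3 : ℤ), [],
    [(true, phaseBump 0 j)], spaceLists a [boxBump s.2.1 P.1] [e.2])

def summandTerms (a j : ℕ) (P : Piece) (s : RatCode × ℕ × ℕ) : List Term :=
  accelTerm a j P s :: (viscTerms₁ a j P s ++ viscTerms₂ a j P s)

def phaseTerms (a j : ℕ) (L : List Piece) : List Term :=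
  L.flatMap fun P => P.summands.flatMap fun s => summandTerms a j P s

/-- The translation by `U/D` during the first period. -/
def loadTerm (B : Box) : Term :=
  ((16 * B.2, 0, B.1), 0, (-1 : ℤ), [], [(false, loadBump 1)], [], [], [])

/-- The force realising a system from the control `c₀` and the right stack `w`. -/
def Sys.forceCode (σ : Sys) (c₀ : ℕ) (w : List ℕ) : ForceCode :=
  (phaseTerms 0 2 σ.phase2 ++ phaseTerms 0 4 σ.phase4 ++ [loadTerm (σ.xBox c₀ [])],
    phaseTerms 1 3 σ.phase3 ++ [loadTerm (σ.yBox w)],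
    phaseTerms 2 0 σ.phase0 ++ phaseTerms 2 1 σ.phase1 ++ phaseTerms 2 5 σ.phase5)

/-- The force compiler. -/
def compiler (Mw : Machine × List ℕ) : ForceCode :=
  Mw.1.sys.forceCode Mw.1.startCtrl Mw.2

end

end Vale.Agent.P113
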