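import Vale.Agent.P113.Compile

/-!
The force compiler is computable (indeed primitive recursive).
-/

set_option synthInstance.maxSize 2000

namespace Vale.Agent.P113

open Primrec

noncomputable section

variable {α : Type} [Primcodable α]

lemma prim_pow {f g : α → ℕ} (hf : Primrec f) (hg : Primrec g) :
    Primrec fun a => f a ^ g a :=
  (Primrec₂.unpaired'.mp Nat.Primrec.pow).comp hf hg

lemma prim_list1 {β : Type} [Primcodable β] {f : α → β} (hf : Primrec f) :
    Primrec fun a => [f a] :=
  list_cons.comp hf (const [])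

lemma prim_list2 {β : Type} [Primcodable β] {f g : α → β} (hf : Primrec f) (hg : Primrec g) :
    Primrec fun a => [f a, g a] :=
  list_cons.comp hf (prim_list1 hg)

lemma prim_rat {f g h : α → ℕ} (hf : Primrec f) (hg : Primrec g) (hh : Primrec h) :
    Primrec fun a => ((f a, g a, h a) : RatCode) :=
  hf.pair (hg.pair hh)

/-! ### Machines -/

lemma prim_numStates : Primrec Machine.numStates := fst
lemma prim_numSymbols : Primrec Machine.numSymbols := fst.comp snd
lemma prim_start : Primrec Machine.start := fst.comp (snd.comp snd)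
lemma prim_halting : Primrec Machine.halting := fst.comp (snd.comp (snd.comp snd))
lemma prim_table : Primrec Machine.table := snd.comp (snd.comp (snd.comp snd))

lemma prim_cellCount : Primrec Machine.cellCount :=
  nat_mul.comp prim_numSymbols
    (nat_add.comp (nat_mul.comp (const 3) prim_numStates) (const 1))

lemma prim_isHalting {f : α → Machine} {g : α → ℕ} (hf : Primrec f) (hg : Primrec g) :
    Primrec fun a => (f a).isHalting (g a) :=
  (PrimrecPred.decide (nat_lt.comp (list_idxOf.comp hg (prim_halting.comp hf))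
    (list_length.comp (prim_halting.comp hf)))).of_eq fun a => by simp [Machine.isHalting]

lemma prim_ruleAt {f : α → Machine} {g h : α → ℕ} (hf : Primrec f) (hg : Primrec g)
    (hh : Primrec h) : Primrec fun a => (f a).ruleAt (g a) (h a) :=
  ((list_getD ((0, 0, 0) : Rule)).comp (prim_table.comp hf)
    (nat_add.comp (nat_mul.comp hg (prim_numSymbols.comp hf)) hh))

lemma prim_garbage {f : α → Machine} {g h : α → ℕ} (hf : Primrec f) (hg : Primrec g)
    (hh : Primrec h) : Primrec fun a => (f a).garbage (g a) (h a) :=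
  nat_add.comp (nat_add.comp (prim_numSymbols.comp hf)
    (nat_mul.comp hg (prim_numSymbols.comp hf))) hh

lemma prim_execRule {f : α → Machine} {g h : α → ℕ} {r : α → Rule} (hf : Primrec f)
    (hg : Primrec g) (hh : Primrec h) (hr : Primrec r) :
    Primrec fun a => (f a).execRule (g a) (h a) (r a) := by
  have hd : Primrec fun a => ((r a).2.2 : ℕ) := fin_val.comp (snd.comp (snd.comp hr))
  have hm : Primrec fun a => g a / (f a).numStates := nat_div.comp hg (prim_numStates.comp hf)
  have hmz : PrimrecPred fun a => g a / (f a).numStates = 0 := Primrec.eq.comp hm (const 0)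
  have hd0 : PrimrecPred fun a => ((r a).2.2 : ℕ) = 0 := Primrec.eq.comp hd (const 0)
  have hd1 : PrimrecPred fun a => ((r a).2.2 : ℕ) = 1 := Primrec.eq.comp hd (const 1)
  have hs : Primrec fun a => (r a).2.1 := fst.comp (snd.comp hr)
  have hgb := prim_garbage hf hg hh
  exact hg.pair ((Primrec.ite hmz (prim_list1 hh) (const [])).pair
    ((Primrec.ite hmz (const []) (prim_list1 hh)).pair
      ((nat_add.comp (nat_mul.comp hd (prim_numStates.comp hf)) (fst.comp hr)).pair
        ((Primrec.ite hd0 (const []) (Primrec.ite hd1 (prim_list1 hgb) (prim_list2 hs hgb))).pair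
          (Primrec.ite hd0 (prim_list2 hs hgb) (Primrec.ite hd1 (prim_list1 hs) (const [])))))))

lemma prim_rulesFor {f : α → Machine} {g h : α → ℕ} (hf : Primrec f) (hg : Primrec g)
    (hh : Primrec h) : Primrec fun a => (f a).rulesFor (g a) (h a) := by
  have hQ := prim_numStates.comp hf
  have hq : Primrec fun a => g a % (f a).numStates := nat_mod.comp hg hQ
  have hm : Primrec fun a => g a / (f a).numStates := nat_div.comp hg hQ
  exact Primrec.ite (Primrec.eq.comp (prim_isHalting hf hq) (const true)) (const [])
    (Primrec.ite (nat_lt.comp hh (prim_numSymbols.comp hf))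
      (prim_list1 (prim_execRule hf hg hh (prim_ruleAt hf hq hh)))
      (Primrec.ite (Primrec.eq.comp hm (const 0))
        (prim_list1 (hg.pair ((prim_list1 hh).pair ((const []).pair
          (hg.pair ((const []).pair (prim_list1 hh)))))))
        (Primrec.ite (Primrec.eq.comp hm (const 2))
          (prim_list1 (hg.pair ((const []).pair ((prim_list1 hh).pair
            (hg.pair ((prim_list1 hh).pair (const [])))))))
          (const []))))

lemma prim_sys : Primrec Machine.sys := by
  have hC : Primrec fun M : Machine => 3 * M.numStates :=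
    nat_mul.comp (const 3) prim_numStates
  have hrules : Primrec Machine.rwRules :=
    list_flatMap (list_range.comp hC)
      (list_flatMap (list_range.comp (prim_cellCount.comp fst))
        (prim_rulesFor (fst.comp fst) (snd.comp fst) snd).to₂).to₂
  have hlifts : Primrec Machine.liftCtrls :=
    list_flatMap (list_range.comp hC)
      (Primrec.ite (Primrec.eq.comp
        (prim_isHalting fst (nat_mod.comp snd (prim_numStates.comp fst))) (const true))
        (prim_list1 snd) (const [])).to₂
  exact prim_cellCount.pair (hC.pair (hrules.pair hlifts))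

lemma prim_startCtrl : Primrec Machine.startCtrl :=
  nat_add.comp (nat_mul.comp (const 2) prim_numStates) prim_start

/-! ### Boxes and pieces -/

lemma prim_prefNum {b : α → ℕ} {p : α → List ℕ} (hb : Primrec b) (hp : Primrec p) :
    Primrec fun a => prefNum (b a) (p a) := by
  refine (list_rec (g := fun _ => 0)
    (h := fun a x => 2 * x.1 * b a ^ x.2.1.length + x.2.2) hp (const 0) ?_).of_eq fun a => ?_
  · exact (nat_add.comp (nat_mul.comp (nat_mul.comp (const 2) (fst.comp snd))
      (prim_pow (hb.comp fst) (list_length.comp (fst.comp (snd.comp snd)))))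
      (snd.comp (snd.comp snd))).to₂
  · induction p a with
    | nil => rfl
    | cons d l ih => simp only [prefNum]; rw [← ih]

lemma prim_embBox {b N c : α → ℕ} {p : α → List ℕ} (hb : Primrec b) (hN : Primrec N)
    (hc : Primrec c) (hp : Primrec p) : Primrec fun a => embBox (b a) (N a) (c a) (p a) := by
  have hpw : Primrec fun a => b a ^ (p a).length := prim_pow hb (list_length.comp hp)
  exact (nat_mul.comp hN hpw).pair (nat_add.comp
    (nat_mul.comp (nat_add.comp (nat_mul.comp (const 2) hc) (const 2)) hpw) (prim_prefNum hb hp))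

lemma prim_base : Primrec Sys.base :=
  nat_add.comp (nat_mul.comp (const 2) fst) (const 2)

lemma prim_xBox {f : α → Sys} {c : α → ℕ} {p : α → List ℕ} (hf : Primrec f) (hc : Primrec c)
    (hp : Primrec p) : Primrec fun a => (f a).xBox (c a) (p a) :=
  prim_embBox (prim_base.comp hf)
    (nat_add.comp (nat_mul.comp (const 2) (fst.comp (snd.comp hf))) (const 4)) hc hp

lemma prim_yBox {f : α → Sys} {p : α → List ℕ} (hf : Primrec f)
    (hp : Primrec p) : Primrec fun a => (f a).yBox (p a) :=
  prim_embBox (prim_base.comp hf) (const 4) (const 0) hp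

lemma prim_rules : Primrec Sys.rules := fst.comp (snd.comp snd)

lemma prim_slot : Primrec fun x : Sys × ℕ => x.1.slot x.2 :=
  (nat_add.comp (nat_mul.comp (const 4) (list_length.comp (prim_rules.comp fst))) (const 8)).pair
    (nat_add.comp (nat_mul.comp (const 2) snd) (const 2))

lemma prim_rule : Primrec fun x : Sys × ℕ => x.1.rule x.2 :=
  (list_getD ((0, [], [], 0, [], []) : Rw)).comp (prim_rules.comp fst) snd

lemma prim_src : Primrec Rw.src := fst
lemma prim_popL : Primrec Rw.popL := fst.comp snd
lemma prim_popR : Primrec Rw.popR := fst.comp (snd.comp snd)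
lemma prim_tgt : Primrec Rw.tgt := fst.comp (snd.comp (snd.comp snd))
lemma prim_pushL : Primrec Rw.pushL := fst.comp (snd.comp (snd.comp (snd.comp snd)))
lemma prim_pushR : Primrec Rw.pushR := snd.comp (snd.comp (snd.comp (snd.comp snd)))

lemma prim_xPre : Primrec fun x : Sys × ℕ => x.1.xBox (x.1.rule x.2).src (x.1.rule x.2).popL :=
  prim_xBox fst (prim_src.comp prim_rule) (prim_popL.comp prim_rule)

lemma prim_xPost : Primrec fun x : Sys × ℕ => x.1.xBox (x.1.rule x.2).tgt (x.1.rule x.2).pushL :=
  prim_xBox fst (prim_tgt.comp prim_rule) (prim_pushL.comp prim_rule)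

lemma prim_yPre : Primrec fun x : Sys × ℕ => x.1.yBox (x.1.rule x.2).popR :=
  prim_yBox fst (prim_popR.comp prim_rule)

lemma prim_yPost : Primrec fun x : Sys × ℕ => x.1.yBox (x.1.rule x.2).pushR :=
  prim_yBox fst (prim_pushR.comp prim_rule)

lemma prim_piece1 : Primrec fun x : Sys × ℕ => x.1.piece1 x.2 :=
  prim_xPre.pair (prim_yPre.pair ((prim_rat (snd.comp prim_slot) (const 0)
    (fst.comp prim_slot)).pair ((prim_rat (const 1) (const 0) (fst.comp prim_slot)).pair
      (const (0, 0, 1)))))

lemma prim_piece2 : Primrec fun x : Sys × ℕ => x.1.piece2 x.2 :=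
  prim_yPre.pair (prim_slot.pair
    ((prim_rat (nat_add.comp (snd.comp prim_yPost)
      (nat_mul.comp (snd.comp prim_slot) (fst.comp prim_yPost))) (snd.comp prim_yPre)
        (fst.comp prim_yPost)).pair
      ((prim_rat (fst.comp prim_yPre) (const 0) (fst.comp prim_yPost)).pair
        (prim_rat (const 0) (fst.comp prim_slot) (const 1)))))

lemma prim_piece3 : Primrec fun x : Sys × ℕ => x.1.piece3 x.2 :=
  prim_yPost.pair (prim_slot.pair
    ((prim_rat (snd.comp prim_yPost) (snd.comp prim_yPre) (fst.comp prim_yPre)).pair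
      ((prim_rat (fst.comp prim_yPre) (fst.comp prim_yPost) (fst.comp prim_yPre)).pair
        (const (0, 0, 1)))))

lemma prim_piece4 : Primrec fun x : Sys × ℕ => x.1.piece4 x.2 :=
  prim_yPost.pair (prim_slot.pair
    ((prim_rat (snd.comp prim_xPost)
      (nat_add.comp (nat_mul.comp (fst.comp prim_xPre) (snd.comp prim_slot))
        (snd.comp prim_xPre)) (fst.comp prim_xPost)).pair
      ((const (0, 1, 1)).pair
        (prim_rat (nat_mul.comp (fst.comp prim_xPre) (fst.comp prim_slot)) (const 0)
          (fst.comp prim_xPost)))))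

lemma prim_piece5 : Primrec fun x : Sys × ℕ => x.1.piece5 x.2 :=
  prim_xPost.pair (prim_yPost.pair
    ((prim_rat (snd.comp prim_xPost)
      (nat_add.comp (nat_mul.comp (snd.comp prim_slot) (fst.comp prim_xPre))
        (snd.comp prim_xPre)) (nat_mul.comp (fst.comp prim_xPre) (fst.comp prim_slot))).pair
      ((prim_rat (const 0) (fst.comp prim_xPost)
        (nat_mul.comp (fst.comp prim_xPre) (fst.comp prim_slot))).pair (const (0, 0, 1)))))

lemma prim_phase {p : Sys → ℕ → Piece} (hp : Primrec fun x : Sys × ℕ => p x.1 x.2) :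
    Primrec fun σ : Sys => (List.range σ.rules.length).map (p σ) :=
  list_map (list_range.comp (list_length.comp prim_rules)) hp.to₂

lemma prim_phase0 : Primrec Sys.phase0 := by
  have hg : Primrec fun x : Sys × ℕ =>
      ((x.1.xBox x.2 [], x.1.yBox [], (3, 0, 4), (0, 0, 1), (0, 0, 1)) : Piece) :=
    (prim_xBox fst snd (const [])).pair ((prim_yBox fst (const [])).pair
      (const ((3, 0, 4), (0, 0, 1), (0, 0, 1))))
  exact list_map (snd.comp (snd.comp snd)) hg.to₂

/-! ### Terms -/

lemma prim_boxBump {k : α → ℕ} {B : α → Box} (hk : Primrec k) (hB : Primrec B) :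
    Primrec fun a => boxBump (k a) (B a) :=
  sumInr.comp (hk.pair ((prim_rat (nat_mul.comp (const 8) (fst.comp hB)) (const 0) (const 1)).pair
    ((prim_rat (nat_mul.comp (const 8) (snd.comp hB)) (const 1) (const 1)).pair
      (const (10, 0, 1)))))

lemma prim_boxBump2 {k : α → ℕ} {B : α → Box} (hk : Primrec k) (hB : Primrec B) :
    Primrec fun a => boxBump2 (k a) (B a) := by
  have h8 : Primrec fun a => 8 * (B a).1 := nat_mul.comp (const 8) (fst.comp hB)
  have h64 : Primrec fun a => 64 * (B a).1 * (B a).1 :=
    nat_mul.comp (nat_mul.comp (const 64) (fst.comp hB)) (fst.comp hB)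
  have h16 : Primrec fun a => 16 * (B a).1 := nat_mul.comp (const 16) (fst.comp hB)
  have hb : Primrec fun a => 8 * (B a).2 := nat_mul.comp (const 8) (snd.comp hB)
  have hb' : Primrec fun a => 8 * (B a).2 + 10 := nat_add.comp hb (const 10)
  have bump : ∀ (j k : ℕ) {b : α → ℕ}, Primrec b → Primrec fun a =>
      (Sum.inl (j, k, ((8 * (B a).1, 0, 1) : RatCode), ((b a, 1, 1) : RatCode)) : Bump) :=
    fun j k _ hb => sumInl.comp ((const j).pair ((const k).pair
      ((prim_rat h8 (const 0) (const 1)).pair (prim_rat hb (const 1) (const 1)))))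
  exact Primrec.ite (Primrec.eq.comp hk (const 0))
    (prim_list2 ((prim_rat h64 (const 0) (const 1)).pair (bump 1 0 hb))
      ((prim_rat (const 0) h64 (const 1)).pair (bump 1 0 hb')))
    (list_cons.comp ((prim_rat h16 (const 0) (const 1)).pair (bump 0 0 hb))
      (list_cons.comp ((prim_rat (const 0) h16 (const 1)).pair (bump 0 0 hb'))
        (prim_list2 ((prim_rat h64 (const 0) (const 1)).pair (bump 1 1 hb))
          ((prim_rat (const 0) h64 (const 1)).pair (bump 1 1 hb')))))

lemma prim_spaceLists (a₀ : ℕ) {l₁ l₂ : α → List Bump} (h₁ : Primrec l₁) (h₂ : Primrec l₂) :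
    Primrec fun a => spaceLists a₀ (l₁ a) (l₂ a) := by
  unfold spaceLists
  split_ifs
  · exact (const []).pair (h₁.pair h₂)
  · exact h₁.pair ((const []).pair h₂)
  · exact h₁.pair (h₂.pair (const []))

lemma prim_mkTerm {q : α → RatCode} {S : α → List Bump × List Bump × List Bump} (m : ℕ) (n : ℤ)
    (T : List (Bool × Bump)) (hq : Primrec q) (hS : Primrec S) :
    Primrec fun a => ((q a, m, n, [], T, S a) : Term) :=
  hq.pair ((const m).pair ((const n).pair ((const []).pair ((const T).pair hS))))

lemma prim_phaseTerms (a₀ j : ℕ) {f : α → List Piece} (hf : Primrec f) :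
    Primrec fun a => phaseTerms a₀ j (f a) := by
  have hc : Primrec fun x : Piece × RatCode × ℕ × ℕ => x.2.1 := fst.comp snd
  have hk1 : Primrec fun x : Piece × RatCode × ℕ × ℕ => x.2.2.1 := fst.comp (snd.comp snd)
  have hk2 : Primrec fun x : Piece × RatCode × ℕ × ℕ => x.2.2.2 := snd.comp (snd.comp snd)
  have hB1 : Primrec fun x : Piece × RatCode × ℕ × ℕ => x.1.1 := fst.comp fst
  have hB2 : Primrec fun x : Piece × RatCode × ℕ × ℕ => x.1.2.1 := fst.comp (snd.comp fst)
  have haccel : Primrec fun x : Piece × RatCode × ℕ × ℕ => accelTerm a₀ j x.1 x.2 :=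
    prim_mkTerm 0 (-3) _ (prim_rat (nat_mul.comp (const 576) (fst.comp hc))
      (nat_mul.comp (const 576) (fst.comp (snd.comp hc))) (snd.comp (snd.comp hc)))
      (prim_spaceLists a₀ (prim_list1 (prim_boxBump hk1 hB1)) (prim_list1 (prim_boxBump hk2 hB2)))
  have hvc : Primrec fun y : (Piece × RatCode × ℕ × ℕ) × (RatCode × Bump) =>
      viscCoeff y.1.2.1 y.2.1 := by
    have c := hc.comp (fst (β := RatCode × Bump))
    have e : Primrec fun y : (Piece × RatCode × ℕ × ℕ) × (RatCode × Bump) => y.2.1 :=
      fst.comp snd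
    exact prim_rat
      (nat_mul.comp (const 24) (nat_add.comp (nat_mul.comp (fst.comp c) (fst.comp (snd.comp e)))
        (nat_mul.comp (fst.comp (snd.comp c)) (fst.comp e))))
      (nat_mul.comp (const 24) (nat_add.comp (nat_mul.comp (fst.comp c) (fst.comp e))
        (nat_mul.comp (fst.comp (snd.comp c)) (fst.comp (snd.comp e)))))
      (snd.comp (snd.comp c))
  have h1 : Primrec fun x : Piece × RatCode × ℕ × ℕ => viscTerms₁ a₀ j x.1 x.2 :=
    list_map (prim_boxBump2 hk1 hB1) (prim_mkTerm 1 (-3) _ hvc
      (prim_spaceLists a₀ (prim_list1 (snd.comp snd))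
        (prim_list1 (prim_boxBump (hk2.comp fst) (hB2.comp fst))))).to₂
  have h2 : Primrec fun x : Piece × RatCode × ℕ × ℕ => viscTerms₂ a₀ j x.1 x.2 :=
    list_map (prim_boxBump2 hk2 hB2) (prim_mkTerm 1 (-3) _ hvc
      (prim_spaceLists a₀ (prim_list1 (prim_boxBump (hk1.comp fst) (hB1.comp fst)))
        (prim_list1 (snd.comp snd)))).to₂
  have hs : Primrec₂ fun (P : Piece) (s : RatCode × ℕ × ℕ) => summandTerms a₀ j P s :=
    (list_cons.comp haccel (list_append.comp h1 h2)).to₂
  have hsum : Primrec Piece.summands :=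
    list_cons.comp ((fst.comp (snd.comp snd)).pair (const (0, 0)))
      (prim_list2 ((fst.comp (snd.comp (snd.comp snd))).pair (const (1, 0)))
        ((snd.comp (snd.comp (snd.comp snd))).pair (const (0, 1))))
  exact list_flatMap hf (list_flatMap (hsum.comp snd) (hs.comp₂ (snd.comp fst).to₂ snd.to₂)).to₂

lemma prim_loadTerm {B : α → Box} (hB : Primrec B) : Primrec fun a => loadTerm (B a) :=
  prim_mkTerm 0 (-1) _ (prim_rat (nat_mul.comp (const 16) (snd.comp hB)) (const 0) (fst.comp hB))
    (const ([], [], []))

theorem compiler_computable : Computable compiler := by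
  refine Primrec.to_comp ?_
  have hS : Primrec fun Mw : Machine × List ℕ => Mw.1.sys := prim_sys.comp fst
  have h0 := prim_phase0.comp hS
  have h1 := (prim_phase prim_piece1).comp hS
  have h2 := (prim_phase prim_piece2).comp hS
  have h3 := (prim_phase prim_piece3).comp hS
  have h4 := (prim_phase prim_piece4).comp hS
  have h5 := (prim_phase prim_piece5).comp hS
  exact (list_append.comp (list_append.comp (prim_phaseTerms 0 2 h2) (prim_phaseTerms 0 4 h4))
      (prim_list1 (prim_loadTerm (prim_xBox hS (prim_startCtrl.comp fst) (const []))))).pair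
    ((list_append.comp (prim_phaseTerms 1 3 h3)
      (prim_list1 (prim_loadTerm (prim_yBox hS snd)))).pair
      (list_append.comp (list_append.comp (prim_phaseTerms 2 0 h0) (prim_phaseTerms 2 1 h1))
        (prim_phaseTerms 2 5 h5)))

end

end Vale.Agent.P113
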