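import Mathlib

/-!
Definitions for problem P113, following the conventions of the problem file:
Turing machines, admissible forces, classical solutions, and force compilers.
Functions on the flat torus are functions on `Fin 3 → ℝ` with period one in
each coordinate.
-/

namespace Vale.Agent.P113

open MeasureTheory
open scoped ContDiff

noncomputable section

/-! ### Machines -/

/-- A rule `(q', s', d)`: new state, symbol written, and move
(`d = 0` left, `d = 1` stay, `d = 2` right). -/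
abbrev Rule : Type := ℕ × ℕ × Fin 3

/-- A machine `(Q, K, start, halting, table)`: states `0, …, Q-1`, symbols `0, …, K-1`
with `0` the blank, a start state, the list of halting states and the table whose entry
`q * K + s` is the rule used in state `q` reading symbol `s`. -/
abbrev Machine : Type := ℕ × ℕ × ℕ × List ℕ × List Rule

namespace Machine

def numStates (M : Machine) : ℕ := M.1

def numSymbols (M : Machine) : ℕ := M.2.1

def start (M : Machine) : ℕ := M.2.2.1

def halting (M : Machine) : List ℕ := M.2.2.2.1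

def table (M : Machine) : List Rule := M.2.2.2.2

/-- The data describe a deterministic one-tape machine. -/
def Valid (M : Machine) : Prop :=
  0 < M.numSymbols ∧ M.start < M.numStates ∧
    M.table.length = M.numStates * M.numSymbols ∧
    ∀ r ∈ M.table, r.1 < M.numStates ∧ r.2.1 < M.numSymbols

/-- An input word for `M`. -/
def IsInput (M : Machine) (w : List ℕ) : Prop := ∀ s ∈ w, s < M.numSymbols

/-- The rule used in state `q` reading `s`. -/
def ruleAt (M : Machine) (q s : ℕ) : Rule :=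
  M.table.getD (q * M.numSymbols + s) (0, 0, 0)

end Machine

/-- A configuration: state, two-sided tape and head position. -/
structure Config where
  state : ℕ
  tape : ℤ → ℕ
  head : ℤ

/-- One step of a machine. -/
def Machine.step (M : Machine) (C : Config) : Config :=
  ⟨(M.ruleAt C.state (C.tape C.head)).1,
    Function.update C.tape C.head (M.ruleAt C.state (C.tape C.head)).2.1,
    C.head + ((((M.ruleAt C.state (C.tape C.head)).2.2 : ℕ) : ℤ) - 1)⟩

/-- The word `w` on an otherwise blank tape, the head at its first cell. -/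
def Machine.init (M : Machine) (w : List ℕ) : Config :=
  ⟨M.start, fun i => if 0 ≤ i then w.getD i.toNat 0 else 0, 0⟩

/-- `M` reaches a halting state on `w` after finitely many steps, possibly none. -/
def Machine.Halts (M : Machine) (w : List ℕ) : Prop :=
  ∃ n : ℕ, (M.step^[n] (M.init w)).state ∈ M.halting

/-! ### Admissible functions -/

/-- `ρ(s) = exp(-1/(1-s²))` for `|s| < 1` and `0` otherwise. -/
def rho (s : ℝ) : ℝ := if |s| < 1 then Real.exp (-1 / (1 - s ^ 2)) else 0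

def kappa : ℝ := ∫ s, rho s

def sigmaFn (s : ℝ) : ℝ := ∫ r in Set.Iic s, rho r

def piFn (l s : ℝ) : ℝ := sigmaFn s - sigmaFn (s - l)

/-- A rational number given by `(p, q, d)`, standing for `(p - q) / d`. -/
abbrev RatCode : Type := ℕ × ℕ × ℕ

def ratVal (r : RatCode) : ℚ := ((r.1 : ℚ) - (r.2.1 : ℚ)) / (r.2.2 : ℚ)

/-- Codes of bumps: `inl (j, k, a, b)` is `s ↦ s^k ρ^(j)(a s - b)` and
`inr (k, a, b, l)` is `s ↦ s^k π_l(a s - b)`. -/
abbrev Bump : Type := (ℕ × ℕ × RatCode × RatCode) ⊕ (ℕ × RatCode × RatCode × RatCode)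

/-- The conditions `a ≠ 0` and `l > 0`. -/
def bumpValid : Bump → Prop
  | .inl (_, _, a, _) => ratVal a ≠ 0
  | .inr (_, a, _, l) => ratVal a ≠ 0 ∧ 0 < ratVal l

def bumpFn : Bump → ℝ → ℝ
  | .inl (j, k, a, b), s => s ^ k * iteratedDeriv j rho ((ratVal a : ℝ) * s - (ratVal b : ℝ))
  | .inr (k, a, b, l), s =>
      s ^ k * piFn (ratVal l : ℝ) ((ratVal a : ℝ) * s - (ratVal b : ℝ))

/-- The periodization with period one. -/
def periodize (g : ℝ → ℝ) (y : ℝ) : ℝ := ∑' m : ℤ, g (y + m)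

/-- A term `(q, m, n, rs, time, h₁, h₂, h₃)` standing for
`q ν^m κ^n ∏ ln r · θ(t) h₁(x₁) h₂(x₂) h₃(x₃)`. A time factor `(true, g)` is `P[g](t)`
and `(false, g)` is `g(t)`; each `hᵢ` lists bumps whose periodizations are multiplied. -/
abbrev Term : Type :=
  RatCode × ℕ × ℤ × List RatCode × List (Bool × Bump) × List Bump × List Bump × List Bump

namespace Term

def q (τ : Term) : RatCode := τ.1

def nuPow (τ : Term) : ℕ := τ.2.1

def kappaPow (τ : Term) : ℤ := τ.2.2.1

def logArgs (τ : Term) : List RatCode := τ.2.2.2.1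

def time (τ : Term) : List (Bool × Bump) := τ.2.2.2.2.1

def space (τ : Term) (i : Fin 3) : List Bump :=
  ![τ.2.2.2.2.2.1, τ.2.2.2.2.2.2.1, τ.2.2.2.2.2.2.2] i

/-- The data obey the rules for admissible terms. -/
def Valid (τ : Term) : Prop :=
  (∀ r ∈ τ.logArgs, 0 < ratVal r) ∧ (∀ g ∈ τ.time, bumpValid g.2) ∧
    ∀ i, ∀ g ∈ τ.space i, bumpValid g

/-- Only periodizations occur in the time factor. -/
def isPeriodic (τ : Term) : Bool := τ.time.all fun g => g.1

def coeff (ν : ℝ) (τ : Term) : ℝ :=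
  (ratVal τ.q : ℝ) * ν ^ τ.nuPow * kappa ^ τ.kappaPow *
    (τ.logArgs.map fun r => Real.log (ratVal r : ℝ)).prod

def timeFn (τ : Term) (t : ℝ) : ℝ :=
  (τ.time.map fun g => if g.1 then periodize (bumpFn g.2) t else bumpFn g.2 t).prod

def spaceFn (τ : Term) (x : Fin 3 → ℝ) : ℝ :=
  ∏ i, ((τ.space i).map fun g => periodize (bumpFn g) (x i)).prod

def eval (ν : ℝ) (τ : Term) (t : ℝ) (x : Fin 3 → ℝ) : ℝ :=
  τ.coeff ν * τ.timeFn t * τ.spaceFn x

end Term

/-- One list of terms for each component. -/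
abbrev ForceCode : Type := List Term × List Term × List Term

def ForceCode.component (F : ForceCode) (i : Fin 3) : List Term := ![F.1, F.2.1, F.2.2] i

/-- The force described by a code. -/
def forceOf (ν : ℝ) (F : ForceCode) (t : ℝ) (x : Fin 3 → ℝ) : Fin 3 → ℝ :=
  fun i => ((F.component i).map fun τ => τ.eval ν t x).sum

set_option synthInstance.maxSize 2000 in
/-- A force compiler: an algorithm producing valid terms, with a uniform time after which
nonperiodic terms vanish, and periodic terms depending on the machine only. -/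
structure IsForceCompiler (C : Machine × List ℕ → ForceCode) : Prop where
  computable : Computable C
  valid : ∀ M w, M.Valid → M.IsInput w → ∀ i, ∀ τ ∈ (C (M, w)).component i, τ.Valid
  transient : ∃ T₀ : ℝ, ∀ M w, M.Valid → M.IsInput w →
    ∀ i, ∀ τ ∈ (C (M, w)).component i, τ.isPeriodic = false →
      ∀ (ν t : ℝ) (x : Fin 3 → ℝ), T₀ ≤ t → τ.eval ν t x = 0
  periodic : ∀ M w w', M.Valid → M.IsInput w → M.IsInput w' →
    ∀ i, ((C (M, w)).component i).filter Term.isPeriodic =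
      ((C (M, w')).component i).filter Term.isPeriodic

/-! ### Fluid equations on the torus -/

/-- Period one in each coordinate. -/
def SpatiallyPeriodic {α : Type} (g : (Fin 3 → ℝ) → α) : Prop :=
  ∀ (x : Fin 3 → ℝ) (k : Fin 3 → ℤ), g (fun i => x i + (k i : ℝ)) = g x

/-- Partial derivative in coordinate `j`. -/
def pd (j : Fin 3) (g : (Fin 3 → ℝ) → ℝ) (x : Fin 3 → ℝ) : ℝ :=
  fderiv ℝ g x (Pi.single j 1)

/-- The spatial mean. -/
def spatialMean (g : (Fin 3 → ℝ) → ℝ) : ℝ :=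
  ∫ x in Set.Icc (0 : Fin 3 → ℝ) 1, g x

/-- A smooth solution on the whole time axis `t ≥ 0`, starting from rest. -/
structure IsGlobalSmoothSolution (ν : ℝ) (f : ℝ → (Fin 3 → ℝ) → Fin 3 → ℝ)
    (u : ℝ → (Fin 3 → ℝ) → Fin 3 → ℝ) (p : ℝ → (Fin 3 → ℝ) → ℝ) : Prop where
  u_smooth : ContDiff ℝ ∞ fun z : ℝ × (Fin 3 → ℝ) => u z.1 z.2
  p_smooth : ContDiff ℝ ∞ fun z : ℝ × (Fin 3 → ℝ) => p z.1 z.2
  periodic : ∀ t, SpatiallyPeriodic (u t) ∧ SpatiallyPeriodic (p t)
  initial : ∀ x, u 0 x = 0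
  divergence : ∀ t, 0 ≤ t → ∀ x, ∑ j, pd j (fun y => u t y j) x = 0
  mean : ∀ t, 0 ≤ t → spatialMean (p t) = 0
  momentum : ∀ t, 0 ≤ t → ∀ x i,
    deriv (fun s => u s x i) t + ∑ j, u t x j * pd j (fun y => u t y i) x =
      -pd i (p t) x + ν * ∑ j, pd j (pd j fun y => u t y i) x + f t x i

/-- A classical solution on `[0, T]`: the fields and derivatives in the equations are
continuous and the equations hold pointwise. -/
structure IsClassicalSolution (ν : ℝ) (f : ℝ → (Fin 3 → ℝ) → Fin 3 → ℝ) (T : ℝ)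
    (v : ℝ → (Fin 3 → ℝ) → Fin 3 → ℝ) (q : ℝ → (Fin 3 → ℝ) → ℝ) : Prop where
  periodic : ∀ t ∈ Set.Icc 0 T, SpatiallyPeriodic (v t) ∧ SpatiallyPeriodic (q t)
  v_cont : ContinuousOn (fun z : ℝ × (Fin 3 → ℝ) => v z.1 z.2) (Set.Icc 0 T ×ˢ Set.univ)
  v_smooth : ∀ t ∈ Set.Icc 0 T, ContDiff ℝ 2 (v t)
  dv_cont : ∀ i j, ContinuousOn (fun z : ℝ × (Fin 3 → ℝ) => pd j (fun y => v z.1 y i) z.2)
    (Set.Icc 0 T ×ˢ Set.univ)
  ddv_cont : ∀ i j k,
    ContinuousOn (fun z : ℝ × (Fin 3 → ℝ) => pd k (pd j fun y => v z.1 y i) z.2)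
      (Set.Icc 0 T ×ˢ Set.univ)
  q_cont : ContinuousOn (fun z : ℝ × (Fin 3 → ℝ) => q z.1 z.2) (Set.Icc 0 T ×ˢ Set.univ)
  q_smooth : ∀ t ∈ Set.Icc 0 T, ContDiff ℝ 1 (q t)
  dq_cont : ∀ j, ContinuousOn (fun z : ℝ × (Fin 3 → ℝ) => pd j (q z.1) z.2)
    (Set.Icc 0 T ×ˢ Set.univ)
  initial : ∀ x, v 0 x = 0
  divergence : ∀ t ∈ Set.Icc 0 T, ∀ x, ∑ j, pd j (fun y => v t y j) x = 0
  mean : ∀ t ∈ Set.Icc 0 T, spatialMean (q t) = 0
  momentum : ∃ vt : ℝ → (Fin 3 → ℝ) → Fin 3 → ℝ,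
    ContinuousOn (fun z : ℝ × (Fin 3 → ℝ) => vt z.1 z.2) (Set.Icc 0 T ×ˢ Set.univ) ∧
    ∀ t ∈ Set.Icc 0 T, ∀ x i,
      HasDerivWithinAt (fun s => v s x i) (vt t x i) (Set.Icc 0 T) t ∧
      vt t x i + ∑ j, v t x j * pd j (fun y => v t y i) x =
        -pd i (q t) x + ν * ∑ j, pd j (pd j fun y => v t y i) x + f t x i

/-- A trajectory from `a`, lifted to `ℝ³`. -/
def IsTrajectory (u : ℝ → (Fin 3 → ℝ) → Fin 3 → ℝ) (a : Fin 3 → ℝ)
    (X : ℝ → Fin 3 → ℝ) : Prop :=
  X 0 = a ∧ ∀ t, 0 ≤ t → HasDerivWithinAt X (u t (X t)) (Set.Ici 0) t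

/-- The projection of `x` to the torus lies in the image of the open box `∏ (lo i, hi i)`. -/
def InTorusBox (lo hi : Fin 3 → ℚ) (x : Fin 3 → ℝ) : Prop :=
  ∃ k : Fin 3 → ℤ, ∀ i, (lo i : ℝ) < x i + (k i : ℝ) ∧ x i + (k i : ℝ) < (hi i : ℝ)

/-- The compiler `C`, the point `a` and the box detect halting at viscosity `ν`. -/
def Detects (ν : ℝ) (a lo hi : Fin 3 → ℚ) (C : Machine × List ℕ → ForceCode) : Prop :=
  ∀ M w, M.Valid → M.IsInput w →
    ContDiff ℝ ∞ (fun z : ℝ × (Fin 3 → ℝ) => forceOf ν (C (M, w)) z.1 z.2) ∧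
    (∀ t, SpatiallyPeriodic (forceOf ν (C (M, w)) t)) ∧
    ∃ u p,
      IsGlobalSmoothSolution ν (forceOf ν (C (M, w))) u p ∧
      (∀ T, 0 < T → ∀ v q, IsClassicalSolution ν (forceOf ν (C (M, w))) T v q →
        ∀ t ∈ Set.Icc 0 T, ∀ x, v t x = u t x ∧ q t x = p t x) ∧
      ∃ X, IsTrajectory u (fun i => (a i : ℝ)) X ∧
        (∀ Y, IsTrajectory u (fun i => (a i : ℝ)) Y → ∀ t, 0 ≤ t → Y t = X t) ∧
        ((∃ t, 0 ≤ t ∧ InTorusBox lo hi (X t)) ↔ M.Halts w)

end

end Vale.Agent.P113
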