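import Vale.Agent.P113.Path

/-!
The trajectory meets the detection box exactly when a halting control is reached.
-/

namespace Vale.Agent.P113

noncomputable section

/-- The lower corner of the detection box. -/
def boxLo : Fin 3 → ℚ := ![0, 0, 5 / 8]

/-- The upper corner of the detection box. -/
def boxHi : Fin 3 → ℚ := ![1, 1, 7 / 8]

namespace Sys

variable {σ : Sys} {c₀ : ℕ} {w : List ℕ} {orb : ℕ → Conf}

lemma OK.load_eq (h : σ.OK) (hc : c₀ < σ.ctrls) (hw : ∀ d ∈ w, d < σ.digits) :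
    σ.load c₀ w = σ.point (c₀, [], w) 0 := by
  have hb : (σ.base : ℝ) ^ w.length ≠ 0 :=
    pow_ne_zero _ (by simp only [Sys.base]; positivity)
  have hN : ((σ.xScale : ℕ) : ℝ) ≠ 0 := by simp only [Sys.xScale]; positivity
  have he : (σ.base : ℝ) ^ w.length * enc σ.base w = prefNum σ.base w :=
    enc_eq_prefNum_div h.digits_pos w hw
  funext i
  fin_cases i
  · simp [Sys.load, Sys.point, Sys.xBox, embBox, emb, prefNum, enc]
  · simp [Sys.load, Sys.point, Sys.yBox, embBox, emb]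
    field_simp
    linarith
  · simp [Sys.load, Sys.point]

lemma midFrom_seven (n : ℕ) (p : Fin 3 → ℝ) :
    σ.midFrom c₀ w p n 7 = σ.kick 5 (σ.kick 4 (σ.kick 3 (σ.kick 2 (σ.kick 1 (σ.kick 0 p))))) +
      (if n = 0 then σ.load c₀ w else 0) := by
  simp [midFrom]

lemma OK.midFrom_origin (h : σ.OK) (n : ℕ) : ∀ j ≤ 6, σ.midFrom c₀ w 0 n j = 0 := by
  intro j hj
  induction j with
  | zero => rfl
  | succ j ih =>
    rw [midFrom, dif_pos (by omega), ih (by omega), h.kick_origin]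

/-- The heights inside one period of a rule step lie in `[0, 1/2]`. -/
lemma OK.period_spec (h : σ.OK) {C : Conf} (hC : σ.ValidConf C) (hl : C.1 ∉ σ.lifts) {r : Rw}
    (hr : r ∈ σ.rules) (hm : r.MatchPre C) {n : ℕ} (hn : n ≠ 0) :
    σ.midFrom c₀ w (σ.point C 0) n 7 = σ.point (r.app C) 0 ∧
      ∀ j ≤ 7, 0 ≤ σ.midFrom c₀ w (σ.point C 0) n j 2 ∧
        σ.midFrom c₀ w (σ.point C 0) n j 2 ≤ 1 / 2 := by
  obtain ⟨z, hz0, hz1, e0, e1, e2, e3, e4, e5⟩ := h.stages hC hl hr hm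
  refine ⟨by rw [midFrom_seven, e0, e1, e2, e3, e4, e5]; simp [hn], ?_⟩
  intro j hj
  have hz : ∀ C' : Conf, ∀ z : ℝ, σ.point C' z 2 = z := fun _ _ => by simp [Sys.point]
  interval_cases j <;> simp [midFrom, e0, e1, e2, e3, e4, e5, hn, hz] <;>
    constructor <;> linarith

variable (hok : σ.OK) (h0 : orb 0 = (c₀, [], w)) (hc : c₀ < σ.ctrls)
  (hw : ∀ d ∈ w, d < σ.digits)
  (hvalid : ∀ n, (∀ j < n, (orb j).1 ∉ σ.lifts) → σ.ValidConf (orb n))
  (hrule : ∀ n, (∀ j ≤ n, (orb j).1 ∉ σ.lifts) →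
    ∃ r ∈ σ.rules, r.MatchPre (orb n) ∧ orb (n + 1) = r.app (orb n))

include hok h0 hc hw hvalid hrule

lemma node_eq (n : ℕ) (hn : ∀ j < n, (orb j).1 ∉ σ.lifts) :
    σ.nodePoint c₀ w (n + 1) = σ.point (orb n) 0 := by
  induction n with
  | zero =>
    show σ.midFrom c₀ w 0 0 7 = _
    rw [midFrom_seven, h0]
    simp [hok.kick_origin, hok.load_eq hc hw]
  | succ n ih =>
    have hn' : ∀ j < n, (orb j).1 ∉ σ.lifts := fun j hj => hn j (by omega)
    obtain ⟨r, hr, hm, heq⟩ := hrule n fun j hj => hn j (by omega)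
    show σ.midFrom c₀ w (σ.nodePoint c₀ w (n + 1)) (n + 1) 7 = _
    rw [ih hn', heq, (hok.period_spec (hvalid n hn') (hn n (by omega)) hr hm (by omega)).1]

lemma path_box_of_lift (hex : ∃ n, (orb n).1 ∈ σ.lifts) :
    ∃ t, 0 ≤ t ∧ InTorusBox boxLo boxHi (σ.path c₀ w t) := by
  classical
  set n := Nat.find hex
  have hn : (orb n).1 ∈ σ.lifts := Nat.find_spec hex
  have hmin : ∀ j < n, (orb j).1 ∉ σ.lifts := fun j hj => Nat.find_min hex hj
  set t : ℝ := (n + 1 : ℕ) + 2 / 24 with ht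
  have ht0 : 0 ≤ t := by positivity
  refine ⟨t, ht0, ?_⟩
  have hfl : ⌊t⌋₊ = n + 1 := by
    rw [Nat.floor_eq_iff ht0, ht]
    constructor <;> push_cast <;> linarith
  have hτ : t - ((n + 1 : ℕ) : ℝ) = 2 / 24 := by rw [ht]; ring
  have hX : σ.path c₀ w t = σ.midPoint c₀ w (n + 1) 1 := by
    rw [σ.path_eq c₀ w ht0, hfl, hτ, σ.segment_eq c₀ w (j := 1) (by norm_num),
      prog_eq_zero (by norm_num), zero_smul, add_zero]
    · norm_num [phaseStart]
    · norm_num [phaseStart]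
    · norm_num [phaseStart]
  have hC := hvalid n hmin
  have hmid : σ.midPoint c₀ w (n + 1) 1 = σ.point (orb n) (3 / 4) := by
    show σ.midFrom c₀ w (σ.nodePoint c₀ w (n + 1)) (n + 1) 1 = _
    rw [node_eq hok h0 hc hw hvalid hrule n hmin, midFrom, dif_pos (by norm_num)]
    exact hok.kick_lift hC hn
  refine ⟨0, fun i => ?_⟩
  rw [hX, hmid]
  have hx := hok.emb_x hC
  have hy := hok.emb_y hC
  fin_cases i
  · simpa [boxLo, boxHi, Sys.point] using hx
  · simpa [boxLo, boxHi, Sys.point] using hy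
  · norm_num [boxLo, boxHi, Sys.point]

lemma mid_height (hne : ∀ n, (orb n).1 ∉ σ.lifts) (n j : ℕ) (hj : j ≤ 7) :
    0 ≤ σ.midPoint c₀ w n j 2 ∧ σ.midPoint c₀ w n j 2 ≤ 1 / 2 := by
  cases n with
  | zero =>
    rcases Nat.lt_or_ge j 7 with h | h
    · show 0 ≤ σ.midFrom c₀ w 0 0 j 2 ∧ σ.midFrom c₀ w 0 0 j 2 ≤ 1 / 2
      rw [hok.midFrom_origin 0 j (by omega)]; simp
    · obtain rfl : j = 7 := by omega
      show 0 ≤ σ.nodePoint c₀ w 1 2 ∧ σ.nodePoint c₀ w 1 2 ≤ 1 / 2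
      rw [node_eq hok h0 hc hw hvalid hrule 0 (fun j _ => hne j)]
      simp [Sys.point]
  | succ n =>
    obtain ⟨r, hr, hm, -⟩ := hrule n fun j _ => hne j
    show 0 ≤ σ.midFrom c₀ w (σ.nodePoint c₀ w (n + 1)) (n + 1) j 2 ∧ _ ≤ _
    rw [show σ.midPoint c₀ w (n + 1) j = σ.midFrom c₀ w (σ.nodePoint c₀ w (n + 1)) (n + 1) j from rfl,
      node_eq hok h0 hc hw hvalid hrule n (fun j _ => hne j)]
    exact (hok.period_spec (hvalid n fun j _ => hne j) (hne n) hr hm (by omega)).2 j hj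

lemma detect :
    (∃ t, 0 ≤ t ∧ InTorusBox boxLo boxHi (σ.path c₀ w t)) ↔ ∃ n, (orb n).1 ∈ σ.lifts := by
  refine ⟨fun ⟨t, ht, k, hk⟩ => ?_, path_box_of_lift hok h0 hc hw hvalid hrule⟩
  by_contra hne
  have hne' : ∀ n, (orb n).1 ∉ σ.lifts := fun n hn => hne ⟨n, hn⟩
  obtain ⟨n, j, p, hj, hp0, hp1, hX⟩ := σ.path_segment c₀ w ht
  obtain ⟨a0, a1⟩ := mid_height hok h0 hc hw hvalid hrule hne' n j (by omega)
  obtain ⟨b0, b1⟩ := mid_height hok h0 hc hw hvalid hrule hne' n (j + 1) (by omega)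
  have hz := hk 2
  rw [hX] at hz
  simp [boxLo, boxHi] at hz
  obtain ⟨hz0, hz1⟩ := hz
  set a := σ.midPoint c₀ w n j 2
  set b := σ.midPoint c₀ w n (j + 1) 2
  have hv0 : 0 ≤ a + p * (b - a) := by nlinarith
  have hv1 : a + p * (b - a) ≤ 1 / 2 := by nlinarith
  rcases le_or_gt (k 2) 0 with hk2 | hk2
  · have : (k 2 : ℝ) ≤ 0 := by exact_mod_cast hk2
    linarith
  · have : (1 : ℝ) ≤ k 2 := by exact_mod_cast hk2
    linarith

end Sys

end

end Vale.Agent.P113
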