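import Vale.Agent.P113.Bump

/-!
Cantor codes of stacks and the plateau functions of their cylinder boxes.
-/

namespace Vale.Agent.P113

noncomputable section

/-- The code of a stack (top first); an empty stack reads as blanks. -/
def enc (b : ℕ) : List ℕ → ℝ
  | [] => 0
  | d :: l => (2 * (d : ℝ) + enc b l) / b

/-- The numerator of the left end of the cylinder of a prefix. -/
def prefNum (b : ℕ) : List ℕ → ℕ
  | [] => 0
  | d :: p => 2 * d * b ^ p.length + prefNum b p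

/-- `p` is a prefix of the stack `S` padded by blanks. -/
def Pre : List ℕ → List ℕ → Prop
  | [], _ => True
  | d :: p, S => S.headD 0 = d ∧ Pre p S.tail

lemma enc_step {b : ℕ} (S : List ℕ) :
    enc b S = (2 * ((S.headD 0 : ℕ) : ℝ) + enc b S.tail) / b := by
  cases S <;> simp [enc]

lemma enc_mem {D : ℕ} (S : List ℕ) (h : ∀ d ∈ S, d < D) :
    0 ≤ enc (2 * D + 2) S ∧ enc (2 * D + 2) S ≤ 1 := by
  induction S with
  | nil => simp [enc]
  | cons d l ih =>
    obtain ⟨h0, h1⟩ := ih fun e he => h e (List.mem_cons_of_mem _ he)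
    have hd : (d : ℝ) + 1 ≤ D := by exact_mod_cast h d List.mem_cons_self
    have hb : (0 : ℝ) < ((2 * D + 2 : ℕ) : ℝ) := by positivity
    constructor
    · exact div_nonneg (by positivity) hb.le
    · simp only [enc, div_le_one hb]; push_cast; linarith

lemma prefNum_lt {D : ℕ} (p : List ℕ) (h : ∀ d ∈ p, d < D) :
    prefNum (2 * D + 2) p + 1 ≤ (2 * D + 2) ^ p.length := by
  induction p with
  | nil => simp [prefNum]
  | cons d p ih =>
    have h' := ih fun e he => h e (List.mem_cons_of_mem _ he)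
    have hd : d + 1 ≤ D := h d List.mem_cons_self
    simp only [prefNum, List.length_cons, pow_succ]
    nlinarith [Nat.one_le_pow p.length (2 * D + 2) (by omega)]

lemma tail_lt {D : ℕ} {S : List ℕ} (h : ∀ d ∈ S, d < D) : ∀ d ∈ S.tail, d < D :=
  fun d hd => h d (List.mem_of_mem_tail hd)

lemma headD_lt {D : ℕ} (hD : 0 < D) {S : List ℕ} (h : ∀ d ∈ S, d < D) : S.headD 0 < D := by
  cases S with
  | nil => simpa using hD
  | cons d l => simpa using h d List.mem_cons_self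

lemma prefix_value {D : ℕ} (hD : 0 < D) (p : List ℕ) (hp : ∀ d ∈ p, d < D) (S : List ℕ)
    (hS : ∀ d ∈ S, d < D) :
    (Pre p S ∧ ((2 * D + 2 : ℕ) : ℝ) ^ p.length * enc (2 * D + 2) S - prefNum (2 * D + 2) p =
        enc (2 * D + 2) (S.drop p.length)) ∨
    (¬ Pre p S ∧
      (((2 * D + 2 : ℕ) : ℝ) ^ p.length * enc (2 * D + 2) S - prefNum (2 * D + 2) p ≤ -1 ∨
        2 ≤ ((2 * D + 2 : ℕ) : ℝ) ^ p.length * enc (2 * D + 2) S - prefNum (2 * D + 2) p)) := by
  induction p generalizing S with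
  | nil => left; simp [Pre, prefNum]
  | cons d p ih =>
    have hp' : ∀ e ∈ p, e < D := fun e he => hp e (List.mem_cons_of_mem _ he)
    have ht := tail_lt hS
    have hV : (prefNum (2 * D + 2) p : ℝ) + 1 ≤ ((2 * D + 2 : ℕ) : ℝ) ^ p.length := by
      exact_mod_cast prefNum_lt p hp'
    have hE := enc_mem S.tail ht
    have key : ((2 * D + 2 : ℕ) : ℝ) ^ (d :: p).length * enc (2 * D + 2) S -
        prefNum (2 * D + 2) (d :: p) =
        2 * (((S.headD 0 : ℕ) : ℝ) - d) * ((2 * D + 2 : ℕ) : ℝ) ^ p.length +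
          (((2 * D + 2 : ℕ) : ℝ) ^ p.length * enc (2 * D + 2) S.tail -
            prefNum (2 * D + 2) p) := by
      rw [enc_step S]
      simp only [prefNum, List.length_cons, pow_succ]
      field_simp
      push_cast
      ring
    rw [key]
    have hpow : (1 : ℝ) ≤ ((2 * D + 2 : ℕ) : ℝ) ^ p.length :=
      one_le_pow₀ (by exact_mod_cast (show 1 ≤ 2 * D + 2 by omega))
    rcases eq_or_ne (S.headD 0) d with heq | hne
    · rw [heq, sub_self, mul_zero, zero_mul, zero_add]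
      rcases ih hp' S.tail ht with ⟨h1, h2⟩ | ⟨h1, h2⟩
      · left
        refine ⟨⟨heq, h1⟩, ?_⟩
        rw [h2]; cases S <;> simp
      · exact Or.inr ⟨fun h => h1 h.2, h2⟩
    · right
      refine ⟨fun h => hne h.1, ?_⟩
      rcases lt_or_gt_of_ne hne with h | h
      · left
        have : ((S.headD 0 : ℕ) : ℝ) + 1 ≤ d := by exact_mod_cast h
        nlinarith [hE.1, hE.2, (Nat.cast_nonneg (prefNum (2 * D + 2) p) : (0 : ℝ) ≤ _)]
      · right
        have : (d : ℝ) + 1 ≤ ((S.headD 0 : ℕ) : ℝ) := by exact_mod_cast h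
        nlinarith [hE.1, hE.2, (Nat.cast_nonneg (prefNum (2 * D + 2) p) : (0 : ℝ) ≤ _)]

lemma pre_self : ∀ p : List ℕ, Pre p p
  | [] => trivial
  | _ :: p => ⟨rfl, pre_self p⟩

lemma enc_eq_prefNum_div {D : ℕ} (hD : 0 < D) (w : List ℕ) (hw : ∀ d ∈ w, d < D) :
    ((2 * D + 2 : ℕ) : ℝ) ^ w.length * enc (2 * D + 2) w = prefNum (2 * D + 2) w := by
  rcases prefix_value hD w hw w hw with ⟨_, h⟩ | ⟨h, _⟩
  · simp [enc] at h; push_cast; linarith
  · exact absurd (pre_self w) h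

/-! ### Boxes -/

/-- A box `(D, U)` is the interval `0 ≤ D x - U ≤ 1`. -/
abbrev Box : Type := ℕ × ℕ

/-- The box of the points `(2 c + 2 + ξ) / N` with `ξ` in the cylinder of `p`. -/
def embBox (b N c : ℕ) (p : List ℕ) : Box :=
  (N * b ^ p.length, (2 * c + 2) * b ^ p.length + prefNum b p)

/-- The point coding a control `c` and a stack `S`. -/
def emb (b N c : ℕ) (S : List ℕ) : ℝ := (2 * (c : ℝ) + 2 + enc b S) / N

/-- A box inside `(0, 1)`, with room for the cutoff. -/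
def Box.Inside (B : Box) : Prop := 1 ≤ B.2 ∧ B.2 + 2 ≤ B.1

/-- The affine coordinate of a box. -/
def Box.pos (B : Box) (x : ℝ) : ℝ := (B.1 : ℝ) * x - (B.2 : ℝ)

lemma embBox_inside {D N c : ℕ} (hN : 2 * c + 4 ≤ N) (p : List ℕ) (hp : ∀ d ∈ p, d < D) :
    (embBox (2 * D + 2) N c p).Inside := by
  have hV := prefNum_lt p hp
  have h1 := Nat.one_le_pow p.length (2 * D + 2) (by omega)
  refine ⟨?_, ?_⟩ <;> simp only [embBox] <;> nlinarith

lemma emb_mem {D N c : ℕ} (hN : 2 * c + 4 ≤ N) (S : List ℕ) (hS : ∀ d ∈ S, d < D) :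
    0 < emb (2 * D + 2) N c S ∧ emb (2 * D + 2) N c S < 1 := by
  have hE := enc_mem S hS
  have hN' : (2 : ℝ) * c + 4 ≤ N := by exact_mod_cast hN
  have hN0 : (0 : ℝ) < N := by linarith [(Nat.cast_nonneg c : (0 : ℝ) ≤ c)]
  constructor
  · exact div_pos (by linarith [(Nat.cast_nonneg c : (0 : ℝ) ≤ c)]) hN0
  · rw [emb, div_lt_one hN0]; linarith

lemma embBox_pos_of_match {D N c : ℕ} (hD : 0 < D) (hN : 0 < N) {p S : List ℕ}
    (hp : ∀ d ∈ p, d < D) (hS : ∀ d ∈ S, d < D) (h : Pre p S) :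
    (embBox (2 * D + 2) N c p).pos (emb (2 * D + 2) N c S) =
      enc (2 * D + 2) (S.drop p.length) := by
  rcases prefix_value hD p hp S hS with ⟨_, h2⟩ | ⟨h1, _⟩
  · rw [← h2]
    simp only [embBox, Box.pos, emb]
    have : (N : ℝ) ≠ 0 := by exact_mod_cast hN.ne'
    push_cast
    field_simp
    ring
  · exact absurd h h1

lemma embBox_pos_of_not {D N c c' : ℕ} (hD : 0 < D) (hN : 0 < N) {p S : List ℕ}
    (hp : ∀ d ∈ p, d < D) (hS : ∀ d ∈ S, d < D) (h : ¬ (c' = c ∧ Pre p S)) :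
    (embBox (2 * D + 2) N c p).pos (emb (2 * D + 2) N c' S) ≤ -1 ∨
      2 ≤ (embBox (2 * D + 2) N c p).pos (emb (2 * D + 2) N c' S) := by
  have key : (embBox (2 * D + 2) N c p).pos (emb (2 * D + 2) N c' S) =
      2 * ((c' : ℝ) - c) * ((2 * D + 2 : ℕ) : ℝ) ^ p.length +
        (((2 * D + 2 : ℕ) : ℝ) ^ p.length * enc (2 * D + 2) S - prefNum (2 * D + 2) p) := by
    simp only [embBox, Box.pos, emb]
    have : (N : ℝ) ≠ 0 := by exact_mod_cast hN.ne'
    push_cast
    field_simp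
    ring
  rw [key]
  rcases eq_or_ne c' c with rfl | hne
  · rw [sub_self, mul_zero, zero_mul, zero_add]
    rcases prefix_value hD p hp S hS with ⟨h1, _⟩ | ⟨_, h2⟩
    · exact absurd ⟨rfl, h1⟩ h
    · exact h2
  · have hV : (prefNum (2 * D + 2) p : ℝ) + 1 ≤ ((2 * D + 2 : ℕ) : ℝ) ^ p.length := by
      exact_mod_cast prefNum_lt p hp
    have hE := enc_mem S hS
    have hpow : (1 : ℝ) ≤ ((2 * D + 2 : ℕ) : ℝ) ^ p.length :=
      one_le_pow₀ (by exact_mod_cast (show 1 ≤ 2 * D + 2 by omega))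
    rcases lt_or_gt_of_ne hne with h | h
    · left
      have : (c' : ℝ) + 1 ≤ c := by exact_mod_cast h
      nlinarith [hE.1, hE.2, (Nat.cast_nonneg (prefNum (2 * D + 2) p) : (0 : ℝ) ≤ _)]
    · right
      have : (c : ℝ) + 1 ≤ c' := by exact_mod_cast h
      nlinarith [hE.1, hE.2, (Nat.cast_nonneg (prefNum (2 * D + 2) p) : (0 : ℝ) ≤ _)]

/-! ### Plateaus -/

/-- The bump `s ↦ s^k π₁₀(8 D s - (8 U - 1))` of a box. -/
def boxBump (k : ℕ) (B : Box) : Bump :=
  .inr (k, (8 * B.1, 0, 1), (8 * B.2, 1, 1), (10, 0, 1))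

/-- The normalised periodic cutoff of a box times the `k`-th power of the coordinate. -/
def cut (k : ℕ) (B : Box) (x : ℝ) : ℝ := periodize (bumpFn (boxBump k B)) x / kappa

lemma boxBump_valid (k : ℕ) {B : Box} (hB : B.Inside) : bumpValid (boxBump k B) := by
  have : (1 : ℚ) ≤ B.1 := by exact_mod_cast (show 1 ≤ B.1 by have := hB.2; omega)
  constructor
  · simp only [ratVal]; push_cast; intro h; linarith
  · norm_num [ratVal]

lemma boxBump_apply (k : ℕ) (B : Box) (s : ℝ) :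
    bumpFn (boxBump k B) s = s ^ k * piFn 10 (8 * B.pos s + 1) := by
  simp only [boxBump, bumpFn, Box.pos]
  congr 2
  · norm_num [ratVal]
  · simp only [ratVal]; push_cast; ring

lemma boxBump_zero (k : ℕ) {B : Box} {s : ℝ} (h : B.pos s ≤ -1 / 4 ∨ 5 / 4 ≤ B.pos s) :
    bumpFn (boxBump k B) s = 0 := by
  rw [boxBump_apply, piFn_eq_zero (by norm_num) ?_, mul_zero]
  rcases h with h | h
  · left; linarith
  · right; linarith

lemma periodize_boxBump (k : ℕ) {B : Box} (hB : B.Inside) {x : ℝ} (h0 : 0 ≤ x) (h1 : x ≤ 1) :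
    periodize (bumpFn (boxBump k B)) x = bumpFn (boxBump k B) x := by
  have hU : (1 : ℝ) ≤ B.2 := by exact_mod_cast hB.1
  have hD : (B.2 : ℝ) + 2 ≤ B.1 := by exact_mod_cast hB.2
  refine periodize_eq_self le_rfl le_rfl ?_ h0 h1
  intro s hs
  apply boxBump_zero
  simp only [Box.pos]
  rcases hs with hs | hs
  · left; nlinarith
  · right; nlinarith

lemma cut_inside {k : ℕ} {B : Box} (hB : B.Inside) {x : ℝ} (h0 : 0 ≤ x) (h1 : x ≤ 1)
    (hx0 : 0 ≤ B.pos x) (hx1 : B.pos x ≤ 1) : cut k B x = x ^ k := by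
  rw [cut, periodize_boxBump k hB h0 h1, boxBump_apply, piFn_eq_kappa (by linarith)
    (by linarith), mul_div_assoc, div_self kappa_ne_zero, mul_one]

lemma cut_outside {k : ℕ} {B : Box} (hB : B.Inside) {x : ℝ} (h0 : 0 ≤ x) (h1 : x ≤ 1)
    (hx : B.pos x ≤ -1 / 4 ∨ 5 / 4 ≤ B.pos x) : cut k B x = 0 := by
  rw [cut, periodize_boxBump k hB h0 h1, boxBump_zero k hx, zero_div]

lemma cut_at_zero {k : ℕ} {B : Box} (hB : B.Inside) : cut k B 0 = 0 := by
  apply cut_outside hB le_rfl zero_le_one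
  left
  have hU : (1 : ℝ) ≤ B.2 := by exact_mod_cast hB.1
  simp only [Box.pos]; linarith

end

end Vale.Agent.P113
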