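import Vale.Agent.P113.Compile

/-!
The velocity field of a system, and the identity between the compiled force and
`∂ₜu - ν Δu` (the convection term vanishes and the pressure is zero).
-/

namespace Vale.Agent.P113

open scoped ContDiff

noncomputable section

/-- The first coordinate different from `a`. -/
def oth₁ (a : Fin 3) : Fin 3 := if a = 0 then 1 else 0

/-- The second coordinate different from `a`. -/
def oth₂ (a : Fin 3) : Fin 3 := if a = 2 then 1 else 2

def cut2 (k : ℕ) (B : Box) : ℝ → ℝ := deriv (deriv (cut k B))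

lemma cut_contDiff (k : ℕ) {B : Box} (hB : B.Inside) : ContDiff ℝ ∞ (cut k B) :=
  ((bumpFn_boundedSupport (boxBump_valid k hB)).periodize_contDiff (bumpFn_contDiff _)).div_const _

lemma contDiff_deriv_infty {f : ℝ → ℝ} (h : ContDiff ℝ ∞ f) : ContDiff ℝ ∞ (deriv f) :=
  (contDiff_infty_iff_deriv.mp h).2

lemma cut_periodic (k : ℕ) (B : Box) (y : ℝ) (m : ℤ) : cut k B (y + m) = cut k B y := by
  simp [cut, periodize_add_int]

lemma deriv_periodize {g : ℝ → ℝ} (hb : BoundedSupport g) (hd : Differentiable ℝ g) :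
    deriv (periodize g) = periodize (deriv g) :=
  funext fun y => (hb.periodize_hasDerivAt (fun s => (hd s).hasDerivAt) y).deriv

lemma cut2_eq (k : ℕ) {B : Box} (hB : B.Inside) (y : ℝ) :
    cut2 k B y = periodize (deriv (deriv (bumpFn (boxBump k B)))) y / kappa := by
  have hb := bumpFn_boundedSupport (boxBump_valid k hB)
  have hs := bumpFn_contDiff (boxBump k B)
  have h1 : deriv (cut k B) = fun x => periodize (deriv (bumpFn (boxBump k B))) x / kappa := by
    funext x
    rw [← deriv_periodize hb (hs.differentiable (by simp))]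
    exact deriv_div_const _
  rw [cut2, h1, deriv_div_const, deriv_periodize hb.deriv_fun
    ((contDiff_deriv_infty hs).differentiable (by simp))]

lemma bumpFn_boxBump_deriv2 (k : ℕ) (hk : k ≤ 1) (B : Box) (s : ℝ) :
    deriv (deriv (bumpFn (boxBump k B))) s =
      ((boxBump2 k B).map fun e => (ratVal e.1 : ℝ) * bumpFn e.2 s).sum := by
  set D : ℝ := (B.1 : ℝ)
  set w : ℝ → ℝ := fun r => 8 * (D * r - (B.2 : ℝ)) + 1 with hw
  have hwd : ∀ r, HasDerivAt w (8 * D) r := fun r => by
    have h : HasDerivAt w (8 * (D * 1)) r :=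
      ((((hasDerivAt_id r).const_mul D).sub_const (B.2 : ℝ)).const_mul 8).add_const 1
    simpa using h
  have hrd : ∀ r, HasDerivAt rho (deriv rho r) r := fun r =>
    (rho_contDiff.differentiable (by simp) r).hasDerivAt
  have hP : ∀ r, HasDerivAt (fun r => piFn 10 (w r)) ((rho (w r) - rho (w r - 10)) * (8 * D)) r :=
    fun r => (piFn_hasDerivAt 10 (w r)).comp r (hwd r)
  have hP' : ∀ r, HasDerivAt (fun r => (rho (w r) - rho (w r - 10)) * (8 * D))
      (((deriv rho (w r)) * (8 * D) - (deriv rho (w r - 10)) * (8 * D)) * (8 * D)) r :=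
    fun r => (((hrd (w r)).comp r (hwd r)).sub
      ((hrd (w r - 10)).comp r ((hwd r).sub_const 10))).mul_const _
  have hfun : bumpFn (boxBump k B) = fun r => r ^ k * piFn 10 (w r) :=
    funext fun r => boxBump_apply k B r
  have e1 : ∀ r, (8 * (B.1 : ℝ)) * r - (8 * (B.2 : ℝ) - 1) = w r := fun r => by
    simp only [hw, D]; ring
  have e2 : ∀ r, (8 * (B.1 : ℝ)) * r - (8 * (B.2 : ℝ) + 10 - 1) = w r - 10 := fun r => by
    simp only [hw, D]; ring
  interval_cases k
  · have hd1 : deriv (bumpFn (boxBump 0 B)) = fun r => (rho (w r) - rho (w r - 10)) * (8 * D) := by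
      funext r; rw [hfun]; simp only [pow_zero, one_mul]; exact (hP r).deriv
    rw [hd1, (hP' s).deriv]
    simp only [boxBump2, if_pos, List.map_cons, List.map_nil, List.sum_cons, List.sum_nil, bumpFn,
      ratVal, iteratedDeriv_one]
    push_cast
    simp only [sub_zero, div_one, pow_zero, one_mul, zero_sub, e1, e2]
    ring
  · have hd1 : deriv (bumpFn (boxBump 1 B)) =
        fun r => 1 * piFn 10 (w r) + r * ((rho (w r) - rho (w r - 10)) * (8 * D)) := by
      funext r; rw [hfun]; simp only [pow_one]; exact ((hasDerivAt_id r).mul (hP r)).deriv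
    have hd2 : HasDerivAt
        (fun r => 1 * piFn 10 (w r) + r * ((rho (w r) - rho (w r - 10)) * (8 * D))) _ s :=
      (hP s).const_mul 1 |>.add ((hasDerivAt_id s).mul (hP' s))
    rw [hd1, hd2.deriv]
    simp only [boxBump2, if_neg one_ne_zero, List.map_cons, List.map_nil, List.sum_cons,
      List.sum_nil, bumpFn, ratVal, iteratedDeriv_one, iteratedDeriv_zero]
    push_cast
    simp only [sub_zero, div_one, pow_zero, pow_one, one_mul, zero_sub, e1, e2, id_eq]
    ring

lemma boxBump2_valid (k : ℕ) {B : Box} (hB : B.Inside) :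
    ∀ e ∈ boxBump2 k B, bumpValid e.2 := by
  have hne : ((B.1 : ℚ)) ≠ 0 := by
    have := hB.2; exact_mod_cast (show B.1 ≠ 0 by omega)
  intro e he
  unfold boxBump2 at he
  split at he <;> simp at he <;> (repeat' (rcases he with rfl | he)) <;>
    first
      | (subst he; simp [bumpValid, ratVal, hne])
      | simp [bumpValid, ratVal, hne]

lemma periodize_list_sum (L : List (RatCode × Bump)) (hL : ∀ e ∈ L, bumpValid e.2) (y : ℝ) :
    periodize (fun s => (L.map fun e => (ratVal e.1 : ℝ) * bumpFn e.2 s).sum) y =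
      (L.map fun e => (ratVal e.1 : ℝ) * periodize (bumpFn e.2) y).sum := by
  suffices h : BoundedSupport (fun s => (L.map fun e => (ratVal e.1 : ℝ) * bumpFn e.2 s).sum) ∧
      periodize (fun s => (L.map fun e => (ratVal e.1 : ℝ) * bumpFn e.2 s).sum) y =
        (L.map fun e => (ratVal e.1 : ℝ) * periodize (bumpFn e.2) y).sum from h.2
  induction L with
  | nil => exact ⟨⟨0, fun _ _ => by simp⟩, by simp [periodize]⟩
  | cons e L ih =>
    obtain ⟨⟨R, hR⟩, heq⟩ := ih fun e' he' => hL e' (List.mem_cons_of_mem _ he')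
    have hb := bumpFn_boundedSupport (hL e List.mem_cons_self)
    obtain ⟨R', hR'⟩ := hb
    constructor
    · refine ⟨max R R', fun s hs => ?_⟩
      have h1 := hR s ((le_max_left _ _).trans_lt hs)
      simp only at h1
      simp only [List.map_cons, List.sum_cons, h1, hR' s ((le_max_right _ _).trans_lt hs)]
      ring
    · simp only [List.map_cons, List.sum_cons]
      rw [← heq]
      unfold periodize
      rw [← tsum_mul_left]
      exact ((BoundedSupport.summable ⟨R', hR'⟩ y).mul_left _).tsum_add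
        (BoundedSupport.summable ⟨R, hR⟩ y)

lemma cut2_eq_sum (k : ℕ) (hk : k ≤ 1) {B : Box} (hB : B.Inside) (y : ℝ) :
    cut2 k B y =
      ((boxBump2 k B).map fun e => (ratVal e.1 : ℝ) * periodize (bumpFn e.2) y).sum / kappa := by
  rw [cut2_eq k hB, funext (bumpFn_boxBump_deriv2 k hk B),
    periodize_list_sum _ (boxBump2_valid k hB)]

/-! ### Functions of two coordinates -/

lemma hasFDerivAt_pair {f g : ℝ → ℝ} (hf : Differentiable ℝ f) (hg : Differentiable ℝ g)
    (a b : Fin 3) (c : ℝ) (x : Fin 3 → ℝ) :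
    HasFDerivAt (fun y : Fin 3 → ℝ => c * (f (y a) * g (y b)))
      (c • (f (x a) • (deriv g (x b) • ContinuousLinearMap.proj (R := ℝ) (φ := fun _ => ℝ) b) +
        g (x b) • (deriv f (x a) • ContinuousLinearMap.proj (R := ℝ) (φ := fun _ => ℝ) a))) x :=
  (((hf (x a)).hasDerivAt.comp_hasFDerivAt x (hasFDerivAt_apply a x)).mul
    ((hg (x b)).hasDerivAt.comp_hasFDerivAt x (hasFDerivAt_apply b x))).const_mul c

lemma pd_pair {f g : ℝ → ℝ} (hf : Differentiable ℝ f) (hg : Differentiable ℝ g)
    (a b : Fin 3) (c : ℝ) (j : Fin 3) (x : Fin 3 → ℝ) :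
    pd j (fun y => c * (f (y a) * g (y b))) x =
      (if a = j then c * (deriv f (x a) * g (x b)) else 0) +
        (if b = j then c * (f (x a) * deriv g (x b)) else 0) := by
  rw [pd, (hasFDerivAt_pair hf hg a b c x).fderiv]
  simp only [ContinuousLinearMap.smul_apply, ContinuousLinearMap.add_apply,
    ContinuousLinearMap.proj_apply, smul_eq_mul, Pi.single_apply]
  split_ifs <;> ring

lemma pd_list_sum {ι : Type} (L : List ι) (φ : ι → (Fin 3 → ℝ) → ℝ)
    (h : ∀ i ∈ L, Differentiable ℝ (φ i)) (j : Fin 3) (x : Fin 3 → ℝ) :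
    Differentiable ℝ (fun y => (L.map fun i => φ i y).sum) ∧
      pd j (fun y => (L.map fun i => φ i y).sum) x = (L.map fun i => pd j (φ i) x).sum := by
  induction L with
  | nil => simp [pd]
  | cons i L ih =>
    obtain ⟨h1, h2⟩ := ih fun i' hi' => h i' (List.mem_cons_of_mem _ hi')
    have hi := h i List.mem_cons_self
    simp only [List.map_cons, List.sum_cons]
    refine ⟨hi.add h1, ?_⟩
    rw [← h2]
    simp only [pd]
    rw [fderiv_fun_add (hi x) (h1 x)]
    rfl

/-! ### Profiles -/

def Piece.Good (P : Piece) : Prop := P.1.Inside ∧ P.2.1.Inside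

/-- All summands of a list of pieces. -/
def allSummands (L : List Piece) : List (Piece × RatCode × ℕ × ℕ) :=
  L.flatMap fun P => P.summands.map fun s => (P, s)

lemma mem_allSummands {L : List Piece} {e : Piece × RatCode × ℕ × ℕ} (he : e ∈ allSummands L) :
    e.1 ∈ L ∧ e.2.2.1 ≤ 1 ∧ e.2.2.2 ≤ 1 := by
  simp only [allSummands, List.mem_flatMap, List.mem_map] at he
  obtain ⟨P, hP, s, hs, rfl⟩ := he
  refine ⟨hP, ?_⟩
  simp [Piece.summands] at hs
  rcases hs with rfl | rfl | rfl <;> simp

/-- The profile of a list of pieces for a shear along `a`. -/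
def profile (a : Fin 3) (L : List Piece) (x : Fin 3 → ℝ) : ℝ :=
  ((allSummands L).map fun e => (ratVal e.2.1 : ℝ) *
    (cut e.2.2.1 e.1.1 (x (oth₁ a)) * cut e.2.2.2 e.1.2.1 (x (oth₂ a)))).sum

/-- Its Laplacian. -/
def profileLap (a : Fin 3) (L : List Piece) (x : Fin 3 → ℝ) : ℝ :=
  ((allSummands L).map fun e => (ratVal e.2.1 : ℝ) *
    (cut2 e.2.2.1 e.1.1 (x (oth₁ a)) * cut e.2.2.2 e.1.2.1 (x (oth₂ a)) +
      cut e.2.2.1 e.1.1 (x (oth₁ a)) * cut2 e.2.2.2 e.1.2.1 (x (oth₂ a)))).sum

lemma contDiff_list_sum {ι E : Type} [NormedAddCommGroup E] [NormedSpace ℝ E] (L : List ι)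
    (φ : ι → E → ℝ) (h : ∀ i ∈ L, ContDiff ℝ ∞ (φ i)) :
    ContDiff ℝ ∞ fun y => (L.map fun i => φ i y).sum := by
  induction L with
  | nil => simpa using contDiff_const
  | cons i L ih =>
    simp only [List.map_cons, List.sum_cons]
    exact (h i List.mem_cons_self).add (ih fun i' hi' => h i' (List.mem_cons_of_mem _ hi'))

lemma profile_contDiff {a : Fin 3} {L : List Piece} (hL : ∀ P ∈ L, P.Good) :
    ContDiff ℝ ∞ (profile a L) := by
  refine contDiff_list_sum _ _ fun e he => ?_
  obtain ⟨hP, -, -⟩ := mem_allSummands he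
  exact contDiff_const.mul (((cut_contDiff _ (hL _ hP).1).comp (contDiff_apply ℝ ℝ _)).mul
    ((cut_contDiff _ (hL _ hP).2).comp (contDiff_apply ℝ ℝ _)))

lemma profile_periodic (a : Fin 3) (L : List Piece) : SpatiallyPeriodic (profile a L) := by
  intro x k
  simp [profile, cut_periodic]

lemma pd_profile {a : Fin 3} {L : List Piece} (hL : ∀ P ∈ L, P.Good) (j : Fin 3)
    (x : Fin 3 → ℝ) :
    pd j (profile a L) x = ((allSummands L).map fun e =>
      (if oth₁ a = j then (ratVal e.2.1 : ℝ) *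
          (deriv (cut e.2.2.1 e.1.1) (x (oth₁ a)) * cut e.2.2.2 e.1.2.1 (x (oth₂ a))) else 0) +
        (if oth₂ a = j then (ratVal e.2.1 : ℝ) *
          (cut e.2.2.1 e.1.1 (x (oth₁ a)) * deriv (cut e.2.2.2 e.1.2.1) (x (oth₂ a)))
          else 0)).sum := by
  rw [show profile a L = fun y => ((allSummands L).map fun e => (ratVal e.2.1 : ℝ) *
    (cut e.2.2.1 e.1.1 (y (oth₁ a)) * cut e.2.2.2 e.1.2.1 (y (oth₂ a)))).sum from rfl]
  have hd : ∀ e ∈ allSummands L, Differentiable ℝ (cut e.2.2.1 e.1.1) ∧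
      Differentiable ℝ (cut e.2.2.2 e.1.2.1) := fun e he =>
    ⟨(cut_contDiff _ (hL _ (mem_allSummands he).1).1).differentiable (by simp),
      (cut_contDiff _ (hL _ (mem_allSummands he).1).2).differentiable (by simp)⟩
  rw [(pd_list_sum (allSummands L) _ ?_ j x).2]
  · congr 1
    refine List.map_congr_left fun e he => ?_
    exact pd_pair (hd e he).1 (hd e he).2 _ _ _ _ _
  · intro e he
    exact fun y => (hasFDerivAt_pair (hd e he).1 (hd e he).2 _ _ _ y).differentiableAt

lemma oth_ne (a : Fin 3) : oth₁ a ≠ a ∧ oth₂ a ≠ a ∧ oth₁ a ≠ oth₂ a := by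
  revert a; decide

lemma pd_profile_axis {a : Fin 3} {L : List Piece} (hL : ∀ P ∈ L, P.Good) (x : Fin 3 → ℝ) :
    pd a (profile a L) x = 0 := by
  rw [pd_profile hL]
  simp [(oth_ne a).1, (oth_ne a).2.1]

lemma pd_pd_profile {a : Fin 3} {L : List Piece} (hL : ∀ P ∈ L, P.Good) (j : Fin 3)
    (x : Fin 3 → ℝ) :
    pd j (pd j (profile a L)) x = ((allSummands L).map fun e =>
      (if oth₁ a = j then (ratVal e.2.1 : ℝ) *
          (cut2 e.2.2.1 e.1.1 (x (oth₁ a)) * cut e.2.2.2 e.1.2.1 (x (oth₂ a))) else 0) +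
        (if oth₂ a = j then (ratVal e.2.1 : ℝ) *
          (cut e.2.2.1 e.1.1 (x (oth₁ a)) * cut2 e.2.2.2 e.1.2.1 (x (oth₂ a)))
          else 0)).sum := by
  rw [show pd j (profile a L) = _ from funext (pd_profile hL j)]
  have hd : ∀ e ∈ allSummands L, (Differentiable ℝ (cut e.2.2.1 e.1.1) ∧
      Differentiable ℝ (cut e.2.2.2 e.1.2.1)) ∧
      Differentiable ℝ (deriv (cut e.2.2.1 e.1.1)) ∧
      Differentiable ℝ (deriv (cut e.2.2.2 e.1.2.1)) := fun e he =>
    ⟨⟨(cut_contDiff _ (hL _ (mem_allSummands he).1).1).differentiable (by simp),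
      (cut_contDiff _ (hL _ (mem_allSummands he).1).2).differentiable (by simp)⟩,
    (contDiff_deriv_infty (cut_contDiff _ (hL _ (mem_allSummands he).1).1)).differentiable
      (by simp),
    (contDiff_deriv_infty (cut_contDiff _ (hL _ (mem_allSummands he).1).2)).differentiable
      (by simp)⟩
  have hne := (oth_ne a).2.2
  by_cases h1 : oth₁ a = j
  · have h2 : oth₂ a ≠ j := h1 ▸ hne.symm
    simp only [if_pos h1, if_neg h2, add_zero]
    rw [(pd_list_sum (allSummands L) _ ?_ j x).2]
    · congr 1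
      refine List.map_congr_left fun e he => ?_
      rw [pd_pair (hd e he).2.1 (hd e he).1.2, if_pos h1, if_neg h2, add_zero]
      rfl
    · intro e he
      exact fun y => (hasFDerivAt_pair (hd e he).2.1 (hd e he).1.2 _ _ _ y).differentiableAt
  by_cases h2 : oth₂ a = j
  · simp only [if_neg h1, if_pos h2, zero_add]
    rw [(pd_list_sum (allSummands L) _ ?_ j x).2]
    · congr 1
      refine List.map_congr_left fun e he => ?_
      rw [pd_pair (hd e he).1.1 (hd e he).2.2, if_neg h1, if_pos h2, zero_add]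
      rfl
    · intro e he
      exact fun y => (hasFDerivAt_pair (hd e he).1.1 (hd e he).2.2 _ _ _ y).differentiableAt
  · simp only [if_neg h1, if_neg h2, add_zero]
    simp [pd]

lemma profile_lap {a : Fin 3} {L : List Piece} (hL : ∀ P ∈ L, P.Good) (x : Fin 3 → ℝ) :
    ∑ j, pd j (pd j (profile a L)) x = profileLap a L x := by
  simp only [pd_pd_profile hL, profileLap, Fin.sum_univ_three, ← List.sum_map_add]
  congr 1
  refine List.map_congr_left fun e _ => ?_
  fin_cases a <;> simp [oth₁, oth₂] <;> ring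

end

end Vale.Agent.P113
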