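import Vale.Agent.P113.Encode

/-!
From a Turing machine to a reversible stack rewriting system: every executed rule leaves a
garbage cell next to the cell it writes, and garbage cells are skipped when the head moves.
-/

namespace Vale.Agent.P113

noncomputable section

/-- A rewriting rule `(src, popL, popR, tgt, pushL, pushR)`. -/
abbrev Rw : Type := ℕ × List ℕ × List ℕ × ℕ × List ℕ × List ℕ

namespace Rw
def src (r : Rw) : ℕ := r.1
def popL (r : Rw) : List ℕ := r.2.1
def popR (r : Rw) : List ℕ := r.2.2.1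
def tgt (r : Rw) : ℕ := r.2.2.2.1
def pushL (r : Rw) : List ℕ := r.2.2.2.2.1
def pushR (r : Rw) : List ℕ := r.2.2.2.2.2
end Rw

/-- A rewriting system `(digits, controls, rules, halting controls)`. -/
abbrev Sys : Type := ℕ × ℕ × List Rw × List ℕ

namespace Sys
def digits (σ : Sys) : ℕ := σ.1
def ctrls (σ : Sys) : ℕ := σ.2.1
def rules (σ : Sys) : List Rw := σ.2.2.1
def lifts (σ : Sys) : List ℕ := σ.2.2.2
end Sys

/-- A control with two stacks. -/
abbrev Conf : Type := ℕ × List ℕ × List ℕ

def Rw.MatchPre (r : Rw) (C : Conf) : Prop :=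
  C.1 = r.src ∧ Pre r.popL C.2.1 ∧ Pre r.popR C.2.2

def Rw.MatchPost (r : Rw) (C : Conf) : Prop :=
  C.1 = r.tgt ∧ Pre r.pushL C.2.1 ∧ Pre r.pushR C.2.2

def Rw.app (r : Rw) (C : Conf) : Conf :=
  (r.tgt, r.pushL ++ C.2.1.drop r.popL.length, r.pushR ++ C.2.2.drop r.popR.length)

def Sys.ValidConf (σ : Sys) (C : Conf) : Prop :=
  C.1 < σ.ctrls ∧ (∀ d ∈ C.2.1, d < σ.digits) ∧ ∀ d ∈ C.2.2, d < σ.digits

/-- The hypotheses used to realise a system by shears. -/
structure Sys.OK (σ : Sys) : Prop where
  digits_pos : 0 < σ.digits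
  rule_lt : ∀ r ∈ σ.rules, r.src < σ.ctrls ∧ r.tgt < σ.ctrls ∧
    (∀ d ∈ r.popL, d < σ.digits) ∧ (∀ d ∈ r.popR, d < σ.digits) ∧
    (∀ d ∈ r.pushL, d < σ.digits) ∧ (∀ d ∈ r.pushR, d < σ.digits)
  lift_lt : ∀ c ∈ σ.lifts, c < σ.ctrls
  nodup : σ.rules.Nodup
  lift_nodup : σ.lifts.Nodup
  det : ∀ r ∈ σ.rules, ∀ r' ∈ σ.rules, ∀ C, r.MatchPre C → r'.MatchPre C → r' = r
  rev : ∀ r ∈ σ.rules, ∀ r' ∈ σ.rules, ∀ C, r.MatchPre C → r'.MatchPost (r.app C) → r' = r

lemma Sys.OK.app_valid {σ : Sys} (h : σ.OK) {r : Rw} (hr : r ∈ σ.rules) {C : Conf}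
    (hC : σ.ValidConf C) : σ.ValidConf (r.app C) := by
  obtain ⟨_, h2, _, _, h5, h6⟩ := h.rule_lt r hr
  refine ⟨h2, ?_, ?_⟩
  · intro d hd
    rcases List.mem_append.mp hd with hd | hd
    · exact h5 d hd
    · exact hC.2.1 d (List.mem_of_mem_drop hd)
  · intro d hd
    rcases List.mem_append.mp hd with hd | hd
    · exact h6 d hd
    · exact hC.2.2 d (List.mem_of_mem_drop hd)

lemma pre_append : ∀ (p l : List ℕ), Pre p (p ++ l)
  | [], _ => trivial
  | _ :: p, l => ⟨rfl, pre_append p l⟩

lemma Rw.matchPost_app (r : Rw) (C : Conf) : r.MatchPost (r.app C) :=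
  ⟨rfl, pre_append _ _, pre_append _ _⟩

open Classical in
/-- The successor configuration. -/
def Sys.next (σ : Sys) (C : Conf) : Conf :=
  if h : ∃ r ∈ σ.rules, r.MatchPre C then h.choose.app C else C

lemma Sys.OK.next_eq {σ : Sys} (h : σ.OK) {r : Rw} (hr : r ∈ σ.rules) {C : Conf}
    (hm : r.MatchPre C) : σ.next C = r.app C := by
  have hex : ∃ r ∈ σ.rules, r.MatchPre C := ⟨r, hr, hm⟩
  rw [Sys.next, dif_pos hex, h.det r hr _ hex.choose_spec.1 C hm hex.choose_spec.2]

/-! ### The compiled system -/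

namespace Machine

/-- Number of cell values: symbols and garbage records. -/
def cellCount (M : Machine) : ℕ := M.numSymbols * (3 * M.numStates + 1)

/-- The garbage record of the control `c` and the symbol `a`. -/
def garbage (M : Machine) (c a : ℕ) : ℕ := M.numSymbols + c * M.numSymbols + a

def isHalting (M : Machine) (q : ℕ) : Bool := decide (M.halting.idxOf q < M.halting.length)

/-- The rule executing the table entry `ρ` for control `c` and symbol `a`. -/
def execRule (M : Machine) (c a : ℕ) (ρ : Rule) : Rw :=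
  (c, if c / M.numStates = 0 then [a] else [],
    if c / M.numStates = 0 then [] else [a],
    (ρ.2.2 : ℕ) * M.numStates + ρ.1,
    if (ρ.2.2 : ℕ) = 0 then [] else
      if (ρ.2.2 : ℕ) = 1 then [M.garbage c a] else [ρ.2.1, M.garbage c a],
    if (ρ.2.2 : ℕ) = 0 then [ρ.2.1, M.garbage c a] else
      if (ρ.2.2 : ℕ) = 1 then [ρ.2.1] else [])

/-- The rule for control `c` and popped cell `a`, if there is one. -/
def rulesFor (M : Machine) (c a : ℕ) : List Rw :=
  if M.isHalting (c % M.numStates) = true then []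
  else if a < M.numSymbols then [M.execRule c a (M.ruleAt (c % M.numStates) a)]
  else if c / M.numStates = 0 then [(c, [a], [], c, [], [a])]
  else if c / M.numStates = 2 then [(c, [], [a], c, [a], [])]
  else []

def rwRules (M : Machine) : List Rw :=
  (List.range (3 * M.numStates)).flatMap fun c =>
    (List.range M.cellCount).flatMap fun a => M.rulesFor c a

def liftCtrls (M : Machine) : List ℕ :=
  (List.range (3 * M.numStates)).flatMap fun c =>
    if M.isHalting (c % M.numStates) = true then [c] else []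

def sys (M : Machine) : Sys := (M.cellCount, 3 * M.numStates, M.rwRules, M.liftCtrls)

def startCtrl (M : Machine) : ℕ := 2 * M.numStates + M.start

lemma isHalting_iff (M : Machine) (q : ℕ) : M.isHalting q = true ↔ q ∈ M.halting := by
  simp [isHalting, List.idxOf_lt_length_iff]

lemma cellCount_eq (M : Machine) :
    M.cellCount = M.numSymbols + 3 * M.numStates * M.numSymbols := by
  simp only [cellCount]; ring

lemma numSymbols_le (M : Machine) : M.numSymbols ≤ M.cellCount := by
  rw [cellCount_eq]; omega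

lemma garbage_lt (M : Machine) {c a : ℕ} (hc : c < 3 * M.numStates) (ha : a < M.numSymbols) :
    M.garbage c a < M.cellCount := by
  rw [cellCount_eq, garbage]
  nlinarith

/-- The key `(control, cell)` read off before a rule is applied. -/
def preKey (M : Machine) (C : Conf) : ℕ × ℕ :=
  (C.1, if C.1 / M.numStates = 0 then C.2.1.headD 0 else C.2.2.headD 0)

def decodeGarbage (M : Machine) (g : ℕ) : ℕ × ℕ :=
  ((g - M.numSymbols) / M.numSymbols, (g - M.numSymbols) % M.numSymbols)

/-- The key `(control, cell)` read off after a rule is applied. -/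
def postKey (M : Machine) (C : Conf) : ℕ × ℕ :=
  if C.1 / M.numStates = 1 then M.decodeGarbage (C.2.1.headD 0) else
    if C.1 / M.numStates = 0 then
      if C.2.2.headD 0 < M.numSymbols then M.decodeGarbage (C.2.2.tail.headD 0)
      else (C.1, C.2.2.headD 0)
    else
      if C.2.1.headD 0 < M.numSymbols then M.decodeGarbage (C.2.1.tail.headD 0)
      else (C.1, C.2.1.headD 0)

lemma decodeGarbage_garbage (M : Machine) {c a : ℕ} (ha : a < M.numSymbols) :
    M.decodeGarbage (M.garbage c a) = (c, a) := by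
  simp only [decodeGarbage, garbage]
  rw [show M.numSymbols + c * M.numSymbols + a - M.numSymbols = a + M.numSymbols * c by
    rw [Nat.mul_comm]; omega]
  rw [Nat.add_mul_div_left _ _ (by omega), Nat.add_mul_mod_self_left, Nat.div_eq_of_lt ha,
    Nat.mod_eq_of_lt ha, Nat.zero_add]

variable {M : Machine}

lemma ruleAt_lt (hM : M.Valid) {q s : ℕ} (hq : q < M.numStates) (hs : s < M.numSymbols) :
    (M.ruleAt q s).1 < M.numStates ∧ (M.ruleAt q s).2.1 < M.numSymbols := by
  have hi : q * M.numSymbols + s < M.table.length := by rw [hM.2.2.1]; nlinarith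
  unfold ruleAt
  rw [List.getD_eq_getElem _ _ hi]
  exact hM.2.2.2 _ (List.getElem_mem hi)

lemma ctrl_div {Q d q : ℕ} (hq : q < Q) : (d * Q + q) / Q = d ∧ (d * Q + q) % Q = q := by
  rw [Nat.add_comm, Nat.add_mul_div_right _ _ (by omega), Nat.add_mul_mod_self_right,
    Nat.div_eq_of_lt hq, Nat.mod_eq_of_lt hq]
  simp

lemma rulesFor_spec (hM : M.Valid) {c a : ℕ} (hc : c < 3 * M.numStates) (ha : a < M.cellCount)
    {r : Rw} (hr : r ∈ M.rulesFor c a) :
    r.src = c ∧ r.tgt < 3 * M.numStates ∧
    (∀ d ∈ r.popL, d < M.cellCount) ∧ (∀ d ∈ r.popR, d < M.cellCount) ∧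
    (∀ d ∈ r.pushL, d < M.cellCount) ∧ (∀ d ∈ r.pushR, d < M.cellCount) ∧
    (∀ C, r.MatchPre C → M.preKey C = (c, a)) ∧
    (∀ C, r.MatchPost C → M.postKey C = (c, a)) := by
  have hQ : 0 < M.numStates := by have := hM.2.1; omega
  unfold rulesFor at hr
  split at hr
  · simp at hr
  split at hr
  · rename_i hak
    rw [List.mem_singleton] at hr
    obtain ⟨h1, h2⟩ := ruleAt_lt hM (Nat.mod_lt c hQ) hak
    have hs : (M.ruleAt (c % M.numStates) a).2.1 < M.cellCount :=
      h2.trans_le M.numSymbols_le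
    have hg := M.garbage_lt hc hak
    have hd := (M.ruleAt (c % M.numStates) a).2.2.isLt
    have hdiv := (ctrl_div (d := ((M.ruleAt (c % M.numStates) a).2.2 : ℕ)) h1).1
    subst hr
    refine ⟨rfl, ?_, ?_, ?_, ?_, ?_, ?_, ?_⟩
    · show _ * M.numStates + _ < 3 * M.numStates
      nlinarith
    · intro d hd; simp only [execRule, Rw.popL] at hd; split at hd <;> simp at hd; omega
    · intro d hd; simp only [execRule, Rw.popR] at hd; split at hd <;> simp at hd; omega
    · intro d hd
      simp only [execRule, Rw.pushL] at hd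
      split at hd <;> (try split at hd) <;> simp at hd <;>
        first
        | omega
        | (rcases hd with rfl | rfl <;> assumption)
    · intro d hd
      simp only [execRule, Rw.pushR] at hd
      split at hd <;> (try split at hd) <;> simp at hd <;>
        first
        | omega
        | (rcases hd with rfl | rfl <;> assumption)
    · rintro C ⟨hC1, hC2, hC3⟩
      simp only [execRule, Rw.src, Rw.popL, Rw.popR] at hC1 hC2 hC3
      simp only [preKey, hC1]
      split_ifs with h
      · rw [if_pos h] at hC2; rw [hC2.1]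
      · rw [if_neg h] at hC3; rw [hC3.1]
    · rintro C ⟨hC1, hC2, hC3⟩
      simp only [execRule, Rw.tgt, Rw.pushL, Rw.pushR] at hC1 hC2 hC3
      simp only [postKey, hC1, hdiv]
      by_cases h0 : ((M.ruleAt (c % M.numStates) a).2.2 : ℕ) = 0
      · rw [if_pos h0] at hC3
        rw [if_neg (by omega), if_pos h0, if_pos (by rw [hC3.1]; exact h2), hC3.2.1,
          decodeGarbage_garbage M hak]
      by_cases h1' : ((M.ruleAt (c % M.numStates) a).2.2 : ℕ) = 1
      · rw [if_neg h0, if_pos h1'] at hC2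
        rw [if_pos h1', hC2.1, decodeGarbage_garbage M hak]
      · rw [if_neg h0, if_neg h1'] at hC2
        rw [if_neg h1', if_neg h0, if_pos (by rw [hC2.1]; exact h2), hC2.2.1,
          decodeGarbage_garbage M hak]
  · rename_i hak
    split at hr
    · rename_i h0
      rw [List.mem_singleton] at hr
      subst hr
      refine ⟨rfl, hc, ?_, ?_, ?_, ?_, ?_, ?_⟩ <;>
        try (intro d hd; simp [Rw.popL, Rw.popR, Rw.pushL, Rw.pushR] at hd <;> omega)
      · rintro C ⟨hC1, hC2, -⟩
        simp only [Rw.src, Rw.popL] at hC1 hC2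
        simp only [preKey, hC1, if_pos h0, hC2.1]
      · rintro C ⟨hC1, -, hC3⟩
        simp only [Rw.tgt, Rw.pushR] at hC1 hC3
        simp only [postKey, hC1, h0, hC3.1, if_neg hak]
        simp
    split at hr
    · rename_i h0 h2
      rw [List.mem_singleton] at hr
      subst hr
      refine ⟨rfl, hc, ?_, ?_, ?_, ?_, ?_, ?_⟩ <;>
        try (intro d hd; simp [Rw.popL, Rw.popR, Rw.pushL, Rw.pushR] at hd <;> omega)
      · rintro C ⟨hC1, -, hC3⟩
        simp only [Rw.src, Rw.popR] at hC1 hC3
        simp only [preKey, hC1, if_neg h0, hC3.1]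
      · rintro C ⟨hC1, hC2, -⟩
        simp only [Rw.tgt, Rw.pushL] at hC1 hC2
        simp only [postKey, hC1, h2, hC2.1, if_neg hak]
        simp
    · simp at hr

lemma rulesFor_length (M : Machine) (c a : ℕ) : (M.rulesFor c a).length ≤ 1 := by
  unfold rulesFor
  split_ifs <;> simp

lemma mem_rwRules {r : Rw} (hr : r ∈ M.rwRules) :
    ∃ c a, c < 3 * M.numStates ∧ a < M.cellCount ∧ r ∈ M.rulesFor c a := by
  simp only [rwRules, List.mem_flatMap, List.mem_range] at hr
  obtain ⟨c, hc, a, ha, h⟩ := hr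
  exact ⟨c, a, hc, ha, h⟩

lemma rule_unique {c a : ℕ} {r r' : Rw} (h : r ∈ M.rulesFor c a) (h' : r' ∈ M.rulesFor c a) :
    r' = r := by
  obtain ⟨i, hi, rfl⟩ := List.mem_iff_getElem.mp h
  obtain ⟨j, hj, rfl⟩ := List.mem_iff_getElem.mp h'
  have := M.rulesFor_length c a
  congr 1; omega

/-- A configuration matched by the rules of key `(c, a)`. -/
def witnessConf (r : Rw) : Conf := (r.src, r.popL, r.popR)

lemma sys_ok (hM : M.Valid) : M.sys.OK := by
  have hwit : ∀ r : Rw, r.MatchPre (witnessConf r) := fun r => ⟨rfl, pre_self _, pre_self _⟩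
  refine ⟨?_, ?_, ?_, ?_, ?_, ?_, ?_⟩
  · show 0 < M.cellCount
    exact lt_of_lt_of_le hM.1 M.numSymbols_le
  · intro r hr
    obtain ⟨c, a, hc, ha, h⟩ := mem_rwRules hr
    obtain ⟨h1, h2, h3, h4, h5, h6, -⟩ := rulesFor_spec hM hc ha h
    exact ⟨h1 ▸ hc, h2, h3, h4, h5, h6⟩
  · intro c hc
    simp only [Sys.lifts, sys, liftCtrls, List.mem_flatMap, List.mem_range] at hc
    obtain ⟨c', hc', h⟩ := hc
    split at h <;> simp at h
    subst h; exact hc'
  · have key : ∀ {c a c' a' : ℕ}, c < 3 * M.numStates → a < M.cellCount →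
        c' < 3 * M.numStates → a' < M.cellCount → ∀ {r}, r ∈ M.rulesFor c a →
          r ∈ M.rulesFor c' a' → (c, a) = (c', a') := by
      intro c a c' a' hc ha hc' ha' r h h'
      obtain ⟨-, -, -, -, -, -, p, -⟩ := rulesFor_spec hM hc ha h
      obtain ⟨-, -, -, -, -, -, p', -⟩ := rulesFor_spec hM hc' ha' h'
      rw [← p _ (hwit r), p' _ (hwit r)]
    show M.rwRules.Nodup
    rw [rwRules, List.nodup_flatMap]
    refine ⟨fun c hc => ?_, ?_⟩
    · rw [List.nodup_flatMap]
      refine ⟨fun a _ => ?_, ?_⟩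
      · have := M.rulesFor_length c a
        match h : M.rulesFor c a with
        | [] => simp
        | [x] => simp
        | x :: y :: l => rw [h] at this; simp at this
      · refine List.Nodup.pairwise_of_forall_ne List.nodup_range fun a ha a' ha' hne => ?_
        intro r h h'
        simp only [List.mem_range] at hc ha ha'
        exact hne (Prod.mk.inj (key hc ha hc ha' h h')).2
    · refine List.Nodup.pairwise_of_forall_ne List.nodup_range fun c hc c' hc' hne => ?_
      intro r h h'
      simp only [List.mem_flatMap, List.mem_range] at h h' hc hc'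
      obtain ⟨a, ha, h⟩ := h
      obtain ⟨a', ha', h'⟩ := h'
      exact hne (Prod.mk.inj (key hc ha hc' ha' h h')).1
  · show M.liftCtrls.Nodup
    rw [liftCtrls, List.nodup_flatMap]
    refine ⟨fun c _ => by split <;> simp, ?_⟩
    refine List.Nodup.pairwise_of_forall_ne List.nodup_range fun c _ c' _ hne => ?_
    intro x h h'
    simp only at h h'
    split at h <;> simp at h
    split at h' <;> simp at h'
    exact hne (h ▸ h')
  · intro r hr r' hr' C hC hC'
    obtain ⟨c, a, hc, ha, h⟩ := mem_rwRules hr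
    obtain ⟨c', a', hc', ha', h'⟩ := mem_rwRules hr'
    obtain ⟨-, -, -, -, -, -, p, -⟩ := rulesFor_spec hM hc ha h
    obtain ⟨-, -, -, -, -, -, p', -⟩ := rulesFor_spec hM hc' ha' h'
    obtain ⟨rfl, rfl⟩ := Prod.mk.inj ((p C hC).symm.trans (p' C hC'))
    exact rule_unique h h'
  · intro r hr r' hr' C hC hC'
    obtain ⟨c, a, hc, ha, h⟩ := mem_rwRules hr
    obtain ⟨c', a', hc', ha', h'⟩ := mem_rwRules hr'
    obtain ⟨-, -, -, -, -, -, -, p⟩ := rulesFor_spec hM hc ha h
    obtain ⟨-, -, -, -, -, -, -, p'⟩ := rulesFor_spec hM hc' ha' h'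
    obtain ⟨rfl, rfl⟩ := Prod.mk.inj ((p _ (r.matchPost_app C)).symm.trans (p' _ hC'))
    exact rule_unique h h'

end Machine

end

end Vale.Agent.P113
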