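import Vale.Agent.P113.Bump

/-!
Uniqueness of classical solutions by the energy method, and uniqueness of trajectories.
-/

namespace Vale.Agent.P113

open MeasureTheory
open scoped ContDiff

noncomputable section

/-! ### Periodic functions -/

lemma periodic_fract {α : Type} {g : (Fin 3 → ℝ) → α} (hg : SpatiallyPeriodic g)
    (x : Fin 3 → ℝ) :
    g x = g (fun i => Int.fract (x i)) ∧ (fun i => Int.fract (x i)) ∈ Set.Icc (0 : Fin 3 → ℝ) 1 := by
  refine ⟨?_, fun i => Int.fract_nonneg _, fun i => (Int.fract_lt_one _).le⟩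
  have h := hg (fun i => Int.fract (x i)) (fun i => ⌊x i⌋)
  simp only [Int.fract_add_floor] at h
  exact h

lemma SpatiallyPeriodic.fderiv_periodic {E : Type} [NormedAddCommGroup E] [NormedSpace ℝ E]
    {g : (Fin 3 → ℝ) → E} (hg : SpatiallyPeriodic g) : SpatiallyPeriodic (fderiv ℝ g) := by
  intro x k
  have h : (fun y => g (y + fun i => (k i : ℝ))) = g := funext fun y => hg y k
  have h2 := fderiv_comp_add_right (𝕜 := ℝ) (f := g) (x := x) (fun i => (k i : ℝ))
  rw [h] at h2
  exact h2.symm

lemma SpatiallyPeriodic.pd_periodic {g : (Fin 3 → ℝ) → ℝ} (hg : SpatiallyPeriodic g) (j : Fin 3) :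
    SpatiallyPeriodic (pd j g) := by
  intro x k
  simp only [pd]
  rw [hg.fderiv_periodic x k]

lemma SpatiallyPeriodic.component {g : (Fin 3 → ℝ) → Fin 3 → ℝ} (hg : SpatiallyPeriodic g)
    (i : Fin 3) : SpatiallyPeriodic fun y => g y i := fun x k => congrFun (hg x k) i

lemma pd_continuous {g : (Fin 3 → ℝ) → ℝ} (hg : ContDiff ℝ 1 g) (j : Fin 3) :
    Continuous (pd j g) :=
  (hg.continuous_fderiv (by simp)).clm_apply continuous_const

lemma pd_mul {f g : (Fin 3 → ℝ) → ℝ} (hf : Differentiable ℝ f) (hg : Differentiable ℝ g)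
    (j : Fin 3) (x : Fin 3 → ℝ) :
    pd j (fun y => f y * g y) x = pd j f x * g x + f x * pd j g x := by
  simp only [pd]
  rw [fderiv_fun_mul (hf x) (hg x)]
  simp; ring

lemma pd_sub {f g : (Fin 3 → ℝ) → ℝ} (hf : Differentiable ℝ f) (hg : Differentiable ℝ g)
    (j : Fin 3) (x : Fin 3 → ℝ) :
    pd j (fun y => f y - g y) x = pd j f x - pd j g x := by
  simp only [pd]
  rw [fderiv_fun_sub (hf x) (hg x)]
  rfl

lemma integral_pd_eq_zero {φ : (Fin 3 → ℝ) → ℝ} (hφ : ContDiff ℝ 1 φ)
    (hp : SpatiallyPeriodic φ) (j : Fin 3) :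
    ∫ x in Set.Icc (0 : Fin 3 → ℝ) 1, pd j φ x = 0 := by
  have hd : Differentiable ℝ φ := hφ.differentiable (by simp)
  have key := integral_divergence_of_hasFDerivAt_off_countable' (n := 2) (0 : Fin 3 → ℝ) 1
    (fun i => zero_le_one) (fun i => if i = j then φ else fun _ => 0)
    (fun i x => if i = j then fderiv ℝ φ x else 0) ∅ Set.countable_empty
    (fun i => by split_ifs; exacts [hφ.continuous.continuousOn, continuousOn_const])
    (fun x _ i => by split_ifs; exacts [(hd x).hasFDerivAt, hasFDerivAt_const _ _])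
  have hsum : ∀ x, (∑ i : Fin 3, (if i = j then fderiv ℝ φ x else 0) (Pi.single i 1)) = pd j φ x := by
    intro x
    rw [Finset.sum_eq_single j]
    · simp [pd]
    · intro i _ hi; simp [hi]
    · simp
  simp only [hsum] at key
  rw [key ((pd_continuous hφ j).continuousOn.integrableOn_compact isCompact_Icc)]
  refine Finset.sum_eq_zero fun i _ => ?_
  rw [sub_eq_zero]
  congr 1
  funext y
  split_ifs with hi
  · have := hp (i.insertNth (0 : ℝ) y) (Pi.single i 1)
    simp only [Pi.one_apply, Pi.zero_apply]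
    rw [← this]
    congr 1
    funext l
    refine Fin.succAboveCases i ?_ (fun m => ?_) l
    · simp
    · simp [Fin.succAbove_ne]
  · rfl

lemma integral_mul_pd {f g : (Fin 3 → ℝ) → ℝ} (hf : ContDiff ℝ 1 f) (hg : ContDiff ℝ 1 g)
    (pf : SpatiallyPeriodic f) (pg : SpatiallyPeriodic g) (j : Fin 3) :
    ∫ x in Set.Icc (0 : Fin 3 → ℝ) 1, f x * pd j g x =
      -∫ x in Set.Icc (0 : Fin 3 → ℝ) 1, pd j f x * g x := by
  have h := integral_pd_eq_zero (hf.mul hg) (fun x k => by simp [pf x k, pg x k]) j
  simp only [pd_mul (hf.differentiable (by simp)) (hg.differentiable (by simp))] at h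
  rw [integral_add] at h
  · linarith
  · exact ((pd_continuous hf j).mul hg.continuous).continuousOn.integrableOn_compact isCompact_Icc
  · exact (hf.continuous.mul (pd_continuous hg j)).continuousOn.integrableOn_compact isCompact_Icc

lemma periodic_eq_zero {g : (Fin 3 → ℝ) → ℝ} (hc : Continuous g) (hp : SpatiallyPeriodic g)
    (h0 : ∀ x, 0 ≤ g x) (hi : ∫ x in Set.Icc (0 : Fin 3 → ℝ) 1, g x = 0) (x : Fin 3 → ℝ) :
    g x = 0 := by
  have hae := (setIntegral_eq_zero_iff_of_nonneg_ae (Filter.Eventually.of_forall h0)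
    (hc.continuousOn.integrableOn_compact isCompact_Icc)).mp hi
  obtain ⟨hx, hmem⟩ := periodic_fract hp x
  rw [hx]
  refine Measure.eqOn_of_ae_eq hae hc.continuousOn continuousOn_const ?_ hmem
  rw [← Set.pi_univ_Icc, interior_pi_set Set.finite_univ]
  simp only [interior_Icc, closure_pi_set]
  refine Set.pi_mono fun i _ => ?_
  rw [closure_Ioo (by simp)]

/-! ### Trajectories -/

lemma trajectory_unique {u : ℝ → (Fin 3 → ℝ) → Fin 3 → ℝ}
    (hu : ContDiff ℝ ∞ fun z : ℝ × (Fin 3 → ℝ) => u z.1 z.2)
    (hp : ∀ t, SpatiallyPeriodic (u t)) {a : Fin 3 → ℝ} {X Y : ℝ → Fin 3 → ℝ}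
    (hX : IsTrajectory u a X) (hY : IsTrajectory u a Y) : ∀ t, 0 ≤ t → Y t = X t := by
  intro T hT
  have hut : ∀ t, ContDiff ℝ ∞ (u t) := fun t => hu.comp (contDiff_const.prodMk contDiff_id)
  have hfd : Continuous fun z : ℝ × (Fin 3 → ℝ) => fderiv ℝ (u z.1) z.2 := by
    have h : ContDiff ℝ ∞ fun z : ℝ × (Fin 3 → ℝ) => fderiv ℝ (u z.1) z.2 :=
      ContDiff.fderiv (f := fun (z : ℝ × (Fin 3 → ℝ)) y => u z.1 y) (n := ∞)
        (hu.comp ((contDiff_fst.comp contDiff_fst).prodMk contDiff_snd)) contDiff_snd le_rfl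
    exact h.continuous
  obtain ⟨K, hK⟩ := ((isCompact_Icc (a := (0 : ℝ)) (b := T)).prod
    (isCompact_Icc (a := (0 : Fin 3 → ℝ)) (b := 1))).exists_bound_of_continuousOn hfd.continuousOn
  -- the field frozen outside `[0, T]`
  set v : ℝ → (Fin 3 → ℝ) → Fin 3 → ℝ := fun t => u (max 0 (min t T)) with hv
  have hlip : ∀ t, LipschitzWith K.toNNReal (v t) := by
    intro t
    refine lipschitzWith_of_nnnorm_fderiv_le ((hut _).differentiable (by simp)) fun x => ?_
    obtain ⟨hx, hmem⟩ := periodic_fract (hp (max 0 (min t T))).fderiv_periodic x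
    rw [← norm_toNNReal]
    refine Real.toNNReal_le_toNNReal ?_
    rw [hv]; simp only
    rw [hx]
    exact hK (max 0 (min t T), _)
      ⟨⟨le_max_left _ _, max_le hT (min_le_right _ _)⟩, hmem⟩
  have hveq : ∀ t ∈ Set.Ico 0 T, v t = u t := fun t ht => by
    simp [hv, ht.1, ht.2.le]
  have hcont : ∀ {Z : ℝ → Fin 3 → ℝ}, IsTrajectory u a Z → ContinuousOn Z (Set.Icc 0 T) :=
    fun hZ t ht => ((hZ.2 t ht.1).continuousWithinAt).mono fun s hs => hs.1
  have hder : ∀ {Z : ℝ → Fin 3 → ℝ}, IsTrajectory u a Z → ∀ t ∈ Set.Ico 0 T,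
      HasDerivWithinAt Z (v t (Z t)) (Set.Ici t) t := fun hZ t ht => by
    rw [hveq t ht]
    exact (hZ.2 t ht.1).mono (Set.Ici_subset_Ici.mpr ht.1)
  exact ODE_solution_unique hlip (hcont hY) (hder hY) (hcont hX) (hder hX)
    (hY.1.trans hX.1.symm) (Set.right_mem_Icc.mpr hT)

/-! ### The energy method -/

lemma classical_unique {ν : ℝ} (hν : 0 ≤ ν) {f u : ℝ → (Fin 3 → ℝ) → Fin 3 → ℝ}
    {p : ℝ → (Fin 3 → ℝ) → ℝ} (hu : IsGlobalSmoothSolution ν f u p) {T : ℝ} (hT : 0 < T)
    {v : ℝ → (Fin 3 → ℝ) → Fin 3 → ℝ} {q : ℝ → (Fin 3 → ℝ) → ℝ}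
    (hv : IsClassicalSolution ν f T v q) :
    ∀ t ∈ Set.Icc 0 T, ∀ x, v t x = u t x ∧ q t x = p t x := by
  obtain ⟨vt, hvtc, hvt⟩ := hv.momentum
  set C := Set.Icc (0 : Fin 3 → ℝ) 1 with hC
  -- regularity of the smooth solution
  have hus : ∀ i, ContDiff ℝ ∞ fun z : ℝ × (Fin 3 → ℝ) => u z.1 z.2 i := fun i =>
    (contDiff_apply ℝ ℝ i).comp hu.u_smooth
  have hut : ∀ t i, ContDiff ℝ ∞ fun y => u t y i := fun t i =>
    (hus i).comp (contDiff_const.prodMk contDiff_id)
  have hupd : ∀ i j, ContDiff ℝ ∞ fun z : ℝ × (Fin 3 → ℝ) => pd j (fun y => u z.1 y i) z.2 :=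
    fun i j => (ContDiff.fderiv (f := fun (z : ℝ × (Fin 3 → ℝ)) y => u z.1 y i) (n := ∞)
      ((hus i).comp ((contDiff_fst.comp contDiff_fst).prodMk contDiff_snd))
      contDiff_snd le_rfl).clm_apply contDiff_const
  set ut : ℝ → (Fin 3 → ℝ) → Fin 3 → ℝ := fun t x i => deriv (fun s => u s x i) t with hutdef
  have hutc : ∀ i, Continuous fun z : ℝ × (Fin 3 → ℝ) => ut z.1 z.2 i := fun i => by
    have h : ContDiff ℝ ∞ fun z : ℝ × (Fin 3 → ℝ) => fderiv ℝ (fun s => u s z.2 i) z.1 :=
      ContDiff.fderiv (f := fun (z : ℝ × (Fin 3 → ℝ)) s => u s z.2 i) (n := ∞)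
        ((hus i).comp (contDiff_snd.prodMk (contDiff_snd.comp contDiff_fst))) contDiff_fst le_rfl
    exact (h.clm_apply (contDiff_const (c := (1 : ℝ)))).continuous
  have hutd : ∀ t x i, HasDerivAt (fun s => u s x i) (ut t x i) t := fun t x i =>
    (((hus i).comp (contDiff_id.prodMk contDiff_const)).differentiable (by simp) t).hasDerivAt
  -- the difference
  set w : ℝ → (Fin 3 → ℝ) → Fin 3 → ℝ := fun t x i => v t x i - u t x i with hw
  set wt : ℝ → (Fin 3 → ℝ) → Fin 3 → ℝ := fun t x i => vt t x i - ut t x i with hwt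
  have hwc : ∀ i, ContinuousOn (fun z : ℝ × (Fin 3 → ℝ) => w z.1 z.2 i) (Set.Icc 0 T ×ˢ Set.univ) :=
    fun i => ((continuous_apply i).comp_continuousOn hv.v_cont).sub (hus i).continuous.continuousOn
  have hwtc : ∀ i, ContinuousOn (fun z : ℝ × (Fin 3 → ℝ) => wt z.1 z.2 i)
      (Set.Icc 0 T ×ˢ Set.univ) :=
    fun i => ((continuous_apply i).comp_continuousOn hvtc).sub (hutc i).continuousOn
  -- a bound for the gradient of `u`
  obtain ⟨K, hK0, hK⟩ : ∃ K, 0 ≤ K ∧ ∀ t ∈ Set.Icc 0 T, ∀ x i j,
      |pd j (fun y => u t y i) x| ≤ K := by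
    have hc : Continuous fun z : ℝ × (Fin 3 → ℝ) =>
        fun i j : Fin 3 => pd j (fun y => u z.1 y i) z.2 :=
      continuous_pi fun i => continuous_pi fun j => (hupd i j).continuous
    obtain ⟨K, hK⟩ := ((isCompact_Icc (a := (0 : ℝ)) (b := T)).prod
      (isCompact_Icc (a := (0 : Fin 3 → ℝ)) (b := 1))).exists_bound_of_continuousOn hc.continuousOn
    refine ⟨|K|, abs_nonneg _, fun t ht x i j => ?_⟩
    obtain ⟨hx, hmem⟩ := periodic_fract (((hu.periodic t).1.component i).pd_periodic j) x
    rw [hx, ← Real.norm_eq_abs]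
    exact ((norm_le_pi_norm _ j).trans (norm_le_pi_norm
      (fun i j => pd j (fun y => u t y i) fun l => Int.fract (x l)) i)).trans
        ((hK (t, _) ⟨ht, hmem⟩).trans (le_abs_self K))
  -- facts at a fixed time
  have slice : ∀ t ∈ Set.Icc 0 T, ∀ i, ContDiff ℝ 2 (fun y => w t y i) ∧
      SpatiallyPeriodic (fun y => w t y i) := fun t ht i => by
    refine ⟨((contDiff_apply ℝ ℝ i).comp (hv.v_smooth t ht)).sub ((hut t i).of_le (WithTop.coe_le_coe.mpr le_top)), ?_⟩
    intro x k
    simp [hw, (hv.periodic t ht).1 x k, (hu.periodic t).1 x k]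
  have weq : ∀ t ∈ Set.Icc 0 T, ∀ x i,
      wt t x i = -(∑ j, v t x j * pd j (fun y => w t y i) x) -
        (∑ j, w t x j * pd j (fun y => u t y i) x) -
        pd i (fun y => q t y - p t y) x + ν * ∑ j, pd j (pd j fun y => w t y i) x := by
    intro t ht x i
    have h1 := (hvt t ht x i).2
    have h2 := hu.momentum t ht.1 x i
    have hvi : ContDiff ℝ 2 fun y => v t y i := (contDiff_apply ℝ ℝ i).comp (hv.v_smooth t ht)
    have hui : ContDiff ℝ 2 fun y => u t y i := (hut t i).of_le (WithTop.coe_le_coe.mpr le_top)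
    have e1 : ∀ j, pd j (fun y => w t y i) = fun y => pd j (fun y => v t y i) y - pd j (fun y => u t y i) y :=
      fun j => funext fun y => pd_sub (hvi.differentiable (by simp)) (hui.differentiable (by simp)) j y
    have e2 : ∀ j, pd j (pd j fun y => w t y i) x =
        pd j (pd j fun y => v t y i) x - pd j (pd j fun y => u t y i) x := by
      intro j
      rw [e1 j]
      refine pd_sub ?_ ?_ j x
      · exact ((hvi.fderiv_right (m := 1) (by norm_num)).clm_apply contDiff_const).differentiable (by simp)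
      · exact ((hui.fderiv_right (m := 1) (by norm_num)).clm_apply contDiff_const).differentiable (by simp)
    have e3 : pd i (fun y => q t y - p t y) x = pd i (q t) x - pd i (p t) x :=
      pd_sub ((hv.q_smooth t ht).differentiable (by simp))
        ((hu.p_smooth.comp (contDiff_const.prodMk contDiff_id)).differentiable (by simp)) i x
    rw [e3]
    simp only [e2]
    simp only [e1]
    simp only [hwt, hw, hutdef, Fin.sum_univ_three] at *
    linear_combination h1 - h2
  -- the energy and its derivative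
  set F : ℝ → (Fin 3 → ℝ) → ℝ := fun t x => ∑ i, w t x i * w t x i with hF
  set F' : ℝ → (Fin 3 → ℝ) → ℝ := fun t x => ∑ i, 2 * (w t x i * wt t x i) with hF'
  set E : ℝ → ℝ := fun t => ∫ x in C, F t x with hE
  have hFc : ContinuousOn (Function.uncurry F) (Set.Icc 0 T ×ˢ Set.univ) :=
    continuousOn_finsetSum _ fun i _ => (hwc i).mul (hwc i)
  have hF'c : ContinuousOn (Function.uncurry F') (Set.Icc 0 T ×ˢ Set.univ) :=
    continuousOn_finsetSum _ fun i _ => continuousOn_const.mul ((hwc i).mul (hwtc i))
  have hsl : ∀ {G : ℝ → (Fin 3 → ℝ) → ℝ},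
      ContinuousOn (Function.uncurry G) (Set.Icc 0 T ×ˢ Set.univ) →
      ∀ t ∈ Set.Icc 0 T, Continuous (G t) := fun hG t ht =>
    hG.comp_continuous (continuous_const.prodMk continuous_id) fun x => ⟨ht, trivial⟩
  have hEc : ContinuousOn E (Set.Icc 0 T) := by
    have h : Continuous fun t => ∫ x in C, F (max 0 (min t T)) x := by
      refine continuous_parametric_integral_of_continuous (μ := volume) ?_ isCompact_Icc
      exact hFc.comp_continuous
        (((continuous_const.max (continuous_id.min continuous_const)).comp continuous_fst).prodMk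
          continuous_snd) fun z => ⟨⟨le_max_left _ _, max_le hT.le (min_le_right _ _)⟩, trivial⟩
    exact h.continuousOn.congr fun t ht => by simp [hE, ht.1, ht.2]
  have hEd : ∀ t ∈ Set.Ioo 0 T, HasDerivAt E (∫ x in C, F' t x) t := by
    intro t ht
    obtain ⟨B, hB⟩ := ((isCompact_Icc (a := (0 : ℝ)) (b := T)).prod
      (isCompact_Icc (a := (0 : Fin 3 → ℝ)) (b := 1))).exists_bound_of_continuousOn
        (hF'c.mono (Set.prod_mono le_rfl (Set.subset_univ _)))
    refine (hasDerivAt_integral_of_dominated_loc_of_deriv_le (μ := volume.restrict C)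
      (F := F) (F' := F') (bound := fun _ => B) (s := Set.Ioo 0 T) (Ioo_mem_nhds ht.1 ht.2)
      ?_ ?_ ?_ ?_ ?_ ?_).2
    · filter_upwards [Ioo_mem_nhds ht.1 ht.2] with s hs
      exact (hsl hFc s (Set.Ioo_subset_Icc_self hs)).aestronglyMeasurable.restrict
    · exact (hsl hFc t (Set.Ioo_subset_Icc_self ht)).continuousOn.integrableOn_compact isCompact_Icc
    · exact (hsl hF'c t (Set.Ioo_subset_Icc_self ht)).aestronglyMeasurable.restrict
    · filter_upwards [ae_restrict_mem measurableSet_Icc] with x hx s hs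
      exact hB (s, x) ⟨Set.Ioo_subset_Icc_self hs, hx⟩
    · exact continuousOn_const.integrableOn_compact isCompact_Icc
    · refine Filter.Eventually.of_forall fun x s hs => ?_
      have hd : ∀ i, HasDerivAt (fun r => w r x i) (wt s x i) s := fun i =>
        (((hvt s (Set.Ioo_subset_Icc_self hs) x i).1).hasDerivAt
          (Icc_mem_nhds hs.1 hs.2)).sub (hutd s x i)
      refine (HasDerivAt.fun_sum fun i _ => (hd i).mul (hd i)).congr_deriv ?_
      refine Finset.sum_congr rfl fun i _ => ?_
      ring
  -- the energy inequality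
  have hineq : ∀ t ∈ Set.Icc 0 T, ∫ x in C, F' t x ≤ 6 * K * E t := by
    intro t ht
    have hvj : ∀ j, ContDiff ℝ 1 fun y => v t y j := fun j =>
      ((contDiff_apply ℝ ℝ j).comp (hv.v_smooth t ht)).of_le (by norm_num)
    have hpv : ∀ j, SpatiallyPeriodic fun y => v t y j := fun j => (hv.periodic t ht).1.component j
    have hr : ContDiff ℝ 1 fun y => q t y - p t y :=
      (hv.q_smooth t ht).sub (((hu.p_smooth.comp (contDiff_const.prodMk contDiff_id))).of_le (WithTop.coe_le_coe.mpr le_top))
    have hpr : SpatiallyPeriodic fun y => q t y - p t y := fun x k => by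
      simp [(hv.periodic t ht).2 x k, (hu.periodic t).2 x k]
    have hw1 : ∀ i, ContDiff ℝ 1 fun y => w t y i := fun i => (slice t ht i).1.of_le (by norm_num)
    have hwd : ∀ i, Differentiable ℝ fun y => w t y i := fun i => (hw1 i).differentiable (by simp)
    have hw2 : ∀ i j, ContDiff ℝ 1 (pd j fun y => w t y i) := fun i j =>
      ((slice t ht i).1.fderiv_right (m := 1) (by norm_num)).clm_apply contDiff_const
    have int : ∀ {g : (Fin 3 → ℝ) → ℝ}, Continuous g → IntegrableOn g C :=
      fun hg => hg.continuousOn.integrableOn_compact isCompact_Icc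
    set A1 : (Fin 3 → ℝ) → ℝ :=
      fun x => ∑ i, ∑ j, v t x j * pd j (fun y => w t y i * w t y i) x with hA1
    set A2 : (Fin 3 → ℝ) → ℝ :=
      fun x => ∑ i, ∑ j, w t x i * (w t x j * pd j (fun y => u t y i) x) with hA2
    set A3 : (Fin 3 → ℝ) → ℝ := fun x => ∑ i, w t x i * pd i (fun y => q t y - p t y) x with hA3
    set A4 : (Fin 3 → ℝ) → ℝ :=
      fun x => ∑ i, ∑ j, w t x i * pd j (pd j fun y => w t y i) x with hA4
    have hsplit : ∀ x, F' t x = -A1 x - 2 * A2 x - 2 * A3 x + 2 * ν * A4 x := by
      intro x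
      simp only [hF', hA1, hA2, hA3, hA4, weq t ht x, pd_mul (hwd _) (hwd _), Fin.sum_univ_three]
      ring
    have c1 : Continuous A1 := continuous_finsetSum _ fun i _ => continuous_finsetSum _ fun j _ =>
      (hvj j).continuous.fun_mul (pd_continuous ((hw1 i).mul (hw1 i)) j)
    have c2 : Continuous A2 := continuous_finsetSum _ fun i _ => continuous_finsetSum _ fun j _ =>
      (hw1 i).continuous.fun_mul ((hw1 j).continuous.fun_mul (pd_continuous ((hut t i).of_le (WithTop.coe_le_coe.mpr le_top)) j))
    have c3 : Continuous A3 := continuous_finsetSum _ fun i _ =>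
      (hw1 i).continuous.fun_mul (pd_continuous hr i)
    have c4 : Continuous A4 := continuous_finsetSum _ fun i _ => continuous_finsetSum _ fun j _ =>
      (hw1 i).continuous.fun_mul (pd_continuous (hw2 i j) j)
    have hFint : Continuous (F t) := hsl hFc t ht
    have z1 : ∫ x in C, A1 x = 0 := by
      simp only [hA1]
      rw [integral_finsetSum _ (fun i _ => int (continuous_finsetSum _ fun j _ =>
        (hvj j).continuous.fun_mul (pd_continuous ((hw1 i).mul (hw1 i)) j)))]
      refine Finset.sum_eq_zero fun i _ => ?_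
      rw [integral_finsetSum _ (fun j _ => int
        ((hvj j).continuous.fun_mul (pd_continuous ((hw1 i).mul (hw1 i)) j)))]
      rw [Finset.sum_congr rfl (fun j _ => integral_mul_pd (hvj j) ((hw1 i).mul (hw1 i)) (hpv j)
        (fun x k => by have := (slice t ht i).2 x k; simp only at this ⊢; rw [this]) j),
        Finset.sum_neg_distrib, ← integral_finsetSum _ (fun j _ => int
        ((pd_continuous (hvj j) j).fun_mul ((hw1 i).mul (hw1 i)).continuous))]
      simp [← Finset.sum_mul, hv.divergence t ht]
    have z3 : ∫ x in C, A3 x = 0 := by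
      simp only [hA3]
      rw [integral_finsetSum _ (fun i _ => int ((hw1 i).continuous.fun_mul (pd_continuous hr i))),
        Finset.sum_congr rfl (fun i _ => integral_mul_pd (hw1 i) hr (slice t ht i).2 hpr i),
        Finset.sum_neg_distrib, ← integral_finsetSum _ (fun i _ => int
          ((pd_continuous (hw1 i) i).fun_mul hr.continuous))]
      have hdiv : ∀ x, ∑ i, pd i (fun y => w t y i) x = 0 := by
        intro x
        have a := hv.divergence t ht x
        have b := hu.divergence t ht.1 x
        have e : ∀ i, pd i (fun y => w t y i) x =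
            pd i (fun y => v t y i) x - pd i (fun y => u t y i) x := fun i =>
          pd_sub ((hvj i).differentiable (by simp)) ((hut t i).differentiable (by simp)) i x
        simp only [e, Finset.sum_sub_distrib, a, b, sub_zero]
      simp [← Finset.sum_mul, hdiv]
    have z4 : ∫ x in C, A4 x ≤ 0 := by
      simp only [hA4]
      rw [integral_finsetSum _ (fun i _ => int (continuous_finsetSum _ fun j _ =>
        (hw1 i).continuous.fun_mul (pd_continuous (hw2 i j) j)))]
      refine Finset.sum_nonpos fun i _ => ?_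
      rw [integral_finsetSum _ (fun j _ => int ((hw1 i).continuous.fun_mul (pd_continuous (hw2 i j) j)))]
      refine Finset.sum_nonpos fun j _ => ?_
      rw [integral_mul_pd (hw1 i) (hw2 i j) (slice t ht i).2 ((slice t ht i).2.pd_periodic j) j,
        neg_nonpos]
      exact setIntegral_nonneg measurableSet_Icc fun x _ => mul_self_nonneg _
    have z2 : -(2 * ∫ x in C, A2 x) ≤ 6 * K * E t := by
      rw [← integral_const_mul, ← integral_neg]
      simp only [hE]
      rw [← integral_const_mul]
      refine setIntegral_mono_on (int ((c2.const_mul 2).neg)) (int (hFint.const_mul _))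
        measurableSet_Icc fun x _ => ?_
      have b : ∀ i j, -(w t x i * (w t x j * pd j (fun y => u t y i) x)) ≤
          K * ((w t x i * w t x i + w t x j * w t x j) / 2) := fun i j => by
        calc -(w t x i * (w t x j * pd j (fun y => u t y i) x))
            ≤ |w t x i * w t x j| * |pd j (fun y => u t y i) x| := by
              rw [← abs_mul]; rw [mul_assoc]; exact neg_le_abs _
          _ ≤ |w t x i * w t x j| * K :=
              mul_le_mul_of_nonneg_left (hK t ht x i j) (abs_nonneg _)
          _ ≤ K * ((w t x i * w t x i + w t x j * w t x j) / 2) := by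
              rw [abs_mul, mul_comm _ K]
              refine mul_le_mul_of_nonneg_left ?_ hK0
              nlinarith [mul_self_nonneg (|w t x i| - |w t x j|), abs_mul_abs_self (w t x i),
                abs_mul_abs_self (w t x j)]
      simp only [hA2, hF, Fin.sum_univ_three]
      nlinarith [b 0 0, b 0 1, b 0 2, b 1 0, b 1 1, b 1 2, b 2 0, b 2 1, b 2 2]
    have hsum : ∫ x in C, F' t x = -(∫ x in C, A1 x) - 2 * (∫ x in C, A2 x) -
        2 * (∫ x in C, A3 x) + 2 * ν * ∫ x in C, A4 x := by
      simp only [hsplit]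
      have i1 : IntegrableOn (fun x => -A1 x) C := int (c1.neg)
      have i2 : IntegrableOn (fun x => 2 * A2 x) C := int (c2.const_mul 2)
      have i3 : IntegrableOn (fun x => 2 * A3 x) C := int (c3.const_mul 2)
      have i4 : IntegrableOn (fun x => 2 * ν * A4 x) C := int (c4.const_mul (2 * ν))
      have i12 : IntegrableOn (fun x => -A1 x - 2 * A2 x) C := i1.sub i2
      have i123 : IntegrableOn (fun x => -A1 x - 2 * A2 x - 2 * A3 x) C := i12.sub i3
      rw [integral_add i123 i4, integral_sub i12 i3, integral_sub i1 i2, integral_neg,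
        integral_const_mul, integral_const_mul, integral_const_mul]
    rw [hsum, z1, z3]
    have : 2 * ν * (∫ x in C, A4 x) ≤ 0 := mul_nonpos_of_nonneg_of_nonpos (by linarith) z4
    linarith
  -- Grönwall
  have hE0 : ∀ t ∈ Set.Icc 0 T, E t = 0 := by
    intro t ht
    refine le_antisymm ?_ (setIntegral_nonneg measurableSet_Icc fun x _ =>
      Finset.sum_nonneg fun i _ => mul_self_nonneg _)
    have hmono : AntitoneOn (fun s => E s * Real.exp (-(6 * K) * s)) (Set.Icc 0 T) := by
      refine antitoneOn_of_hasDerivWithinAt_nonpos (convex_Icc 0 T)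
        (hEc.mul (Real.continuous_exp.comp (continuous_const.mul continuous_id)).continuousOn)
        (f' := fun s => (∫ x in C, F' s x) * Real.exp (-(6 * K) * s) +
          E s * (Real.exp (-(6 * K) * s) * (-(6 * K)))) ?_ ?_
      · intro s hs
        rw [interior_Icc] at hs
        exact ((hEd s hs).mul (by
          simpa using ((hasDerivAt_id s).const_mul (-(6 * K))).exp)).hasDerivWithinAt
      · intro s hs
        rw [interior_Icc] at hs
        have := hineq s (Set.Ioo_subset_Icc_self hs)
        have he := Real.exp_pos (-(6 * K) * s)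
        nlinarith
    have h0 : E 0 = 0 := by
      simp [hE, hF, hw, hv.initial, hu.initial]
    have h1 := hmono (Set.left_mem_Icc.mpr hT.le) ht ht.1
    simp only [h0, zero_mul] at h1
    by_contra hlt
    nlinarith [Real.exp_pos (-(6 * K) * t), not_le.mp hlt]
  intro t ht x
  have hzero : ∀ y i, w t y i = 0 := by
    intro y i
    have h := periodic_eq_zero (hsl hFc t ht) (fun z k => by
      simp only [hF]
      exact Finset.sum_congr rfl fun l _ => by
        have := (slice t ht l).2 z k; simp only at this; rw [this])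
      (fun z => Finset.sum_nonneg fun l _ => mul_self_nonneg _) (hE0 t ht) y
    simp only [hF] at h
    exact mul_self_eq_zero.mp
      ((Finset.sum_eq_zero_iff_of_nonneg fun l _ => mul_self_nonneg _).mp h i (Finset.mem_univ _))
  have hveq : ∀ y, v t y = u t y := fun y => funext fun i => by
    have := hzero y i; simp only [hw] at this; linarith
  refine ⟨hveq x, ?_⟩
  -- pressure: equal gradients and equal means
  have hwt0 : ∀ y i, wt t y i = 0 := by
    intro y i
    have hw0 : ∀ s ∈ Set.Icc 0 T, w s y i = 0 := by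
      intro s hs
      have h := periodic_eq_zero (hsl hFc s hs) (fun z k => by
        simp only [hF]
        exact Finset.sum_congr rfl fun l _ => by
          have := (slice s hs l).2 z k; simp only at this; rw [this])
        (fun z => Finset.sum_nonneg fun l _ => mul_self_nonneg _) (hE0 s hs) y
      simp only [hF] at h
      exact mul_self_eq_zero.mp
        ((Finset.sum_eq_zero_iff_of_nonneg fun l _ => mul_self_nonneg _).mp h i (Finset.mem_univ _))
    have hd : HasDerivWithinAt (fun r => w r y i) (wt t y i) (Set.Icc 0 T) t :=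
      ((hvt t ht y i).1).sub (hutd t y i).hasDerivWithinAt
    exact (uniqueDiffOn_Icc hT t ht).eq_deriv _ hd
      ((hasDerivWithinAt_const t _ (0 : ℝ)).congr hw0 (hw0 t ht))
  set r : (Fin 3 → ℝ) → ℝ := fun y => q t y - p t y with hrdef
  have hrd : Differentiable ℝ r :=
    ((hv.q_smooth t ht).differentiable (by simp)).sub
      ((hu.p_smooth.comp (contDiff_const.prodMk contDiff_id)).differentiable (by simp))
  have hgrad : ∀ y, fderiv ℝ r y = 0 := by
    intro y
    have hpd : ∀ i, pd i r y = 0 := by
      intro i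
      have h := weq t ht y i
      have hz : (fun y => w t y i) = fun _ => 0 := funext fun z => hzero z i
      simp only [hz, hwt0] at h
      have hz0 : ∀ j : Fin 3, pd j (fun _ : Fin 3 → ℝ => (0 : ℝ)) = fun _ => 0 :=
        fun j => funext fun z => by simp [pd]
      simp [hz0, hzero] at h
      linarith
    refine ContinuousLinearMap.ext fun z => ?_
    have hz : z = ∑ i, z i • (Pi.single i 1 : Fin 3 → ℝ) := by
      funext l; simp [Finset.sum_apply, Pi.single_apply]
    rw [hz, map_sum]
    simp only [map_smul]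
    simp only [pd] at hpd
    simp [hpd]
  have hconst : ∀ y, r y = r 0 := fun y => is_const_of_fderiv_eq_zero hrd hgrad y 0
  have hmean : ∫ y in C, r y = 0 := by
    rw [integral_sub]
    · have a := hv.mean t ht
      have b := hu.mean t ht.1
      simp only [spatialMean] at a b
      rw [a, b, sub_zero]
    · exact (hv.q_smooth t ht).continuous.continuousOn.integrableOn_compact isCompact_Icc
    · exact (hu.p_smooth.comp (contDiff_const.prodMk contDiff_id)).continuous.continuousOn.integrableOn_compact isCompact_Icc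
  have hvol : volume.real C = 1 := by
    simp [hC, Measure.real, Real.volume_Icc_pi]
  rw [show (fun y => r y) = fun _ => r 0 from funext hconst, setIntegral_const, hvol, one_smul] at hmean
  have := hconst x
  rw [hmean] at this
  simp only [hrdef] at this
  linarith

end

end Vale.Agent.P113
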