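import Vale.Agent.P113.Detect
import Vale.Agent.P113.Unique
import Vale.Agent.P113.Computability

/-!
Assembly of the force compiler theorem.
-/

namespace Vale.Agent.P113

open scoped ContDiff

set_option synthInstance.maxSize 2000

noncomputable section

/-! ### The force compiler conditions -/

lemma spaceLists_mem (a : Fin 3) (l₁ l₂ : List Bump) (q : RatCode) (m : ℕ) (n : ℤ)
    (T : List (Bool × Bump)) (i : Fin 3) :
    ∀ g ∈ Term.space ((q, m, n, [], T, spaceLists a l₁ l₂) : Term) i, g ∈ l₁ ∨ g ∈ l₂ := by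
  intro g hg
  fin_cases a <;> fin_cases i <;> simp [Term.space, spaceLists] at hg <;> tauto

lemma phaseTerms_spec (a : Fin 3) (j : ℕ) {L : List Piece} (hL : ∀ P ∈ L, P.Good) :
    ∀ τ ∈ phaseTerms a j L, τ.Valid ∧ τ.isPeriodic = true := by
  intro τ hτ
  simp only [phaseTerms, List.mem_flatMap, summandTerms, List.mem_cons, List.mem_append,
    viscTerms₁, viscTerms₂, List.mem_map, accelTerm] at hτ
  obtain ⟨P, hP, s, -, hτ⟩ := hτ
  have hb1 : ∀ k, bumpValid (boxBump k P.1) := fun k => boxBump_valid k (hL P hP).1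
  have hb2 : ∀ k, bumpValid (boxBump k P.2.1) := fun k => boxBump_valid k (hL P hP).2
  have hb1' := fun k => boxBump2_valid k (hL P hP).1
  have hb2' := fun k => boxBump2_valid k (hL P hP).2
  rcases hτ with rfl | ⟨e, he, rfl⟩ | ⟨e, he, rfl⟩ <;>
    refine ⟨⟨by simp [Term.logArgs], by simp [Term.time, phaseBump_valid], fun i g hg => ?_⟩,
      by simp [Term.isPeriodic, Term.time]⟩ <;>
    rcases spaceLists_mem a _ _ _ _ _ _ i g hg with h | h <;> simp at h <;> subst h
  exacts [hb1 _, hb2 _, hb1' _ e he, hb2 _, hb1 _, hb2' _ e he]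

lemma loadTerm_spec (B : Box) :
    (loadTerm B).Valid ∧ (loadTerm B).isPeriodic = false ∧
      ∀ (ν t : ℝ) (x : Fin 3 → ℝ), 1 ≤ t → (loadTerm B).eval ν t x = 0 := by
  refine ⟨⟨by simp [loadTerm, Term.logArgs], by simp [loadTerm, Term.time, loadBump_valid], ?_⟩,
    by simp [loadTerm, Term.isPeriodic, Term.time], ?_⟩
  · intro i g hg
    fin_cases i <;> simp [loadTerm, Term.space] at hg
  · intro ν t x ht
    rw [loadTerm_eval, lamDeriv, loadBump_apply, iteratedDeriv_one,
      rho'_eq_zero (by rw [abs_of_nonneg (by linarith)]; linarith)]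
    simp

lemma compiler_component (M : Machine) (hM : M.Valid) (i : Fin 3) :
    ∃ (P : List Term), (∀ τ ∈ P, τ.Valid ∧ τ.isPeriodic = true) ∧
      ∀ w, M.IsInput w → ∃ S : List Term,
        (compiler (M, w)).component i = P ++ S ∧
        ∀ τ ∈ S, τ.Valid ∧ τ.isPeriodic = false ∧
          ∀ (ν t : ℝ) (x : Fin 3 → ℝ), 1 ≤ t → τ.eval ν t x = 0 := by
  have hg := (Machine.sys_ok hM).good
  have hp := fun (a : Fin 3) (j : ℕ) (k : Fin 6) => phaseTerms_spec a j (hg k)
  fin_cases i
  · refine ⟨phaseTerms 0 2 M.sys.phase2 ++ phaseTerms 0 4 M.sys.phase4, ?_, fun w _ =>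
      ⟨[loadTerm (M.sys.xBox M.startCtrl [])], rfl, ?_⟩⟩
    · intro τ hτ
      rcases List.mem_append.mp hτ with h | h
      exacts [hp 0 2 2 τ h, hp 0 4 4 τ h]
    · simp [loadTerm_spec]
      exact fun ν t x ht => (loadTerm_spec _).2.2 ν t x ht
  · refine ⟨phaseTerms 1 3 M.sys.phase3, hp 1 3 3, fun w _ =>
      ⟨[loadTerm (M.sys.yBox w)], rfl, ?_⟩⟩
    simp [loadTerm_spec]
    exact fun ν t x ht => (loadTerm_spec _).2.2 ν t x ht
  · refine ⟨phaseTerms 2 0 M.sys.phase0 ++ phaseTerms 2 1 M.sys.phase1 ++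
      phaseTerms 2 5 M.sys.phase5, ?_, fun w _ => ⟨[], by simp [ForceCode.component, compiler,
        Sys.forceCode], by simp⟩⟩
    intro τ hτ
    rcases List.mem_append.mp hτ with h | h
    · rcases List.mem_append.mp h with h | h
      exacts [hp 2 0 0 τ h, hp 2 1 1 τ h]
    · exact hp 2 5 5 τ h

theorem compiler_isForceCompiler : IsForceCompiler compiler := by
  refine ⟨compiler_computable, ?_, ⟨1, ?_⟩, ?_⟩
  · intro M w hM hw i τ hτ
    obtain ⟨P, hP, hS⟩ := compiler_component M hM i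
    obtain ⟨S, hS1, hS2⟩ := hS w hw
    rw [hS1] at hτ
    rcases List.mem_append.mp hτ with h | h
    exacts [(hP τ h).1, (hS2 τ h).1]
  · intro M w hM hw i τ hτ hper ν t x ht
    obtain ⟨P, hP, hS⟩ := compiler_component M hM i
    obtain ⟨S, hS1, hS2⟩ := hS w hw
    rw [hS1] at hτ
    rcases List.mem_append.mp hτ with h | h
    · rw [(hP τ h).2] at hper; cases hper
    · exact (hS2 τ h).2.2 ν t x ht
  · intro M w w' hM hw hw' i
    obtain ⟨P, hP, hS⟩ := compiler_component M hM i
    obtain ⟨S, hS1, hS2⟩ := hS w hw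
    obtain ⟨S', hS1', hS2'⟩ := hS w' hw'
    have nS : S.filter Term.isPeriodic = [] :=
      List.filter_eq_nil_iff.mpr fun τ h => by simp [(hS2 τ h).2.1]
    have nS' : S'.filter Term.isPeriodic = [] :=
      List.filter_eq_nil_iff.mpr fun τ h => by simp [(hS2' τ h).2.1]
    rw [hS1, hS1', List.filter_append, List.filter_append, nS, nS']

/-! ### The force -/

lemma velForce_smooth {σ : Sys} (hg : σ.Good) (ν : ℝ) (c₀ : ℕ) (w : List ℕ) :
    ContDiff ℝ ∞ (fun z : ℝ × (Fin 3 → ℝ) => σ.velForce ν c₀ w z.1 z.2) ∧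
      ∀ t, SpatiallyPeriodic (σ.velForce ν c₀ w t) := by
  have hcd : ∀ (k : ℕ) {B : Box}, B.Inside → ContDiff ℝ ∞ (cut2 k B) := fun k _ hB =>
    (contDiff_infty_iff_deriv.mp (contDiff_infty_iff_deriv.mp (cut_contDiff k hB)).2).2
  have hcp : ∀ (k : ℕ) (B : Box) (y : ℝ) (m : ℤ), cut2 k B (y + m) = cut2 k B y := by
    intro k B y m
    have h : ∀ (g : ℝ → ℝ), (∀ y, g (y + m) = g y) → ∀ y, deriv g (y + m) = deriv g y := by
      intro g hg y
      rw [← deriv_comp_add_const, funext hg]
    exact h _ (h _ fun y => cut_periodic k B y m) y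
  have hlap : ∀ (a : Fin 3) {L : List Piece}, (∀ P ∈ L, P.Good) →
      ContDiff ℝ ∞ (profileLap a L) ∧ SpatiallyPeriodic (profileLap a L) := by
    intro a L hL
    refine ⟨contDiff_list_sum _ _ fun e he => ?_, fun x k => by
      simp [profileLap, cut_periodic, hcp]⟩
    obtain ⟨hP, -, -⟩ := mem_allSummands he
    exact contDiff_const.mul ((((hcd _ (hL _ hP).1).comp (contDiff_apply ℝ ℝ _)).mul
        ((cut_contDiff _ (hL _ hP).2).comp (contDiff_apply ℝ ℝ _))).add
      (((cut_contDiff _ (hL _ hP).1).comp (contDiff_apply ℝ ℝ _)).mul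
        ((hcd _ (hL _ hP).2).comp (contDiff_apply ℝ ℝ _))))
  have htd : ∀ j, ContDiff ℝ ∞ (thetaDeriv j) := fun j =>
    contDiff_const.mul
      ((bumpFn_boundedSupport (phaseBump_valid 1 j)).periodize_contDiff (bumpFn_contDiff _))
  have hld : ContDiff ℝ ∞ lamDeriv := contDiff_const.mul (bumpFn_contDiff _)
  refine ⟨contDiff_pi.mpr fun i => (ContDiff.sum fun j _ => ?_).add
    ((hld.comp contDiff_fst).mul contDiff_const), fun t x k => funext fun i => ?_⟩
  · split_ifs
    · exact (((htd _).comp contDiff_fst).mul ((profile_contDiff (hg j)).comp contDiff_snd)).sub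
        (contDiff_const.mul (((theta_contDiff _).comp contDiff_fst).mul
          ((hlap _ (hg j)).1.comp contDiff_snd)))
    · exact contDiff_const
  · simp only [Sys.velForce]
    congr 1
    refine Finset.sum_congr rfl fun j _ => ?_
    rw [profile_periodic _ _ x k, (hlap _ (hg j)).2 x k]

theorem compiler_detects {ν : ℝ} (hν : 0 < ν) :
    Detects ν 0 boxLo boxHi compiler := by
  intro M w hM hw
  have hok := Machine.sys_ok hM
  have hg := hok.good
  have hf : forceOf ν (compiler (M, w)) = M.sys.velForce ν M.startCtrl w :=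
    forceCode_eval hg M.startCtrl w ν
  obtain ⟨hs, hp⟩ := velForce_smooth hg ν M.startCtrl w
  have hsol := vel_solution hg ν M.startCtrl w
  have hzero : (fun i => (((0 : Fin 3 → ℚ) i : ℚ) : ℝ)) = (0 : Fin 3 → ℝ) := by
    funext i; simp
  rw [hf]
  refine ⟨hs, hp, M.sys.vel M.startCtrl w, fun _ _ => 0, hsol,
    fun T hT v q hv => classical_unique hν.le hsol hT hv,
    M.sys.path M.startCtrl w, ?_, ?_, ?_⟩
  · rw [hzero]; exact M.sys.isTrajectory_path M.startCtrl w
  · rw [hzero]
    intro Y hY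
    exact trajectory_unique hsol.u_smooth (fun t => (hsol.periodic t).1)
      (M.sys.isTrajectory_path M.startCtrl w) hY
  · rw [Machine.halts_iff hM hw]
    refine Sys.detect (orb := M.orbit w) hok rfl ?_ (fun d hd => ?_)
      (fun n hn => Machine.orbit_valid hM hw n hn) (fun n hn => Machine.orbit_rule hM hw n hn)
    · show 2 * M.numStates + M.start < 3 * M.numStates
      have := hM.2.1; omega
    · exact (hw d hd).trans_le M.numSymbols_le

end

end Vale.Agent.P113
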