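import Vale.Agent.P113.Trajectory

/-!
The trajectory as an explicit path through the points of the periods.
-/

namespace Vale.Agent.P113

open scoped ContDiff

noncomputable section

/-- The progress of phase `j < 7` at time `τ` within a period. -/
def prog (j : ℕ) (τ : ℝ) : ℝ :=
  if j < 6 then sigmaFn (24 * τ - (2 * (j : ℝ) + 1)) / kappa else sigmaFn (4 * τ - 3) / kappa

def progDeriv (j : ℕ) (τ : ℝ) : ℝ :=
  if j < 6 then 24 / kappa * bumpFn (phaseBump 0 j) τ else lam τ

lemma prog_hasDerivAt (j : ℕ) (τ : ℝ) : HasDerivAt (prog j) (progDeriv j τ) τ := by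
  by_cases hj : j < 6
  · have h1 : HasDerivAt (fun τ : ℝ => 24 * τ - (2 * (j : ℝ) + 1)) 24 τ := by
      simpa using ((hasDerivAt_id τ).const_mul (24 : ℝ)).sub_const (2 * (j : ℝ) + 1)
    have h2 := ((sigmaFn_hasDerivAt _).comp τ h1).div_const kappa
    have e : prog j = fun τ => sigmaFn (24 * τ - (2 * (j : ℝ) + 1)) / kappa := by
      funext τ; simp [prog, hj]
    rw [e]
    refine h2.congr_deriv ?_
    simp only [progDeriv, if_pos hj, phaseBump_apply, iteratedDeriv_zero]; ring
  · have h1 : HasDerivAt (fun τ : ℝ => 4 * τ - 3) 4 τ := by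
      simpa using ((hasDerivAt_id τ).const_mul (4 : ℝ)).sub_const 3
    have h2 := ((sigmaFn_hasDerivAt _).comp τ h1).div_const kappa
    have e : prog j = fun τ => sigmaFn (4 * τ - 3) / kappa := by
      funext τ; simp [prog, hj]
    rw [e]
    refine h2.congr_deriv ?_
    simp only [progDeriv, if_neg hj, lam, loadBump_apply, iteratedDeriv_zero]; ring

lemma prog_mem (j : ℕ) (τ : ℝ) : 0 ≤ prog j τ ∧ prog j τ ≤ 1 := by
  have key : ∀ s, 0 ≤ sigmaFn s / kappa ∧ sigmaFn s / kappa ≤ 1 := fun s =>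
    ⟨div_nonneg (sigmaFn_mem s).1 kappa_pos.le,
      (div_le_one kappa_pos).mpr (sigmaFn_mem s).2⟩
  unfold prog; split <;> exact key _

/-- The time at which phase `j ≤ 7` starts. -/
def phaseStart (j : ℕ) : ℝ := if j ≤ 6 then 2 * (j : ℝ) / 24 else 1

lemma phaseStart_mono {j k : ℕ} (h : j ≤ k) (hk : k ≤ 7) : phaseStart j ≤ phaseStart k := by
  unfold phaseStart
  split_ifs with h1 h2 h2
  · have : (j : ℝ) ≤ k := by exact_mod_cast h
    linarith
  · have : (j : ℝ) ≤ 6 := by exact_mod_cast h1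
    linarith
  · omega
  · rfl

lemma prog_eq_zero {j : ℕ} (hj : j < 7) {τ : ℝ} (h : τ ≤ phaseStart j) : prog j τ = 0 := by
  unfold phaseStart at h
  rw [if_pos (by omega)] at h
  unfold prog
  split_ifs with h6
  · rw [sigmaFn_eq_zero (by linarith), zero_div]
  · have : j = 6 := by omega
    subst this; norm_num at h
    rw [sigmaFn_eq_zero (by linarith), zero_div]

lemma prog_eq_one {j : ℕ} (hj : j < 7) {τ : ℝ} (h : phaseStart (j + 1) ≤ τ) : prog j τ = 1 := by
  unfold phaseStart at h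
  unfold prog
  split_ifs with h6
  · rw [if_pos (by omega)] at h; push_cast at h
    rw [sigmaFn_eq_kappa (by linarith), div_self kappa_ne_zero]
  · rw [if_neg (by omega)] at h
    rw [sigmaFn_eq_kappa (by linarith), div_self kappa_ne_zero]

lemma progDeriv_eq_zero {j : ℕ} (hj : j < 7) {τ : ℝ} (h : τ ≤ 0 ∨ 1 ≤ τ) :
    progDeriv j τ = 0 := by
  unfold progDeriv
  split_ifs with h6
  · have : (j : ℝ) + 1 ≤ 6 := by exact_mod_cast h6
    rw [phaseBump_eq_zero j ?_, mul_zero]
    rcases h with h | h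
    · left; linarith [(Nat.cast_nonneg j : (0 : ℝ) ≤ j)]
    · right; linarith
  · by_contra hne
    obtain ⟨h1, h2⟩ := lam_ne_zero hne
    rcases h with h | h <;> linarith

lemma progDeriv_support {j : ℕ} (hj : j < 7) {τ : ℝ} (h : progDeriv j τ ≠ 0) :
    phaseStart j ≤ τ ∧ τ ≤ phaseStart (j + 1) := by
  by_contra hc
  apply h
  by_cases h6 : j < 6
  · simp only [progDeriv, if_pos h6]
    rw [phaseBump_eq_zero j ?_, mul_zero]
    unfold phaseStart at hc
    rw [if_pos (by omega), if_pos (by omega)] at hc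
    push_cast at hc
    by_contra hh; push Not at hh
    exact hc ⟨hh.1.le, by linarith⟩
  · have : j = 6 := by omega
    subst this
    by_contra hne
    simp only [progDeriv, if_neg h6] at hne
    obtain ⟨h1, h2⟩ := lam_ne_zero hne
    exact hc ⟨by norm_num [phaseStart]; linarith, by norm_num [phaseStart]; linarith⟩

lemma exists_phase {τ : ℝ} (h0 : 0 ≤ τ) (h1 : τ ≤ 1) :
    ∃ j < 7, phaseStart j ≤ τ ∧ τ ≤ phaseStart (j + 1) := by
  classical
  have h : ∃ j, τ ≤ phaseStart (j + 1) := ⟨6, by norm_num [phaseStart]; linarith⟩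
  refine ⟨Nat.find h, ?_, ?_, Nat.find_spec h⟩
  · exact lt_of_le_of_lt (Nat.find_min' h (by norm_num [phaseStart]; linarith : τ ≤ phaseStart (6 + 1)))
      (by norm_num)
  · rcases Nat.eq_zero_or_pos (Nat.find h) with h0' | h0'
    · rw [h0']; simpa [phaseStart] using h0
    · have := Nat.find_min h (show Nat.find h - 1 < Nat.find h by omega)
      rw [Nat.sub_add_cancel h0'] at this
      exact (not_le.mp this).le

namespace Sys

variable (σ : Sys) (c₀ : ℕ) (w : List ℕ)

/-- The points reached after the phases of period `n`, started at `p`. -/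
def midFrom (p : Fin 3 → ℝ) (n : ℕ) : ℕ → Fin 3 → ℝ
  | 0 => p
  | j + 1 =>
    if h : j < 6 then σ.kick ⟨j, h⟩ (midFrom p n j)
    else midFrom p n j + (if n = 0 then σ.load c₀ w else 0)

/-- The point at time `n`. -/
def nodePoint : ℕ → Fin 3 → ℝ
  | 0 => 0
  | n + 1 => σ.midFrom c₀ w (nodePoint n) n 7

def midPoint (n j : ℕ) : Fin 3 → ℝ := σ.midFrom c₀ w (σ.nodePoint c₀ w n) n j

def increment (n j : ℕ) : Fin 3 → ℝ := σ.midPoint c₀ w n (j + 1) - σ.midPoint c₀ w n j

/-- The first `N` periods of the path. -/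
def pathUpTo (N : ℕ) (t : ℝ) : Fin 3 → ℝ :=
  ∑ n ∈ Finset.range N, ∑ j ∈ Finset.range 7, prog j (t - n) • σ.increment c₀ w n j

/-- The trajectory of the origin. -/
def path (t : ℝ) : Fin 3 → ℝ := σ.pathUpTo c₀ w (⌊t⌋₊ + 2) t

lemma pathUpTo_eq {n N : ℕ} (hn : n < N) {t : ℝ} (h0 : (n : ℝ) ≤ t) (h1 : t ≤ n + 1) :
    σ.pathUpTo c₀ w N t = σ.nodePoint c₀ w n +
      ∑ j ∈ Finset.range 7, prog j (t - n) • σ.increment c₀ w n j := by
  have htail : ∀ m, n < m →
      ∑ j ∈ Finset.range 7, prog j (t - m) • σ.increment c₀ w m j = 0 := by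
    intro m hm
    refine Finset.sum_eq_zero fun j hj => ?_
    have : (n : ℝ) + 1 ≤ m := by exact_mod_cast hm
    rw [prog_eq_zero (Finset.mem_range.mp hj) ?_, zero_smul]
    have h00 : phaseStart 0 = 0 := by simp [phaseStart]
    have := phaseStart_mono (Nat.zero_le j) (Finset.mem_range.mp hj).le
    linarith
  have hhead : ∀ m, m < n →
      ∑ j ∈ Finset.range 7, prog j (t - m) • σ.increment c₀ w m j =
        σ.nodePoint c₀ w (m + 1) - σ.nodePoint c₀ w m := by
    intro m hm
    have : (m : ℝ) + 1 ≤ n := by exact_mod_cast hm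
    have e : ∀ j ∈ Finset.range 7, prog j (t - m) • σ.increment c₀ w m j =
        σ.midPoint c₀ w m (j + 1) - σ.midPoint c₀ w m j := by
      intro j hj
      rw [prog_eq_one (Finset.mem_range.mp hj) ?_, one_smul]
      · rfl
      · refine (phaseStart_mono (Finset.mem_range.mp hj) le_rfl).trans ?_
        norm_num [phaseStart]; linarith
    rw [Finset.sum_congr rfl e, Finset.sum_range_sub (σ.midPoint c₀ w m)]
    rfl
  unfold pathUpTo
  rw [← Finset.sum_range_add_sum_Ico _ (show n + 1 ≤ N by omega),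
    Finset.sum_eq_zero (s := Finset.Ico (n + 1) N) (fun m hm => htail m (Finset.mem_Ico.mp hm).1),
    add_zero, Finset.sum_range_succ, Finset.sum_congr rfl (fun m hm => hhead m (Finset.mem_range.mp hm)),
    Finset.sum_range_sub (σ.nodePoint c₀ w)]
  simp [nodePoint]

lemma pathUpTo_eq_path {N : ℕ} {t : ℝ} (hN : ⌊t⌋₊ + 2 ≤ N) (ht : t < N) :
    σ.pathUpTo c₀ w N t = σ.path c₀ w t := by
  unfold path pathUpTo
  refine (Finset.sum_subset (Finset.range_mono hN) fun m hm hm' => ?_).symm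
  simp only [Finset.mem_range, not_lt] at hm hm'
  refine Finset.sum_eq_zero fun j hj => ?_
  have h1 : t < ⌊t⌋₊ + 1 := Nat.lt_floor_add_one t
  have : (⌊t⌋₊ : ℝ) + 2 ≤ m := by exact_mod_cast hm'
  rw [prog_eq_zero (Finset.mem_range.mp hj) ?_, zero_smul]
  have h00 : phaseStart 0 = 0 := by simp [phaseStart]
  have := phaseStart_mono (Nat.zero_le j) (Finset.mem_range.mp hj).le
  linarith

lemma path_eq {t : ℝ} (ht : 0 ≤ t) :
    σ.path c₀ w t = σ.nodePoint c₀ w ⌊t⌋₊ +
      ∑ j ∈ Finset.range 7, prog j (t - ⌊t⌋₊) • σ.increment c₀ w ⌊t⌋₊ j :=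
  σ.pathUpTo_eq c₀ w (by omega) (Nat.floor_le ht) (Nat.lt_floor_add_one t).le

lemma segment_eq {n j : ℕ} (hj : j < 7) {τ : ℝ} (h0 : phaseStart j ≤ τ)
    (h1 : τ ≤ phaseStart (j + 1)) :
    σ.nodePoint c₀ w n + ∑ k ∈ Finset.range 7, prog k τ • σ.increment c₀ w n k =
      σ.midPoint c₀ w n j + prog j τ • σ.increment c₀ w n j := by
  rw [← Finset.sum_range_add_sum_Ico _ (show j + 1 ≤ 7 by omega),
    Finset.sum_eq_zero (s := Finset.Ico (j + 1) 7), add_zero, Finset.sum_range_succ,
    Finset.sum_congr rfl (g := fun k => σ.midPoint c₀ w n (k + 1) - σ.midPoint c₀ w n k),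
    Finset.sum_range_sub (σ.midPoint c₀ w n)]
  · simp [midPoint, midFrom]; abel
  · intro k hk
    have hk' := Finset.mem_range.mp hk
    rw [prog_eq_one (by omega) ((phaseStart_mono hk' (by omega)).trans h0), one_smul]
    rfl
  · intro k hk
    obtain ⟨hk1, hk2⟩ := Finset.mem_Ico.mp hk
    rw [prog_eq_zero hk2 (h1.trans (phaseStart_mono hk1 hk2.le)), zero_smul]

lemma path_segment {t : ℝ} (ht : 0 ≤ t) :
    ∃ (n j : ℕ) (p : ℝ), j < 7 ∧ 0 ≤ p ∧ p ≤ 1 ∧ σ.path c₀ w t =
      σ.midPoint c₀ w n j + p • (σ.midPoint c₀ w n (j + 1) - σ.midPoint c₀ w n j) := by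
  obtain ⟨j, hj, h0, h1⟩ := exists_phase (τ := t - ⌊t⌋₊) (by linarith [Nat.floor_le ht])
    (by linarith [Nat.lt_floor_add_one t])
  refine ⟨⌊t⌋₊, j, prog j (t - ⌊t⌋₊), hj, (prog_mem _ _).1, (prog_mem _ _).2, ?_⟩
  rw [σ.path_eq c₀ w ht, σ.segment_eq c₀ w hj h0 h1]
  rfl

lemma path_zero : σ.path c₀ w 0 = 0 := by
  rw [σ.path_eq c₀ w le_rfl, σ.segment_eq c₀ w (j := 0) (by norm_num)]
  · simp only [Nat.floor_zero, CharP.cast_eq_zero, sub_zero]
    rw [prog_eq_zero (by norm_num) (by simp [phaseStart])]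
    simp [midPoint, midFrom, nodePoint]
  · simp [phaseStart]
  · norm_num [phaseStart]

lemma profile_congr {a : Fin 3} {L : List Piece} {x y : Fin 3 → ℝ}
    (h : ∀ k, k ≠ a → x k = y k) : profile a L x = profile a L y := by
  simp only [profile, h _ (oth_ne a).1, h _ (oth_ne a).2.1]

lemma path_hasDerivAt {t : ℝ} (ht : 0 ≤ t) :
    HasDerivAt (σ.path c₀ w) (σ.vel c₀ w t (σ.path c₀ w t)) t := by
  set n := ⌊t⌋₊ with hn
  have hnt : (n : ℝ) ≤ t := Nat.floor_le ht
  have hnt' : t < n + 1 := Nat.lt_floor_add_one t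
  have hev : σ.path c₀ w =ᶠ[nhds t] σ.pathUpTo c₀ w (n + 3) := by
    filter_upwards [Iio_mem_nhds (show t < n + 1 by exact_mod_cast hnt')] with s hs
    have hs' : ⌊s⌋₊ ≤ n := by
      rcases le_or_gt 0 s with h | h
      · exact Nat.lt_succ_iff.mp ((Nat.floor_lt h).mpr (by push_cast; exact hs))
      · rw [Nat.floor_of_nonpos h.le]; exact Nat.zero_le _
    refine (σ.pathUpTo_eq_path c₀ w (by omega) ?_).symm
    have : s < (n : ℝ) + 1 := hs
    push_cast; linarith
  have hd : HasDerivAt (σ.pathUpTo c₀ w (n + 3))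
      (∑ m ∈ Finset.range (n + 3), ∑ j ∈ Finset.range 7,
        progDeriv j (t - m) • σ.increment c₀ w m j) t :=
    HasDerivAt.fun_sum fun m _ => HasDerivAt.fun_sum fun j _ =>
      ((prog_hasDerivAt j _).comp_sub_const t (m : ℝ)).smul_const _
  rw [Finset.sum_eq_single n] at hd
  rotate_left
  · intro m _ hne
    refine Finset.sum_eq_zero fun j hj => ?_
    rw [progDeriv_eq_zero (Finset.mem_range.mp hj) ?_, zero_smul]
    rcases lt_or_gt_of_ne hne with h | h
    · have : (m : ℝ) + 1 ≤ n := by exact_mod_cast h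
      right; linarith
    · have : (n : ℝ) + 1 ≤ m := by exact_mod_cast h
      left; linarith
  · intro hh; exact absurd (Finset.mem_range.mpr (by omega)) hh
  refine (hd.congr_of_eventuallyEq hev).congr_deriv ?_
  have hτ0 : 0 ≤ t - n := by linarith
  have hfl : ⌊t⌋ = (n : ℤ) := by
    rw [hn, ← Int.natCast_floor_eq_floor ht]
  have hth : ∀ j < 6, progDeriv j (t - n) = theta j t := by
    intro j hj
    simp only [progDeriv, if_pos hj, theta]
    rw [← periodize_phaseBump hj hτ0 (by linarith)]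
    congr 1
    rw [← periodize_add_int _ (t - n) (n : ℤ)]
    congr 1; push_cast; ring
  funext i
  rw [Finset.sum_range_succ, Finset.sum_range]
  simp only [Sys.vel, Pi.add_apply, Finset.sum_apply, Pi.smul_apply, smul_eq_mul]
  congr 1
  · refine Finset.sum_congr rfl fun j _ => ?_
    by_cases hz : theta j t = 0
    · rw [hth j j.isLt, hz]; simp
    have hsup := progDeriv_support (j := (j : ℕ)) (τ := t - n) (by omega)
      (by rw [hth j j.isLt]; exact hz)
    have hX : σ.path c₀ w t =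
        σ.midPoint c₀ w n j + prog j (t - n) • σ.increment c₀ w n j := by
      rw [σ.path_eq c₀ w ht, σ.segment_eq c₀ w (by omega) hsup.1 hsup.2]
    have hinc : σ.increment c₀ w n j = Pi.single (phaseAxis j)
        (profile (phaseAxis j) (σ.phase j) (σ.midPoint c₀ w n j)) := by
      simp only [increment, midPoint]
      rw [midFrom, dif_pos j.isLt]
      simp [Sys.kick]
    have hprof : profile (phaseAxis j) (σ.phase j) (σ.path c₀ w t) =
        profile (phaseAxis j) (σ.phase j) (σ.midPoint c₀ w n j) := by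
      apply profile_congr
      intro k hk
      rw [hX, hinc]; simp [hk]
    rw [hth j j.isLt, hprof, hinc, Pi.single_apply]
    by_cases hi : phaseAxis j = i
    · simp [hi]
    · simp [hi, Ne.symm hi]
  · have hinc : σ.increment c₀ w n 6 = if n = 0 then σ.load c₀ w else 0 := by
      simp only [increment, midPoint]
      rw [midFrom, dif_neg (by norm_num)]
      simp
    rw [hinc]
    simp only [progDeriv, if_neg (show ¬ (6 : ℕ) < 6 by norm_num)]
    rcases Nat.eq_zero_or_pos n with h0 | h0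
    · simp [h0]
    · have hl : lam t = 0 := by
        by_contra hne
        have := (lam_ne_zero hne).2
        have : (1 : ℝ) ≤ n := by exact_mod_cast h0
        linarith
      simp [Nat.pos_iff_ne_zero.mp h0, hl]

lemma isTrajectory_path : IsTrajectory (σ.vel c₀ w) 0 (σ.path c₀ w) :=
  ⟨σ.path_zero c₀ w, fun _ ht => (σ.path_hasDerivAt c₀ w ht).hasDerivWithinAt⟩

end Sys

end

end Vale.Agent.P113
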