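import Vale.Agent.P113.Machine

/-!
The rewriting system of a machine simulates it.
-/

namespace Vale.Agent.P113

noncomputable section

namespace Machine

/-- The symbols of a stack, with the garbage records left out. -/
def dataOf (M : Machine) (l : List ℕ) : List ℕ := l.filter fun a => decide (a < M.numSymbols)

/-- `C` represents the machine configuration `K`. -/
structure Rep (M : Machine) (K : Config) (C : Conf) : Prop where
  valid : M.sys.ValidConf C
  state : C.1 % M.numStates = K.state
  stay : C.1 / M.numStates = 1 → C.2.2.headD 0 < M.numSymbols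
  left : C.1 / M.numStates = 0 → ∀ i : ℕ,
    K.tape (K.head - i) = (M.dataOf C.2.1).getD i 0 ∧
      K.tape (K.head + 1 + i) = (M.dataOf C.2.2).getD i 0
  right : C.1 / M.numStates ≠ 0 → ∀ i : ℕ,
    K.tape (K.head + i) = (M.dataOf C.2.2).getD i 0 ∧
      K.tape (K.head - 1 - i) = (M.dataOf C.2.1).getD i 0

/-- The side popped by a configuration. -/
def popSide (M : Machine) (C : Conf) : List ℕ :=
  if C.1 / M.numStates = 0 then C.2.1 else C.2.2

variable {M : Machine}

lemma dataOf_cons_lt {a : ℕ} (l : List ℕ) (h : a < M.numSymbols) :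
    M.dataOf (a :: l) = a :: M.dataOf l := by simp [dataOf, h]

lemma dataOf_cons_ge {a : ℕ} (l : List ℕ) (h : ¬ a < M.numSymbols) :
    M.dataOf (a :: l) = M.dataOf l := by simp [dataOf, h]

lemma dataOf_pop {l : List ℕ} (h : l.headD 0 < M.numSymbols) (i : ℕ) :
    (M.dataOf l).getD 0 0 = l.headD 0 ∧
      (M.dataOf l.tail).getD i 0 = (M.dataOf l).getD (i + 1) 0 := by
  cases l with
  | nil => simp [dataOf]
  | cons a l => simp at h; simp [dataOf_cons_lt l h]

lemma garbage_ge (M : Machine) (c a : ℕ) : ¬ M.garbage c a < M.numSymbols := by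
  simp only [garbage]; omega

lemma valid_numStates (hM : M.Valid) : 0 < M.numStates := by have := hM.2.1; omega

lemma lifts_iff {c : ℕ} (hc : c < 3 * M.numStates) :
    c ∈ M.sys.lifts ↔ c % M.numStates ∈ M.halting := by
  simp only [Sys.lifts, sys, liftCtrls, List.mem_flatMap, List.mem_range]
  constructor
  · rintro ⟨c', hc', h⟩
    split at h <;> simp at h
    rename_i hh
    subst h
    exact (M.isHalting_iff _).mp hh
  · intro h
    exact ⟨c, hc, by simp [(M.isHalting_iff _).mpr h]⟩

lemma mem_rwRules_of {c a : ℕ} {r : Rw} (hc : c < 3 * M.numStates) (ha : a < M.cellCount)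
    (hr : r ∈ M.rulesFor c a) : r ∈ M.sys.rules := by
  simp only [Sys.rules, sys, rwRules, List.mem_flatMap, List.mem_range]
  exact ⟨c, hc, a, ha, hr⟩

lemma pre_singleton {a : ℕ} {l : List ℕ} : Pre [a] l ↔ l.headD 0 = a := by simp [Pre]

/-- One move of the system: it executes one machine step or skips one garbage record. -/
lemma step_cases (hM : M.Valid) {K : Config} {C : Conf} (h : M.Rep K C)
    (hnh : K.state ∉ M.halting) :
    ∃ r ∈ M.sys.rules, r.MatchPre C ∧
      (M.Rep (M.step K) (r.app C) ∨
        (M.Rep K (r.app C) ∧ (M.popSide (r.app C)).length < (M.popSide C).length)) := by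
  have hok := sys_ok hM
  obtain ⟨c, L, R⟩ := C
  obtain ⟨⟨hc, hL, hR⟩, hst, hstay, hleft, hright⟩ := h
  simp only [Sys.digits, Sys.ctrls, sys] at hc hL hR
  simp only at hst hstay hleft hright
  have hnh' : M.isHalting (c % M.numStates) = false := by
    by_contra hh
    exact hnh (hst ▸ (M.isHalting_iff _).mp (by simpa using hh))
  have hD : 0 < M.cellCount := hok.digits_pos
  set a : ℕ := if c / M.numStates = 0 then L.headD 0 else R.headD 0 with hadef
  have hac : a < M.cellCount := by
    rw [hadef]; split
    · exact headD_lt hD hL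
    · exact headD_lt hD hR
  by_cases hak : a < M.numSymbols
  · -- a symbol is found: execute the machine step
    set r := M.execRule c a (M.ruleAt (c % M.numStates) a) with hrdef
    have hr : r ∈ M.sys.rules := by
      refine mem_rwRules_of hc hac ?_
      simp [rulesFor, hnh', hak, hrdef]
    have hmp : r.MatchPre (c, L, R) := by
      refine ⟨rfl, ?_, ?_⟩ <;> simp only [hrdef, execRule, Rw.popL, Rw.popR] <;>
        by_cases h0 : c / M.numStates = 0 <;> simp [h0, pre_singleton, hadef, Pre]
    refine ⟨r, hr, hmp, Or.inl ?_⟩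
    have hscan : K.tape K.head = a := by
      rw [hadef]; split
      · rename_i h0
        have := (hleft h0 0).1
        simp only [Nat.cast_zero, sub_zero] at this
        rw [this, (dataOf_pop (M := M) (by simpa [hadef, h0] using hak) 0).1]
      · rename_i h0
        have := (hright h0 0).1
        simp only [Nat.cast_zero, add_zero] at this
        rw [this, (dataOf_pop (M := M) (by simpa [hadef, h0] using hak) 0).1]
    -- the two stacks after the pop, read on the tape
    obtain ⟨Lp, Rp, hLp, hRp, hA, hB⟩ : ∃ Lp Rp : List ℕ,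
        L.drop r.popL.length = Lp ∧ R.drop r.popR.length = Rp ∧
        (∀ i : ℕ, K.tape (K.head - 1 - i) = (M.dataOf Lp).getD i 0) ∧
        (∀ i : ℕ, K.tape (K.head + 1 + i) = (M.dataOf Rp).getD i 0) := by
      refine ⟨_, _, rfl, rfl, ?_, ?_⟩ <;> intro i <;>
        simp only [hrdef, execRule, Rw.popL, Rw.popR] <;> by_cases h0 : c / M.numStates = 0
      · simp only [if_pos h0, List.length_singleton, List.drop_one]
        rw [(dataOf_pop (M := M) (by simpa [hadef, h0] using hak) i).2, ← (hleft h0 (i + 1)).1]
        congr 1; push_cast; ring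
      · simp only [if_neg h0, List.length_nil, List.drop_zero]
        exact (hright h0 i).2
      · simp only [if_pos h0, List.length_nil, List.drop_zero]
        exact (hleft h0 i).2
      · simp only [if_neg h0, List.length_singleton, List.drop_one]
        rw [(dataOf_pop (M := M) (by simpa [hadef, h0] using hak) i).2, ← (hright h0 (i + 1)).1]
        congr 1; push_cast; ring
    have hvalid : M.sys.ValidConf (r.app (c, L, R)) := hok.app_valid hr ⟨hc, hL, hR⟩
    have hq : c % M.numStates < M.numStates := Nat.mod_lt _ (valid_numStates hM)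
    have hstep : M.step K = ⟨(M.ruleAt (c % M.numStates) a).1,
        Function.update K.tape K.head (M.ruleAt (c % M.numStates) a).2.1,
        K.head + ((((M.ruleAt (c % M.numStates) a).2.2 : ℕ) : ℤ) - 1)⟩ := by
      simp only [Machine.step, hscan, ← hst]
    rcases hρ : M.ruleAt (c % M.numStates) a with ⟨q', s', d⟩
    obtain ⟨hq', hs'⟩ : q' < M.numStates ∧ s' < M.numSymbols := by
      have := ruleAt_lt hM hq hak; rwa [hρ] at this
    obtain ⟨hdiv, hmod⟩ := ctrl_div (d := (d : ℕ)) hq'
    have hg := garbage_ge M c a
    rw [hρ] at hstep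
    rw [hstep]
    simp only [hρ] at hrdef
    have hupd : ∀ z : ℤ, z ≠ K.head →
        Function.update K.tape K.head s' z = K.tape z :=
      fun z hz => Function.update_of_ne hz _ _
    have happ : r.app (c, L, R) = ((d : ℕ) * M.numStates + q', r.pushL ++ Lp, r.pushR ++ Rp) := by
      simp only [Rw.app, hLp, hRp]; rw [hrdef]; rfl
    rw [happ] at hvalid ⊢
    refine ⟨hvalid, hmod, ?_, ?_, ?_⟩
    · intro h1
      simp only [hdiv] at h1
      simp [hrdef, execRule, Rw.pushR, h1, hs']
    · intro h0 i
      simp only [hdiv] at h0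
      rw [show r.pushL = [] by simp [hrdef, execRule, Rw.pushL, h0],
        show r.pushR = [s', M.garbage c a] by simp [hrdef, execRule, Rw.pushR, h0]]
      simp only [List.nil_append, List.cons_append,
        dataOf_cons_lt _ hs', dataOf_cons_ge _ hg, h0, Nat.cast_zero]
      refine ⟨?_, ?_⟩
      · rw [hupd _ (by omega), ← hA i]; congr 1
      · cases i with
        | zero =>
          have e : K.head + ((0 : ℤ) - 1) + 1 + ((0 : ℕ) : ℤ) = K.head := by simp
          simp [e, Function.update_self]
        | succ i =>
          rw [hupd _ (by push_cast; omega), List.getD_cons_succ, ← hB i]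
          congr 1; push_cast; ring
    · intro h0 i
      simp only [hdiv] at h0
      have hd3 := d.isLt
      by_cases h1 : (d : ℕ) = 1
      · rw [show r.pushL = [M.garbage c a] by simp [hrdef, execRule, Rw.pushL, h1],
          show r.pushR = [s'] by simp [hrdef, execRule, Rw.pushR, h1]]
        simp only [List.cons_append,
          List.nil_append, dataOf_cons_lt _ hs', dataOf_cons_ge _ hg, h1, Nat.cast_one, sub_self,
          add_zero]
        refine ⟨?_, ?_⟩
        · cases i with
          | zero => simp [Function.update_self]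
          | succ i =>
            rw [hupd _ (by push_cast; omega), List.getD_cons_succ, ← hB i]
            congr 1; push_cast; ring
        · rw [hupd _ (by omega), ← hA i]
      · have h2 : (d : ℕ) = 2 := by omega
        rw [show r.pushL = [s', M.garbage c a] by simp [hrdef, execRule, Rw.pushL, h2],
          show r.pushR = [] by simp [hrdef, execRule, Rw.pushR, h2]]
        simp only [List.cons_append,
          List.nil_append, dataOf_cons_lt _ hs', dataOf_cons_ge _ hg, h2, Nat.cast_ofNat]
        refine ⟨?_, ?_⟩
        · rw [hupd _ (by omega), ← hB i]; congr 1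
        · cases i with
          | zero =>
            have e : K.head + ((2 : ℤ) - 1) - 1 - ((0 : ℕ) : ℤ) = K.head := by simp
            simp [e, Function.update_self]
          | succ i =>
            rw [hupd _ (by push_cast; omega), List.getD_cons_succ, ← hA i]
            congr 1; push_cast; ring
  · -- a garbage record is skipped
    have ha0 : ¬ a < M.numSymbols := hak
    by_cases h0 : c / M.numStates = 0
    · have hae : a = L.headD 0 := by simp [hadef, h0]
      obtain ⟨b, L', rfl⟩ : ∃ b L', L = b :: L' := by
        cases L with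
        | nil => exfalso; apply hak; rw [hae]; simpa using hM.1
        | cons b L' => exact ⟨b, L', rfl⟩
      simp only [List.headD_cons] at hae
      have hr : ((c, [a], [], c, [], [a]) : Rw) ∈ M.sys.rules := by
        refine mem_rwRules_of hc hac ?_
        simp [rulesFor, hnh', hak, h0]
      refine ⟨_, hr, ⟨rfl, by simp [Rw.popL, Pre, hae], trivial⟩, Or.inr ⟨?_, ?_⟩⟩
      · refine ⟨hok.app_valid hr ⟨hc, hL, hR⟩, hst, ?_, ?_, ?_⟩
        · intro h1; simp [Rw.app, Rw.tgt, h0] at h1
        · intro _ i
          have := hleft h0 i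
          simp only [Rw.app, Rw.popL, Rw.popR, Rw.pushL, Rw.pushR, List.length_singleton,
            List.drop_one, List.tail_cons, List.nil_append, List.length_nil, List.drop_zero,
            List.singleton_append]
          rw [dataOf_cons_ge _ (hae ▸ hak)] at this
          rwa [dataOf_cons_ge _ hak]
        · intro h1; simp [Rw.app, Rw.tgt, h0] at h1
      · simp [popSide, Rw.app, Rw.tgt, Rw.popL, Rw.pushL, h0]
    · have hae : a = R.headD 0 := by simp [hadef, h0]
      have hne1 : c / M.numStates ≠ 1 := fun h1 => hak (hae ▸ hstay h1)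
      have h2 : c / M.numStates = 2 := by
        have h3 : c / M.numStates < 3 :=
          Nat.div_lt_of_lt_mul (by rw [Nat.mul_comm]; exact hc)
        generalize c / M.numStates = m at h0 hne1 h3
        omega
      obtain ⟨b, R', rfl⟩ : ∃ b R', R = b :: R' := by
        cases R with
        | nil => exfalso; apply hak; rw [hae]; simpa using hM.1
        | cons b R' => exact ⟨b, R', rfl⟩
      simp only [List.headD_cons] at hae
      have hr : ((c, [], [a], c, [a], []) : Rw) ∈ M.sys.rules := by
        refine mem_rwRules_of hc hac ?_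
        simp [rulesFor, hnh', hak, h0, h2]
      refine ⟨_, hr, ⟨rfl, trivial, by simp [Rw.popR, Pre, hae]⟩, Or.inr ⟨?_, ?_⟩⟩
      · refine ⟨hok.app_valid hr ⟨hc, hL, hR⟩, hst, ?_, ?_, ?_⟩
        · intro h1; simp [Rw.app, Rw.tgt, h2] at h1
        · intro h1; simp [Rw.app, Rw.tgt, h0] at h1
        · intro _ i
          have := hright h0 i
          simp only [Rw.app, Rw.popL, Rw.popR, Rw.pushL, Rw.pushR, List.length_singleton,
            List.drop_one, List.tail_cons, List.nil_append, List.length_nil, List.drop_zero,
            List.singleton_append]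
          rw [dataOf_cons_ge _ (hae ▸ hak)] at this
          rwa [dataOf_cons_ge _ hak]
      · simp [popSide, Rw.app, Rw.tgt, Rw.popR, Rw.pushR, h0]

/-- The orbit of the system started on the input `w`. -/
def orbit (M : Machine) (w : List ℕ) (n : ℕ) : Conf :=
  M.sys.next^[n] (M.startCtrl, [], w)

lemma rep_init (hM : M.Valid) {w : List ℕ} (hw : M.IsInput w) :
    M.Rep (M.init w) (M.startCtrl, [], w) := by
  have hdiv : M.startCtrl / M.numStates = 2 ∧ M.startCtrl % M.numStates = M.start := by
    simpa [startCtrl] using ctrl_div (d := 2) hM.2.1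
  refine ⟨⟨?_, by simp, fun d hd => (hw d hd).trans_le M.numSymbols_le⟩, hdiv.2, ?_, ?_, ?_⟩
  · show 2 * M.numStates + M.start < 3 * M.numStates
    have := hM.2.1; omega
  · intro h; simp only [hdiv.1] at h; omega
  · intro h; simp only [hdiv.1] at h; omega
  · intro _ i
    have hdat : M.dataOf w = w := List.filter_eq_self.mpr fun a ha => by simpa using hw a ha
    refine ⟨?_, ?_⟩
    · simp only [Machine.init, zero_add, hdat]
      rw [if_pos (by omega), Int.toNat_natCast]
    · simp only [Machine.init, dataOf, List.filter_nil, List.getD_nil]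
      rw [if_neg (by omega)]

lemma orbit_succ (M : Machine) (w : List ℕ) (n : ℕ) :
    M.orbit w (n + 1) = M.sys.next (M.orbit w n) := Function.iterate_succ_apply' _ _ _

/-- Until a halting control appears, the orbit represents machine configurations. -/
lemma orbit_rep (hM : M.Valid) {w : List ℕ} (hw : M.IsInput w) (n : ℕ)
    (h : ∀ j < n, (M.orbit w j).1 ∉ M.sys.lifts) :
    ∃ m, M.Rep (M.step^[m] (M.init w)) (M.orbit w n) := by
  induction n with
  | zero => exact ⟨0, rep_init hM hw⟩
  | succ n ih =>
    obtain ⟨m, hm⟩ := ih fun j hj => h j (by omega)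
    have hnh : (M.step^[m] (M.init w)).state ∉ M.halting := by
      rw [← hm.state, ← lifts_iff (by simpa [Sys.ctrls, sys] using hm.valid.1)]
      exact h n (by omega)
    obtain ⟨r, hr, hmatch, hcase⟩ := step_cases hM hm hnh
    rw [orbit_succ, (sys_ok hM).next_eq hr hmatch]
    rcases hcase with hc | ⟨hc, -⟩
    · exact ⟨m + 1, by rwa [Function.iterate_succ_apply']⟩
    · exact ⟨m, hc⟩

/-- As long as no halting control appears a rule applies. -/
lemma orbit_rule (hM : M.Valid) {w : List ℕ} (hw : M.IsInput w) (n : ℕ)
    (h : ∀ j ≤ n, (M.orbit w j).1 ∉ M.sys.lifts) :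
    ∃ r ∈ M.sys.rules, r.MatchPre (M.orbit w n) ∧ M.orbit w (n + 1) = r.app (M.orbit w n) := by
  obtain ⟨m, hm⟩ := orbit_rep hM hw n fun j hj => h j hj.le
  have hnh : (M.step^[m] (M.init w)).state ∉ M.halting := by
    rw [← hm.state, ← lifts_iff (by simpa [Sys.ctrls, sys] using hm.valid.1)]
    exact h n le_rfl
  obtain ⟨r, hr, hmatch, -⟩ := step_cases hM hm hnh
  exact ⟨r, hr, hmatch, by rw [orbit_succ, (sys_ok hM).next_eq hr hmatch]⟩

lemma orbit_valid (hM : M.Valid) {w : List ℕ} (hw : M.IsInput w) (n : ℕ)
    (h : ∀ j < n, (M.orbit w j).1 ∉ M.sys.lifts) : M.sys.ValidConf (M.orbit w n) :=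
  (orbit_rep hM hw n h).choose_spec.valid

lemma progress (hM : M.Valid) {w : List ℕ} {K : Config} (hnh : K.state ∉ M.halting) :
    ∀ (len n : ℕ), M.Rep K (M.orbit w n) → (M.popSide (M.orbit w n)).length = len →
      ∃ n', M.Rep (M.step K) (M.orbit w n') := by
  intro len
  induction len using Nat.strong_induction_on with
  | _ len ih =>
    intro n hn hlen
    obtain ⟨r, hr, hmatch, hcase⟩ := step_cases hM hn hnh
    have heq : M.orbit w (n + 1) = r.app (M.orbit w n) := by
      rw [orbit_succ, (sys_ok hM).next_eq hr hmatch]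
    rcases hcase with hc | ⟨hc, hlt⟩
    · exact ⟨n + 1, heq ▸ hc⟩
    · exact ih _ (hlen ▸ hlt) (n + 1) (heq ▸ hc) (by rw [heq])

/-- The machine halts exactly when the system reaches a halting control. -/
theorem halts_iff (hM : M.Valid) {w : List ℕ} (hw : M.IsInput w) :
    M.Halts w ↔ ∃ n, (M.orbit w n).1 ∈ M.sys.lifts := by
  constructor
  · rintro ⟨m, hm⟩
    by_contra hne
    have hne' : ∀ j, (M.orbit w j).1 ∉ M.sys.lifts := fun j hj => hne ⟨j, hj⟩
    have hall : ∀ m, ∃ n, M.Rep (M.step^[m] (M.init w)) (M.orbit w n) := by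
      intro m
      induction m with
      | zero => exact ⟨0, rep_init hM hw⟩
      | succ m ih =>
        obtain ⟨n, hn⟩ := ih
        rw [Function.iterate_succ_apply']
        refine progress hM ?_ _ n hn rfl
        rw [← hn.state, ← lifts_iff (by simpa [Sys.ctrls, sys] using hn.valid.1)]
        exact hne' n
    obtain ⟨n, hn⟩ := hall m
    exact hne' n ((lifts_iff (by simpa [Sys.ctrls, sys] using hn.valid.1)).mpr (hn.state ▸ hm))
  · intro hex
    classical
    have hn := Nat.find_spec hex
    obtain ⟨m, hm⟩ := orbit_rep hM hw _ fun j hj => Nat.find_min hex hj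
    exact ⟨m, hm.state ▸ (lifts_iff (by simpa [Sys.ctrls, sys] using hm.valid.1)).mp hn⟩

end Machine

end

end Vale.Agent.P113
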