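import Vale.Agent.P113.Velocity

/-!
The trajectory of the origin follows the orbit of the rewriting system.
-/

namespace Vale.Agent.P113

noncomputable section

/-- The value of one piece. -/
def pieceVal (a : Fin 3) (P : Piece) (x : Fin 3 → ℝ) : ℝ :=
  (P.summands.map fun s => (ratVal s.1 : ℝ) *
    (cut s.2.1 P.1 (x (oth₁ a)) * cut s.2.2 P.2.1 (x (oth₂ a)))).sum

lemma profile_eq_sum (a : Fin 3) (L : List Piece) (x : Fin 3 → ℝ) :
    profile a L x = (L.map fun P => pieceVal a P x).sum := by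
  induction L with
  | nil => simp [profile, allSummands]
  | cons P L ih =>
    simp only [profile, allSummands, List.flatMap_cons, List.map_append, List.sum_append] at ih ⊢
    rw [ih, List.map_cons, List.sum_cons]
    simp [pieceVal, List.map_map, Function.comp_def]

/-- A point is clear of a box. -/
def Box.Clear (B : Box) (x : ℝ) : Prop := 0 ≤ x ∧ x ≤ 1 ∧ (B.pos x ≤ -1 / 4 ∨ 5 / 4 ≤ B.pos x)

/-- A point is in a box. -/
def Box.Has (B : Box) (x : ℝ) : Prop := 0 ≤ x ∧ x ≤ 1 ∧ 0 ≤ B.pos x ∧ B.pos x ≤ 1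

lemma pieceVal_clear {a : Fin 3} {P : Piece} (hP : P.Good) {x : Fin 3 → ℝ}
    (h : P.1.Clear (x (oth₁ a)) ∨ P.2.1.Clear (x (oth₂ a))) : pieceVal a P x = 0 := by
  rcases h with ⟨h0, h1, h2⟩ | ⟨h0, h1, h2⟩
  · simp [pieceVal, Piece.summands, cut_outside hP.1 h0 h1 h2]
  · simp [pieceVal, Piece.summands, cut_outside hP.2 h0 h1 h2]

lemma pieceVal_zero {a : Fin 3} {P : Piece} (hP : P.Good) {x : Fin 3 → ℝ}
    (h : x (oth₁ a) = 0 ∨ x (oth₂ a) = 0) : pieceVal a P x = 0 := by
  rcases h with h | h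
  · simp [pieceVal, Piece.summands, h, cut_at_zero hP.1]
  · simp [pieceVal, Piece.summands, h, cut_at_zero hP.2]

lemma pieceVal_has {a : Fin 3} {P : Piece} (hP : P.Good) {x : Fin 3 → ℝ}
    (h₁ : P.1.Has (x (oth₁ a))) (h₂ : P.2.1.Has (x (oth₂ a))) :
    pieceVal a P x = (ratVal P.2.2.1 : ℝ) + (ratVal P.2.2.2.1 : ℝ) * x (oth₁ a) +
      (ratVal P.2.2.2.2 : ℝ) * x (oth₂ a) := by
  obtain ⟨a0, a1, a2, a3⟩ := h₁
  obtain ⟨b0, b1, b2, b3⟩ := h₂
  simp [pieceVal, Piece.summands, cut_inside hP.1 a0 a1 a2 a3, cut_inside hP.2 b0 b1 b2 b3]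
  ring

lemma sum_map_range_single {n i : ℕ} (hi : i < n) (f : ℕ → ℝ)
    (h : ∀ j, j < n → j ≠ i → f j = 0) : ((List.range n).map f).sum = f i := by
  rw [← List.sum_toFinset f List.nodup_range, List.toFinset_range,
    Finset.sum_eq_single_of_mem i (Finset.mem_range.mpr hi)]
  exact fun j hj hne => h j (Finset.mem_range.mp hj) hne

namespace Sys

variable {σ : Sys}

/-- The point coding a configuration, at height `z`. -/
def point (σ : Sys) (C : Conf) (z : ℝ) : Fin 3 → ℝ :=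
  ![emb σ.base σ.xScale C.1 C.2.1, emb σ.base 4 0 C.2.2, z]

/-- The shear of phase `j`. -/
def kick (σ : Sys) (j : Fin 6) (p : Fin 3 → ℝ) : Fin 3 → ℝ :=
  p + Pi.single (phaseAxis j) (profile (phaseAxis j) (σ.phase j) p)

lemma OK.emb_x (h : σ.OK) {C : Conf} (hC : σ.ValidConf C) :
    0 < emb σ.base σ.xScale C.1 C.2.1 ∧ emb σ.base σ.xScale C.1 C.2.1 < 1 :=
  emb_mem (by unfold Sys.xScale; have := hC.1; omega) _ hC.2.1

lemma OK.emb_y (h : σ.OK) {C : Conf} (hC : σ.ValidConf C) :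
    0 < emb σ.base 4 0 C.2.2 ∧ emb σ.base 4 0 C.2.2 < 1 :=
  emb_mem le_rfl _ hC.2.2

lemma OK.x_has (h : σ.OK) {C : Conf} (hC : σ.ValidConf C) {c : ℕ} {p : List ℕ}
    (hp : ∀ d ∈ p, d < σ.digits) (hm : C.1 = c ∧ Pre p C.2.1) :
    (σ.xBox c p).Has (emb σ.base σ.xScale C.1 C.2.1) ∧
      (σ.xBox c p).pos (emb σ.base σ.xScale C.1 C.2.1) = enc σ.base (C.2.1.drop p.length) := by
  have hx := h.emb_x hC
  have hpos : (σ.xBox c p).pos (emb σ.base σ.xScale C.1 C.2.1) =
      enc σ.base (C.2.1.drop p.length) := by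
    rw [← hm.1]
    exact embBox_pos_of_match h.digits_pos (by unfold Sys.xScale; omega) hp hC.2.1 hm.2
  have he : 0 ≤ enc σ.base (C.2.1.drop p.length) ∧ enc σ.base (C.2.1.drop p.length) ≤ 1 :=
    enc_mem _ fun d hd => hC.2.1 d (List.mem_of_mem_drop hd)
  exact ⟨⟨hx.1.le, hx.2.le, by rw [hpos]; exact he.1, by rw [hpos]; exact he.2⟩, hpos⟩

lemma OK.y_has (h : σ.OK) {C : Conf} (hC : σ.ValidConf C) {p : List ℕ}
    (hp : ∀ d ∈ p, d < σ.digits) (hm : Pre p C.2.2) :
    (σ.yBox p).Has (emb σ.base 4 0 C.2.2) ∧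
      (σ.yBox p).pos (emb σ.base 4 0 C.2.2) = enc σ.base (C.2.2.drop p.length) := by
  have hx := h.emb_y hC
  have hpos : (σ.yBox p).pos (emb σ.base 4 0 C.2.2) = enc σ.base (C.2.2.drop p.length) :=
    embBox_pos_of_match h.digits_pos (by norm_num) hp hC.2.2 hm
  have he : 0 ≤ enc σ.base (C.2.2.drop p.length) ∧ enc σ.base (C.2.2.drop p.length) ≤ 1 :=
    enc_mem _ fun d hd => hC.2.2 d (List.mem_of_mem_drop hd)
  exact ⟨⟨hx.1.le, hx.2.le, by rw [hpos]; exact he.1, by rw [hpos]; exact he.2⟩, hpos⟩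

lemma OK.x_clear (h : σ.OK) {C : Conf} (hC : σ.ValidConf C) {c : ℕ} {p : List ℕ}
    (hp : ∀ d ∈ p, d < σ.digits) (hm : ¬ (C.1 = c ∧ Pre p C.2.1)) :
    (σ.xBox c p).Clear (emb σ.base σ.xScale C.1 C.2.1) := by
  refine ⟨(h.emb_x hC).1.le, (h.emb_x hC).2.le, ?_⟩
  rcases embBox_pos_of_not (N := σ.xScale) (c := c) (c' := C.1) h.digits_pos
    (by unfold Sys.xScale; omega) hp hC.2.1 hm with h' | h'
  · exact Or.inl (by unfold Sys.xBox Sys.base; linarith)
  · exact Or.inr (by unfold Sys.xBox Sys.base; linarith)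

lemma OK.y_clear (h : σ.OK) {C : Conf} (hC : σ.ValidConf C) {p : List ℕ}
    (hp : ∀ d ∈ p, d < σ.digits) (hm : ¬ Pre p C.2.2) :
    (σ.yBox p).Clear (emb σ.base 4 0 C.2.2) := by
  refine ⟨(h.emb_y hC).1.le, (h.emb_y hC).2.le, ?_⟩
  rcases embBox_pos_of_not (N := 4) (c := 0) (c' := 0) h.digits_pos
    (by norm_num) hp hC.2.2 (fun hh => hm hh.2) with h' | h'
  · exact Or.inl (by unfold Sys.yBox Sys.base; linarith)
  · exact Or.inr (by unfold Sys.yBox Sys.base; linarith)

/-- The height used while rule `i` acts on a configuration with first coordinate `x`. -/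
def slotPoint (σ : Sys) (i : ℕ) (x : ℝ) : ℝ := (((σ.slot i).2 : ℝ) + x) / (σ.slot i).1

lemma slotPoint_bounds {i : ℕ} (hi : i < σ.rules.length) {x : ℝ} (h0 : 0 ≤ x) (h1 : x ≤ 1) :
    0 ≤ σ.slotPoint i x ∧ σ.slotPoint i x ≤ 1 / 2 := by
  have hi' : (i : ℝ) + 1 ≤ σ.rules.length := by exact_mod_cast hi
  have hS : (0 : ℝ) < (σ.slot i).1 := by simp only [Sys.slot]; positivity
  refine ⟨div_nonneg (by positivity) hS.le, ?_⟩
  rw [slotPoint, div_le_iff₀ hS]
  simp only [Sys.slot]; push_cast; linarith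

lemma slot_pos_slotPoint {i j : ℕ} (x : ℝ) :
    (σ.slot j).pos (σ.slotPoint i x) = 2 * ((i : ℝ) - j) + x := by
  have hne : ((4 * σ.rules.length + 8 : ℕ) : ℝ) ≠ 0 := by positivity
  simp only [Box.pos, slotPoint, Sys.slot]
  rw [mul_div_cancel₀ _ hne]
  push_cast; ring

lemma slot_has {i : ℕ} (hi : i < σ.rules.length) {x : ℝ} (h0 : 0 ≤ x) (h1 : x ≤ 1) :
    (σ.slot i).Has (σ.slotPoint i x) := by
  obtain ⟨a, b⟩ := slotPoint_bounds hi h0 h1
  exact ⟨a, by linarith, by rw [slot_pos_slotPoint]; linarith, by rw [slot_pos_slotPoint]; linarith⟩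

lemma slot_clear {i j : ℕ} (hi : i < σ.rules.length) (hne : j ≠ i) {x : ℝ} (h0 : 0 ≤ x)
    (h1 : x ≤ 1) : (σ.slot j).Clear (σ.slotPoint i x) := by
  obtain ⟨a, b⟩ := slotPoint_bounds hi h0 h1
  refine ⟨a, by linarith, ?_⟩
  rw [slot_pos_slotPoint]
  rcases lt_or_gt_of_ne hne with h | h
  · have : (j : ℝ) + 1 ≤ i := by exact_mod_cast h
    right; linarith
  · have : (i : ℝ) + 1 ≤ j := by exact_mod_cast h
    left; linarith

lemma OK.rule_inj (h : σ.OK) {i j : ℕ} (hi : i < σ.rules.length) (hj : j < σ.rules.length)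
    (he : σ.rule i = σ.rule j) : i = j := by
  unfold Sys.rule at he
  rw [List.getD_eq_getElem _ _ hi, List.getD_eq_getElem _ _ hj] at he
  exact (h.nodup.getElem_inj_iff).mp he

lemma box_map {D D' U U' x x' : ℝ} (hD' : D' ≠ 0) (h : D' * x' - U' = D * x - U) :
    x' = (D * x - U + U') / D' := by
  rw [eq_div_iff hD']; linarith

/-- One period of shears executes one rule. -/
lemma OK.stages (h : σ.OK) {C : Conf} (hC : σ.ValidConf C) (hl : C.1 ∉ σ.lifts) {r : Rw}
    (hr : r ∈ σ.rules) (hm : r.MatchPre C) :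
    ∃ z : ℝ, 0 ≤ z ∧ z ≤ 1 / 2 ∧
      σ.kick 0 (σ.point C 0) = σ.point C 0 ∧
      σ.kick 1 (σ.point C 0) = σ.point C z ∧
      σ.kick 2 (σ.point C z) = ![emb σ.base 4 0 (r.app C).2.2, emb σ.base 4 0 C.2.2, z] ∧
      σ.kick 3 ![emb σ.base 4 0 (r.app C).2.2, emb σ.base 4 0 C.2.2, z] =
        ![emb σ.base 4 0 (r.app C).2.2, emb σ.base 4 0 (r.app C).2.2, z] ∧
      σ.kick 4 ![emb σ.base 4 0 (r.app C).2.2, emb σ.base 4 0 (r.app C).2.2, z] =
        σ.point (r.app C) z ∧
      σ.kick 5 (σ.point (r.app C) z) = σ.point (r.app C) 0 := by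
  obtain ⟨i, hi, hri⟩ := List.mem_iff_getElem.mp hr
  have hrule : σ.rule i = r := by unfold Sys.rule; rw [List.getD_eq_getElem _ _ hi, hri]
  obtain ⟨h1, h2, h3, h4, h5, h6⟩ := h.rule_lt r hr
  set C' := r.app C with hC'def
  have hC' : σ.ValidConf C' := h.app_valid hr hC
  have hpost : r.MatchPost C' := r.matchPost_app C
  set x := emb σ.base σ.xScale C.1 C.2.1 with hx
  set y := emb σ.base 4 0 C.2.2 with hy
  set x' := emb σ.base σ.xScale C'.1 C'.2.1 with hx'
  set y' := emb σ.base 4 0 C'.2.2 with hy'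
  obtain ⟨hx0, hx1⟩ := h.emb_x hC
  set z := σ.slotPoint i x with hz
  obtain ⟨hz0, hz1⟩ := slotPoint_bounds hi hx0.le hx1.le
  have hgood := h.good
  obtain ⟨hxb, hxp⟩ := h.x_has hC h3 ⟨hm.1, hm.2.1⟩
  obtain ⟨hyb, hyp⟩ := h.y_has hC h4 hm.2.2
  obtain ⟨hxb', hxp'⟩ := h.x_has hC' h5 ⟨hpost.1, hpost.2.1⟩
  obtain ⟨hyb', hyp'⟩ := h.y_has hC' h6 hpost.2.2
  have hL : C'.2.1.drop r.pushL.length = C.2.1.drop r.popL.length := by
    simp [hC'def, Rw.app]
  have hR : C'.2.2.drop r.pushR.length = C.2.2.drop r.popR.length := by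
    simp [hC'def, Rw.app]
  have eX : ((σ.xBox r.tgt r.pushL).1 : ℝ) * x' - (σ.xBox r.tgt r.pushL).2 =
      ((σ.xBox r.src r.popL).1 : ℝ) * x - (σ.xBox r.src r.popL).2 := by
    have a := hxp; have b := hxp'
    rw [hL] at b
    simp only [Box.pos] at a b
    rw [hx, hx']; linarith
  have eY : ((σ.yBox r.pushR).1 : ℝ) * y' - (σ.yBox r.pushR).2 =
      ((σ.yBox r.popR).1 : ℝ) * y - (σ.yBox r.popR).2 := by
    have a := hyp; have b := hyp'
    rw [hR] at b
    simp only [Box.pos] at a b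
    rw [hy, hy']; linarith
  have hS : ((σ.slot i).1 : ℝ) ≠ 0 := by simp only [Sys.slot]; positivity
  have hDx : ((σ.xBox r.src r.popL).1 : ℝ) ≠ 0 := by
    have := (h.xBox_inside h1 h3).2; exact_mod_cast (show (σ.xBox r.src r.popL).1 ≠ 0 by omega)
  have hDx' : ((σ.xBox r.tgt r.pushL).1 : ℝ) ≠ 0 := by
    have := (h.xBox_inside h2 h5).2; exact_mod_cast (show (σ.xBox r.tgt r.pushL).1 ≠ 0 by omega)
  have hDy : ((σ.yBox r.popR).1 : ℝ) ≠ 0 := by
    have := (h.yBox_inside h4).2; exact_mod_cast (show (σ.yBox r.popR).1 ≠ 0 by omega)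
  have hDy' : ((σ.yBox r.pushR).1 : ℝ) ≠ 0 := by
    have := (h.yBox_inside h6).2; exact_mod_cast (show (σ.yBox r.pushR).1 ≠ 0 by omega)
  have hSz : ((σ.slot i).1 : ℝ) * z = (σ.slot i).2 + x := by
    rw [hz, slotPoint, mul_div_cancel₀ _ hS]
  have hpiece : ∀ (a : Fin 3) (f : ℕ → Piece) (p : Fin 3 → ℝ),
      (∀ j, j < σ.rules.length → (f j).Good) →
      (∀ j, j < σ.rules.length → j ≠ i →
        (f j).1.Clear (p (oth₁ a)) ∨ (f j).2.1.Clear (p (oth₂ a))) →
      profile a ((List.range σ.rules.length).map f) p = pieceVal a (f i) p := by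
    intro a f p hg hc
    rw [profile_eq_sum, List.map_map]
    exact sum_map_range_single hi _ fun j hj hne => pieceVal_clear (hg j hj) (hc j hj hne)
  have hg1 : ∀ j, j < σ.rules.length → (σ.piece1 j).Good := fun j hj =>
    hgood 1 _ (List.mem_map_of_mem (List.mem_range.mpr hj))
  have hg2 : ∀ j, j < σ.rules.length → (σ.piece2 j).Good := fun j hj =>
    hgood 2 _ (List.mem_map_of_mem (List.mem_range.mpr hj))
  have hg3 : ∀ j, j < σ.rules.length → (σ.piece3 j).Good := fun j hj =>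
    hgood 3 _ (List.mem_map_of_mem (List.mem_range.mpr hj))
  have hg4 : ∀ j, j < σ.rules.length → (σ.piece4 j).Good := fun j hj =>
    hgood 4 _ (List.mem_map_of_mem (List.mem_range.mpr hj))
  have hg5 : ∀ j, j < σ.rules.length → (σ.piece5 j).Good := fun j hj =>
    hgood 5 _ (List.mem_map_of_mem (List.mem_range.mpr hj))
  have p0 : profile 2 σ.phase0 (σ.point C 0) = 0 := by
    rw [profile_eq_sum, Sys.phase0, List.map_map]
    refine List.sum_eq_zero fun v hv => ?_
    obtain ⟨c, hc, rfl⟩ := List.mem_map.mp hv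
    refine pieceVal_clear (hgood 0 _ (List.mem_map_of_mem hc)) (Or.inl ?_)
    exact h.x_clear hC (by simp) fun he => hl (he.1 ▸ hc)
  have p1 : profile 2 σ.phase1 (σ.point C 0) = z := by
    rw [Sys.phase1, hpiece 2 _ _ hg1 ?_]
    · rw [pieceVal_has (hg1 i hi)]
      · simp [Sys.piece1, hrule, ratVal, Sys.point, oth₁, oth₂, hz, slotPoint, hx]
        ring
      · simpa [Sys.piece1, hrule, Sys.point, oth₁] using hxb
      · simpa [Sys.piece1, hrule, Sys.point, oth₂] using hyb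
    · intro j hj hne
      have hj' := h.rule_lt _ (rule_mem σ hj)
      have hnm : ¬ (σ.rule j).MatchPre C := fun hh =>
        hne (h.rule_inj hj hi ((h.det r hr _ (rule_mem σ hj) C hm hh).trans hrule.symm))
      by_cases hA : C.1 = (σ.rule j).src ∧ Pre (σ.rule j).popL C.2.1
      · exact Or.inr (by
          simpa [Sys.piece1, Sys.point, oth₂] using
            h.y_clear hC hj'.2.2.2.1 fun hh => hnm ⟨hA.1, hA.2, hh⟩)
      · exact Or.inl (by
          simpa [Sys.piece1, Sys.point, oth₁] using h.x_clear hC hj'.2.2.1 hA)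
  have p2 : profile 0 σ.phase2 (σ.point C z) = y' - x := by
    rw [Sys.phase2, hpiece 0 _ _ hg2 ?_]
    · rw [pieceVal_has (hg2 i hi)]
      · simp only [Sys.piece2, hrule, Sys.point, oth₁, oth₂, if_pos, ratVal]
        simp
        rw [box_map hDy' eY]
        field_simp
        rw [← hy]
        linear_combination -((σ.yBox r.pushR).1 : ℝ) * hSz
      · simpa [Sys.piece2, hrule, Sys.point, oth₁] using hyb
      · simpa [Sys.piece2, Sys.point, oth₂] using slot_has hi hx0.le hx1.le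
    · intro j hj hne
      exact Or.inr (by simpa [Sys.piece2, Sys.point, oth₂] using slot_clear hi hne hx0.le hx1.le)
  have p3 : profile 1 σ.phase3 ![y', y, z] = y' - y := by
    rw [Sys.phase3, hpiece 1 _ _ hg3 ?_]
    · rw [pieceVal_has (hg3 i hi)]
      · simp only [Sys.piece3, hrule, oth₁, oth₂, ratVal]
        simp
        field_simp
        linarith [eY]
      · simpa [Sys.piece3, hrule, oth₁] using hyb'
      · simpa [Sys.piece3, oth₂] using slot_has hi hx0.le hx1.le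
    · intro j hj hne
      exact Or.inr (by simpa [Sys.piece3, oth₂] using slot_clear hi hne hx0.le hx1.le)
  have p4 : profile 0 σ.phase4 ![y', y', z] = x' - y' := by
    rw [Sys.phase4, hpiece 0 _ _ hg4 ?_]
    · rw [pieceVal_has (hg4 i hi)]
      · simp only [Sys.piece4, hrule, oth₁, oth₂, ratVal]
        simp
        field_simp
        linear_combination ((σ.xBox r.src r.popL).1 : ℝ) * hSz - eX
      · simpa [Sys.piece4, hrule, oth₁] using hyb'
      · simpa [Sys.piece4, oth₂] using slot_has hi hx0.le hx1.le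
    · intro j hj hne
      exact Or.inr (by simpa [Sys.piece4, oth₂] using slot_clear hi hne hx0.le hx1.le)
  have p5 : profile 2 σ.phase5 (σ.point C' z) = -z := by
    rw [Sys.phase5, hpiece 2 _ _ hg5 ?_]
    · rw [pieceVal_has (hg5 i hi)]
      · simp only [Sys.piece5, hrule, Sys.point, oth₁, oth₂, ratVal]
        simp
        rw [← hx']
        field_simp
        linear_combination ((σ.xBox r.src r.popL).1 : ℝ) * hSz - eX
      · simpa [Sys.piece5, hrule, Sys.point, oth₁] using hxb'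
      · simpa [Sys.piece5, hrule, Sys.point, oth₂] using hyb'
    · intro j hj hne
      have hj' := h.rule_lt _ (rule_mem σ hj)
      have hnm : ¬ (σ.rule j).MatchPost C' := fun hh =>
        hne (h.rule_inj hj hi ((h.rev r hr _ (rule_mem σ hj) C hm hh).trans hrule.symm))
      by_cases hA : C'.1 = (σ.rule j).tgt ∧ Pre (σ.rule j).pushL C'.2.1
      · exact Or.inr (by
          simpa [Sys.piece5, Sys.point, oth₂] using
            h.y_clear hC' hj'.2.2.2.2.2 fun hh => hnm ⟨hA.1, hA.2, hh⟩)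
      · exact Or.inl (by
          simpa [Sys.piece5, Sys.point, oth₁] using h.x_clear hC' hj'.2.2.2.2.1 hA)
  refine ⟨z, hz0, hz1, ?_, ?_, ?_, ?_, ?_, ?_⟩ <;> funext k <;> fin_cases k <;>
    simp [Sys.kick, phaseAxis, Sys.phase, p0, p1, p2, p3, p4, p5] <;>
    simp [Sys.point, hx, hy, hx', hy']

/-- At a halting control the first phase lifts the height to `3/4`. -/
lemma OK.kick_lift (h : σ.OK) {C : Conf} (hC : σ.ValidConf C) (hl : C.1 ∈ σ.lifts) :
    σ.kick 0 (σ.point C 0) = σ.point C (3 / 4) := by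
  have hgood := h.good
  have p0 : profile 2 σ.phase0 (σ.point C 0) = 3 / 4 := by
    rw [profile_eq_sum, Sys.phase0, List.map_map]
    rw [← List.sum_toFinset _ h.lift_nodup,
      Finset.sum_eq_single_of_mem C.1 (List.mem_toFinset.mpr hl)]
    · simp only [Function.comp]
      rw [pieceVal_has (hgood 0 _ (List.mem_map_of_mem hl))]
      · norm_num [ratVal]
      · simpa [Sys.point, oth₁] using (h.x_has hC (p := []) (by simp) ⟨rfl, trivial⟩).1
      · simpa [Sys.point, oth₂] using (h.y_has hC (p := []) (by simp) trivial).1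
    · intro c hc hne
      refine pieceVal_clear (hgood 0 _ (List.mem_map_of_mem (List.mem_toFinset.mp hc))) (Or.inl ?_)
      exact h.x_clear hC (by simp) fun he => hne he.1.symm
  funext k
  fin_cases k <;> simp [Sys.kick, phaseAxis, Sys.phase, p0] <;> simp [Sys.point]

/-- The origin is untouched by the periodic phases. -/
lemma OK.kick_origin (h : σ.OK) (j : Fin 6) : σ.kick j 0 = 0 := by
  have : profile (phaseAxis j) (σ.phase j) 0 = 0 := by
    rw [profile_eq_sum]
    refine List.sum_eq_zero fun v hv => ?_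
    obtain ⟨P, hP, rfl⟩ := List.mem_map.mp hv
    exact pieceVal_zero (h.good j P hP) (Or.inl rfl)
  simp [Sys.kick, this]

end Sys

end

end Vale.Agent.P113
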