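import Vale.Agent.P113.Fields

/-!
The velocity field solves the forced equations with zero pressure.
-/

namespace Vale.Agent.P113

open scoped ContDiff

noncomputable section

/-- The speed profile of phase `j`. -/
def theta (j : ℕ) (t : ℝ) : ℝ := 24 / kappa * periodize (bumpFn (phaseBump 0 j)) t

def thetaDeriv (j : ℕ) (t : ℝ) : ℝ := 576 / kappa * periodize (bumpFn (phaseBump 1 j)) t

/-- The speed profile of the transient phase. -/
def lam (t : ℝ) : ℝ := 4 / kappa * bumpFn (loadBump 0) t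

def lamDeriv (t : ℝ) : ℝ := 16 / kappa * bumpFn (loadBump 1) t

/-- The axis of phase `j`. -/
def phaseAxis (j : Fin 6) : Fin 3 := ![2, 2, 0, 1, 0, 2] j

def Sys.phase (σ : Sys) (j : Fin 6) : List Piece :=
  ![σ.phase0, σ.phase1, σ.phase2, σ.phase3, σ.phase4, σ.phase5] j

/-- The displacement loading the input. -/
def Sys.load (σ : Sys) (c₀ : ℕ) (w : List ℕ) : Fin 3 → ℝ :=
  ![((σ.xBox c₀ []).2 : ℝ) / (σ.xBox c₀ []).1, ((σ.yBox w).2 : ℝ) / (σ.yBox w).1, 0]

/-- The velocity field. -/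
def Sys.vel (σ : Sys) (c₀ : ℕ) (w : List ℕ) (t : ℝ) (x : Fin 3 → ℝ) : Fin 3 → ℝ :=
  fun i => ∑ j : Fin 6,
    (if phaseAxis j = i then theta j t * profile (phaseAxis j) (σ.phase j) x else 0) +
      lam t * σ.load c₀ w i

/-- All boxes of the pieces are inside. -/
def Sys.Good (σ : Sys) : Prop := ∀ j : Fin 6, ∀ P ∈ σ.phase j, P.Good

lemma rule_mem (σ : Sys) {i : ℕ} (hi : i < σ.rules.length) : σ.rule i ∈ σ.rules := by
  unfold Sys.rule
  rw [List.getD_eq_getElem _ _ hi]
  exact List.getElem_mem hi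

lemma slot_inside (σ : Sys) {i : ℕ} (hi : i < σ.rules.length) : (σ.slot i).Inside :=
  ⟨by simp [Sys.slot], by simp only [Sys.slot]; omega⟩

lemma Sys.OK.xBox_inside {σ : Sys} (h : σ.OK) {c : ℕ} (hc : c < σ.ctrls) {p : List ℕ}
    (hp : ∀ d ∈ p, d < σ.digits) : (σ.xBox c p).Inside := by
  exact embBox_inside (by unfold Sys.xScale; omega) p hp

lemma Sys.OK.yBox_inside {σ : Sys} (h : σ.OK) {p : List ℕ} (hp : ∀ d ∈ p, d < σ.digits) :
    (σ.yBox p).Inside :=
  embBox_inside (c := 0) le_rfl p hp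

lemma Sys.OK.good {σ : Sys} (h : σ.OK) : σ.Good := by
  intro j P hP
  have hnil : ∀ d ∈ ([] : List ℕ), d < σ.digits := by simp
  fin_cases j <;>
    simp [Sys.phase, Sys.phase0, Sys.phase1, Sys.phase2, Sys.phase3, Sys.phase4, Sys.phase5]
      at hP <;> obtain ⟨i, hi, rfl⟩ := hP
  · exact ⟨h.xBox_inside (h.lift_lt i hi) hnil, h.yBox_inside hnil⟩
  all_goals obtain ⟨h1, h2, h3, h4, h5, h6⟩ := h.rule_lt _ (rule_mem σ hi)
  · exact ⟨h.xBox_inside h1 h3, h.yBox_inside h4⟩
  · exact ⟨h.yBox_inside h4, slot_inside σ hi⟩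
  · exact ⟨h.yBox_inside h6, slot_inside σ hi⟩
  · exact ⟨h.yBox_inside h6, slot_inside σ hi⟩
  · exact ⟨h.xBox_inside h2 h5, h.yBox_inside h6⟩

/-! ### Time profiles -/

lemma phaseBump_valid (d j : ℕ) : bumpValid (phaseBump d j) := by
  simp [phaseBump, bumpValid, ratVal]

lemma loadBump_valid (d : ℕ) : bumpValid (loadBump d) := by
  simp [loadBump, bumpValid, ratVal]

lemma phaseBump_apply (d j : ℕ) (t : ℝ) :
    bumpFn (phaseBump d j) t = iteratedDeriv d rho (24 * t - (2 * (j : ℝ) + 1)) := by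
  simp only [phaseBump, bumpFn, pow_zero, one_mul, ratVal]
  congr 1
  push_cast; ring

lemma loadBump_apply (d : ℕ) (t : ℝ) :
    bumpFn (loadBump d) t = iteratedDeriv d rho (4 * t - 3) := by
  simp only [loadBump, bumpFn, pow_zero, one_mul, ratVal]
  congr 1
  push_cast; ring

lemma theta_contDiff (j : ℕ) : ContDiff ℝ ∞ (theta j) :=
  contDiff_const.mul
    ((bumpFn_boundedSupport (phaseBump_valid 0 j)).periodize_contDiff (bumpFn_contDiff _))

lemma lam_contDiff : ContDiff ℝ ∞ lam := contDiff_const.mul (bumpFn_contDiff _)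

lemma theta_hasDerivAt (j : ℕ) (t : ℝ) : HasDerivAt (theta j) (thetaDeriv j t) t := by
  have hb := bumpFn_boundedSupport (phaseBump_valid 0 j)
  have hd : ∀ s, HasDerivAt (bumpFn (phaseBump 0 j)) (24 * bumpFn (phaseBump 1 j) s) s := by
    intro s
    rw [funext (phaseBump_apply 0 j), phaseBump_apply, iteratedDeriv_one, iteratedDeriv_zero]
    have h1 : HasDerivAt (fun s : ℝ => 24 * s - (2 * (j : ℝ) + 1)) 24 s := by
      simpa using ((hasDerivAt_id s).const_mul (24 : ℝ)).sub_const (2 * (j : ℝ) + 1)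
    have h2 := ((rho_contDiff.differentiable (by simp) _).hasDerivAt).comp s h1
    exact h2.congr_deriv (mul_comm _ _)
  have h := (hb.periodize_hasDerivAt hd t).const_mul (24 / kappa)
  have hval : periodize (fun s => 24 * bumpFn (phaseBump 1 j) s) t =
      24 * periodize (bumpFn (phaseBump 1 j)) t := by
    unfold periodize; exact tsum_mul_left
  rw [hval] at h
  refine h.congr_deriv ?_
  simp only [thetaDeriv]; ring

lemma lam_hasDerivAt (t : ℝ) : HasDerivAt lam (lamDeriv t) t := by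
  have hd : HasDerivAt (bumpFn (loadBump 0)) (4 * bumpFn (loadBump 1) t) t := by
    rw [funext (loadBump_apply 0), loadBump_apply, iteratedDeriv_one, iteratedDeriv_zero]
    have h1 : HasDerivAt (fun s : ℝ => 4 * s - 3) 4 t := by
      simpa using ((hasDerivAt_id t).const_mul (4 : ℝ)).sub_const 3
    have h2 := ((rho_contDiff.differentiable (by simp) _).hasDerivAt).comp t h1
    exact h2.congr_deriv (mul_comm _ _)
  refine (hd.const_mul (4 / kappa)).congr_deriv ?_
  simp only [lamDeriv]; ring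

lemma phaseBump_eq_zero (j : ℕ) {s : ℝ} (h : s ≤ (2 * (j : ℝ)) / 24 ∨ (2 * (j : ℝ) + 2) / 24 ≤ s) :
    bumpFn (phaseBump 0 j) s = 0 := by
  rw [phaseBump_apply, iteratedDeriv_zero]
  apply rho_eq_zero
  rcases h with h | h
  · rw [abs_of_nonpos (by linarith)]; linarith
  · rw [abs_of_nonneg (by linarith)]; linarith

lemma periodize_phaseBump {j : ℕ} (hj : j < 6) {y : ℝ} (h0 : 0 ≤ y) (h1 : y ≤ 1) :
    periodize (bumpFn (phaseBump 0 j)) y = bumpFn (phaseBump 0 j) y := by
  have hj' : (j : ℝ) + 1 ≤ 6 := by exact_mod_cast hj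
  exact periodize_eq_self (by positivity) (by linarith)
    (fun s hs => phaseBump_eq_zero j hs) h0 h1

lemma theta_ne_zero {j : ℕ} (hj : j < 6) {t : ℝ} (h : theta j t ≠ 0) :
    2 * (j : ℝ) / 24 < t - ⌊t⌋ ∧ t - ⌊t⌋ < (2 * (j : ℝ) + 2) / 24 := by
  by_contra hc
  apply h
  have h1 : periodize (bumpFn (phaseBump 0 j)) t = periodize (bumpFn (phaseBump 0 j)) (t - ⌊t⌋) := by
    rw [← periodize_add_int _ (t - ⌊t⌋) ⌊t⌋]; congr 1; ring
  rw [theta, h1, periodize_phaseBump hj (by linarith [Int.floor_le t])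
    (by linarith [Int.lt_floor_add_one t]), phaseBump_eq_zero j ?_, mul_zero]
  by_contra hh
  push Not at hh
  exact hc hh

lemma lam_ne_zero {t : ℝ} (h : lam t ≠ 0) : 1 / 2 < t ∧ t < 1 := by
  by_contra hc
  apply h
  rw [lam, loadBump_apply, iteratedDeriv_zero, rho_eq_zero, mul_zero]
  by_contra hh
  have := abs_lt.mp (not_le.mp hh)
  exact hc ⟨by linarith, by linarith⟩

lemma theta_mul_theta {j k : ℕ} (hj : j < 6) (hk : k < 6) (hne : j ≠ k) (t : ℝ) :
    theta j t * theta k t = 0 := by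
  by_contra h
  obtain ⟨h1, h2⟩ := theta_ne_zero hj (left_ne_zero_of_mul h)
  obtain ⟨h3, h4⟩ := theta_ne_zero hk (right_ne_zero_of_mul h)
  rcases lt_or_gt_of_ne hne with h' | h'
  · have : (j : ℝ) + 1 ≤ k := by exact_mod_cast h'
    linarith
  · have : (k : ℝ) + 1 ≤ j := by exact_mod_cast h'
    linarith

lemma lam_mul_theta {k : ℕ} (hk : k < 6) (t : ℝ) : lam t * theta k t = 0 := by
  by_contra h
  obtain ⟨h1, h2⟩ := lam_ne_zero (left_ne_zero_of_mul h)
  obtain ⟨h3, h4⟩ := theta_ne_zero hk (right_ne_zero_of_mul h)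
  have hf : ⌊t⌋ = 0 := Int.floor_eq_zero_iff.mpr ⟨by linarith, h2⟩
  rw [hf] at h4
  have : (k : ℝ) + 1 ≤ 6 := by exact_mod_cast hk
  simp at h4
  linarith

/-! ### The equations -/

variable {σ : Sys}

lemma vel_contDiff (hg : σ.Good) (c₀ : ℕ) (w : List ℕ) :
    ContDiff ℝ ∞ fun z : ℝ × (Fin 3 → ℝ) => σ.vel c₀ w z.1 z.2 := by
  rw [contDiff_pi]
  intro i
  refine (ContDiff.sum fun j _ => ?_).add
    ((lam_contDiff.comp contDiff_fst).mul contDiff_const)
  split_ifs
  · exact ((theta_contDiff _).comp contDiff_fst).mul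
      ((profile_contDiff (hg j)).comp contDiff_snd)
  · exact contDiff_const

lemma vel_periodic (c₀ : ℕ) (w : List ℕ) (t : ℝ) : SpatiallyPeriodic (σ.vel c₀ w t) := by
  intro x k
  funext i
  simp only [Sys.vel]
  congr 1
  refine Finset.sum_congr rfl fun j _ => ?_
  rw [profile_periodic _ _ x k]

lemma vel_zero (c₀ : ℕ) (w : List ℕ) (x : Fin 3 → ℝ) : σ.vel c₀ w 0 x = 0 := by
  funext i
  have hl : lam 0 = 0 := by
    by_contra h; have := (lam_ne_zero h).1; linarith
  have ht : ∀ j : Fin 6, theta (j : ℕ) 0 = 0 := by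
    intro j; by_contra h
    have := (theta_ne_zero j.isLt h).1
    simp at this
    exact absurd this (not_lt.mpr (by positivity))
  simp [Sys.vel, hl, ht]

lemma pd_vel (hg : σ.Good) (c₀ : ℕ) (w : List ℕ) (t : ℝ) (i k : Fin 3) (x : Fin 3 → ℝ) :
    pd k (fun y => σ.vel c₀ w t y i) x =
      ∑ j : Fin 6, if phaseAxis j = i then theta j t * pd k (profile (phaseAxis j) (σ.phase j)) x
        else 0 := by
  have hd : ∀ j : Fin 6, DifferentiableAt ℝ (profile (phaseAxis j) (σ.phase j)) x := fun j =>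
    (profile_contDiff (hg j)).differentiable (by simp) x
  simp only [pd, Sys.vel]
  rw [fderiv_add_const, fderiv_fun_sum]
  · rw [sum_apply]
    refine Finset.sum_congr rfl fun j _ => ?_
    split_ifs
    · rw [fderiv_const_mul (hd j)]; simp
    · simp
  · intro j _
    split_ifs
    · exact (hd j).const_mul _
    · exact differentiableAt_const _

lemma pd_pd_vel (hg : σ.Good) (c₀ : ℕ) (w : List ℕ) (t : ℝ) (i k : Fin 3) (x : Fin 3 → ℝ) :
    pd k (pd k fun y => σ.vel c₀ w t y i) x =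
      ∑ j : Fin 6, if phaseAxis j = i then
        theta j t * pd k (pd k (profile (phaseAxis j) (σ.phase j))) x else 0 := by
  rw [show pd k (fun y => σ.vel c₀ w t y i) = _ from funext (pd_vel hg c₀ w t i k)]
  have hd : ∀ j : Fin 6, DifferentiableAt ℝ (pd k (profile (phaseAxis j) (σ.phase j))) x := by
    intro j
    have h : ContDiff ℝ ∞ fun y => fderiv ℝ (profile (phaseAxis j) (σ.phase j)) y (Pi.single k 1) :=
      ((profile_contDiff (hg j)).fderiv_right (m := ∞) le_rfl).clm_apply contDiff_const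
    exact h.differentiable (by simp) x
  unfold pd at hd ⊢
  rw [fderiv_fun_sum]
  · rw [sum_apply]
    refine Finset.sum_congr rfl fun j _ => ?_
    split_ifs
    · rw [fderiv_const_mul (hd j)]; simp
    · simp
  · intro j _
    split_ifs
    · exact (hd j).const_mul _
    · exact differentiableAt_const _

lemma div_vel (hg : σ.Good) (c₀ : ℕ) (w : List ℕ) (t : ℝ) (x : Fin 3 → ℝ) :
    ∑ k, pd k (fun y => σ.vel c₀ w t y k) x = 0 := by
  simp only [pd_vel hg]
  rw [Finset.sum_comm]
  refine Finset.sum_eq_zero fun j _ => ?_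
  rw [Finset.sum_ite_eq]
  simp [pd_profile_axis (hg j)]

lemma convection_vel (hg : σ.Good) (c₀ : ℕ) (w : List ℕ) (t : ℝ) (x : Fin 3 → ℝ) (i : Fin 3) :
    ∑ k, σ.vel c₀ w t x k * pd k (fun y => σ.vel c₀ w t y i) x = 0 := by
  simp only [pd_vel hg, Finset.mul_sum]
  rw [Finset.sum_comm]
  refine Finset.sum_eq_zero fun j _ => ?_
  split_ifs
  swap
  · simp
  refine Finset.sum_eq_zero fun k _ => ?_
  simp only [Sys.vel, add_mul, Finset.sum_mul]
  rw [Finset.sum_eq_zero, zero_add]
  · rw [show lam t * σ.load c₀ w k * (theta j t * pd k (profile (phaseAxis j) (σ.phase j)) x) =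
      lam t * theta j t * (σ.load c₀ w k * pd k (profile (phaseAxis j) (σ.phase j)) x) by ring,
      lam_mul_theta j.isLt, zero_mul]
  · intro l _
    split_ifs with hl
    · rcases eq_or_ne l j with rfl | hne
      · rw [← hl, pd_profile_axis (hg l)]; ring
      · rw [show theta l t * profile (phaseAxis l) (σ.phase l) x *
            (theta j t * pd k (profile (phaseAxis j) (σ.phase j)) x) =
          theta l t * theta j t * (profile (phaseAxis l) (σ.phase l) x *
            pd k (profile (phaseAxis j) (σ.phase j)) x) by ring,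
          theta_mul_theta l.isLt j.isLt (fun h => hne (Fin.ext h)), zero_mul]
    · simp

/-- The force matching the velocity field. -/
def Sys.velForce (σ : Sys) (ν : ℝ) (c₀ : ℕ) (w : List ℕ) (t : ℝ) (x : Fin 3 → ℝ) : Fin 3 → ℝ :=
  fun i => ∑ j : Fin 6,
    (if phaseAxis j = i then thetaDeriv j t * profile (phaseAxis j) (σ.phase j) x -
        ν * (theta j t * profileLap (phaseAxis j) (σ.phase j) x) else 0) +
      lamDeriv t * σ.load c₀ w i

lemma vel_solution (hg : σ.Good) (ν : ℝ) (c₀ : ℕ) (w : List ℕ) :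
    IsGlobalSmoothSolution ν (σ.velForce ν c₀ w) (σ.vel c₀ w) (fun _ _ => 0) := by
  refine ⟨vel_contDiff hg c₀ w, contDiff_const, fun t => ⟨vel_periodic c₀ w t, fun _ _ => rfl⟩,
    vel_zero c₀ w, fun t _ x => div_vel hg c₀ w t x, fun t _ => by simp [spatialMean], ?_⟩
  intro t _ x i
  have hd : HasDerivAt (fun s => σ.vel c₀ w s x i)
      (∑ j : Fin 6, (if phaseAxis j = i then thetaDeriv j t * profile (phaseAxis j) (σ.phase j) x
        else 0) + lamDeriv t * σ.load c₀ w i) t := by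
    refine (HasDerivAt.fun_sum fun j _ => ?_).add ((lam_hasDerivAt t).mul_const _)
    split_ifs
    · exact (theta_hasDerivAt _ t).mul_const _
    · exact hasDerivAt_const _ _
  rw [hd.deriv, convection_vel hg]
  simp only [pd_pd_vel hg, Sys.velForce]
  rw [Finset.sum_comm, Finset.mul_sum]
  have hp : pd i (fun _ : Fin 3 → ℝ => (0 : ℝ)) x = 0 := by simp [pd]
  rw [hp, neg_zero, zero_add, add_zero]
  rw [← add_assoc, ← Finset.sum_add_distrib]
  congr 1
  refine Finset.sum_congr rfl fun j _ => ?_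
  split_ifs
  · rw [← Finset.mul_sum, profile_lap (hg j)]; ring
  · simp

/-! ### The compiled terms evaluate to this force -/

lemma spaceLists_prod (a : Fin 3) (l₁ l₂ : List Bump) (q : RatCode) (m : ℕ) (n : ℤ)
    (T : List (Bool × Bump)) (x : Fin 3 → ℝ) :
    Term.spaceFn ((q, m, n, [], T, spaceLists a l₁ l₂) : Term) x =
      (l₁.map fun g => periodize (bumpFn g) (x (oth₁ a))).prod *
        (l₂.map fun g => periodize (bumpFn g) (x (oth₂ a))).prod := by
  fin_cases a <;>
    simp [Term.spaceFn, Term.space, spaceLists, oth₁, oth₂, Fin.prod_univ_three] <;> rfl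

lemma phaseTerm_eval (a : Fin 3) (q : RatCode) (m : ℕ) (g g₁ g₂ : Bump) (ν t : ℝ)
    (x : Fin 3 → ℝ) :
    Term.eval ν ((q, m, (-3 : ℤ), [], [(true, g)], spaceLists a [g₁] [g₂]) : Term) t x =
      (ratVal q : ℝ) * ν ^ m / kappa ^ 3 * periodize (bumpFn g) t *
        (periodize (bumpFn g₁) (x (oth₁ a)) * periodize (bumpFn g₂) (x (oth₂ a))) := by
  rw [Term.eval, spaceLists_prod]
  simp [Term.coeff, Term.timeFn, Term.q, Term.nuPow, Term.kappaPow, Term.logArgs, Term.time,
    zpow_neg, div_eq_mul_inv]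

lemma ratVal_scale (k : ℕ) (r : RatCode) :
    (ratVal (k * r.1, k * r.2.1, r.2.2) : ℝ) = k * (ratVal r : ℝ) := by
  simp only [ratVal]; push_cast; ring

lemma ratVal_visc (c e : RatCode) (he : e.2.2 = 1) :
    (ratVal (viscCoeff c e) : ℝ) = -24 * (ratVal c : ℝ) * (ratVal e : ℝ) := by
  simp only [ratVal, viscCoeff, he]; push_cast; ring

lemma boxBump2_den (k : ℕ) (B : Box) : ∀ e ∈ boxBump2 k B, e.1.2.2 = 1 := by
  intro e he
  unfold boxBump2 at he
  split at he <;> simp at he <;> aesop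

lemma summand_sum (a : Fin 3) (j : ℕ) {P : Piece} (hP : P.Good) (s : RatCode × ℕ × ℕ)
    (h1 : s.2.1 ≤ 1) (h2 : s.2.2 ≤ 1) (ν t : ℝ) (x : Fin 3 → ℝ) :
    ((summandTerms a j P s).map fun τ => τ.eval ν t x).sum =
      thetaDeriv j t * ((ratVal s.1 : ℝ) *
          (cut s.2.1 P.1 (x (oth₁ a)) * cut s.2.2 P.2.1 (x (oth₂ a)))) -
        ν * (theta j t * ((ratVal s.1 : ℝ) *
          (cut2 s.2.1 P.1 (x (oth₁ a)) * cut s.2.2 P.2.1 (x (oth₂ a)) +
            cut s.2.1 P.1 (x (oth₁ a)) * cut2 s.2.2 P.2.1 (x (oth₂ a))))) := by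
  simp only [summandTerms, List.map_cons, List.sum_cons, List.map_append, List.sum_append,
    accelTerm, viscTerms₁, viscTerms₂, List.map_map, Function.comp_def, phaseTerm_eval,
    cut2_eq_sum _ h1 hP.1, cut2_eq_sum _ h2 hP.2, cut]
  rw [ratVal_scale]
  have e1 : ∀ (L : List (RatCode × Bump)), (∀ e ∈ L, e.1.2.2 = 1) → ∀ (G : ℝ) (A : Bump → ℝ),
      (L.map fun e => (ratVal (viscCoeff s.1 e.1) : ℝ) * ν ^ 1 / kappa ^ 3 *
          periodize (bumpFn (phaseBump 0 j)) t * (A e.2 * G)).sum =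
        -24 * (ratVal s.1 : ℝ) * ν / kappa ^ 3 * periodize (bumpFn (phaseBump 0 j)) t * G *
          (L.map fun e => (ratVal e.1 : ℝ) * A e.2).sum := by
    intro L hL G A
    rw [← List.sum_map_mul_left]
    congr 1
    refine List.map_congr_left fun e he => ?_
    rw [ratVal_visc _ _ (hL e he)]; ring
  rw [e1 _ (boxBump2_den _ _) _ (fun g => periodize (bumpFn g) (x (oth₁ a)))]
  rw [show ((boxBump2 s.2.2 P.2.1).map fun e => (ratVal (viscCoeff s.1 e.1) : ℝ) * ν ^ 1 /
      kappa ^ 3 * periodize (bumpFn (phaseBump 0 j)) t *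
        (periodize (bumpFn (boxBump s.2.1 P.1)) (x (oth₁ a)) *
          periodize (bumpFn e.2) (x (oth₂ a)))) = _ from
    List.map_congr_left fun e _ => by
      rw [mul_comm (periodize (bumpFn (boxBump s.2.1 P.1)) (x (oth₁ a)))],
    e1 _ (boxBump2_den _ _) _ (fun g => periodize (bumpFn g) (x (oth₂ a)))]
  simp only [theta, thetaDeriv, pow_zero]
  push_cast
  ring

lemma phaseTerms_eval (a : Fin 3) (j : ℕ) {L : List Piece} (hL : ∀ P ∈ L, P.Good) (ν t : ℝ)
    (x : Fin 3 → ℝ) :
    ((phaseTerms a j L).map fun τ => τ.eval ν t x).sum =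
      thetaDeriv j t * profile a L x - ν * (theta j t * profileLap a L x) := by
  induction L with
  | nil => simp [phaseTerms, profile, profileLap, allSummands]
  | cons P L ih =>
    have ih' := ih fun Q hQ => hL Q (List.mem_cons_of_mem _ hQ)
    have hP := hL P List.mem_cons_self
    simp only [phaseTerms, List.flatMap_cons, List.map_append, List.sum_append] at ih' ⊢
    rw [ih']
    simp only [profile, profileLap, allSummands, List.flatMap_cons, List.map_append, List.sum_append,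
      Piece.summands, List.flatMap_nil, List.map_cons, List.map_nil, List.sum_cons, List.sum_nil,
      List.append_nil]
    rw [summand_sum a j hP _ (by simp) (by simp), summand_sum a j hP _ (by simp) (by simp),
      summand_sum a j hP _ (by simp) (by simp)]
    ring

lemma loadTerm_eval (B : Box) (ν t : ℝ) (x : Fin 3 → ℝ) :
    (loadTerm B).eval ν t x = lamDeriv t * ((B.2 : ℝ) / B.1) := by
  simp [loadTerm, Term.eval, Term.coeff, Term.timeFn, Term.spaceFn, Term.space, Term.q,
    Term.nuPow, Term.kappaPow, Term.logArgs, Term.time, lamDeriv, ratVal, Fin.prod_univ_three,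
    zpow_neg]
  ring

lemma forceCode_eval (hg : σ.Good) (c₀ : ℕ) (w : List ℕ) (ν : ℝ) :
    forceOf ν (σ.forceCode c₀ w) = σ.velForce ν c₀ w := by
  funext t x i
  simp only [forceOf, Sys.velForce, Fin.sum_univ_six, phaseAxis, Sys.load]
  have h0 := phaseTerms_eval 2 0 (hg 0) ν t x
  have h1 := phaseTerms_eval 2 1 (hg 1) ν t x
  have h2 := phaseTerms_eval 0 2 (hg 2) ν t x
  have h3 := phaseTerms_eval 1 3 (hg 3) ν t x
  have h4 := phaseTerms_eval 0 4 (hg 4) ν t x
  have h5 := phaseTerms_eval 2 5 (hg 5) ν t x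
  simp [Sys.phase] at h0 h1 h2 h3 h4 h5
  fin_cases i <;>
    simp [ForceCode.component, Sys.forceCode, List.map_append, List.sum_append, loadTerm_eval,
      Sys.phase, h0, h1, h2, h3, h4, h5] <;> ring

end

end Vale.Agent.P113
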